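import Vale.Agent.P092.H289.O2

/-!
P092, CL-O (orthogonal groups), block [CLO-U2] (helper289), part 3: the orbit property of the root
groups `u1`, `u2` under every torus element which expands them, for any subgroup `T` of the isometry
group of `hyp (s + 2) 1 J₀` and any source group `E` (`φ : T →* E` continuous and proper), both legs
of the row model.
-/

set_option linter.all false

open scoped InnerProductSpace ENNReal NNReal
open Matrix Module Set Filter Topology MeasureTheory ContinuousLinearMap MeasureTheory.Measure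

namespace Vale.Agent.P092.H289.O3

open Vale.Agent.P092.H303 (FormGroup Idx hyp torF torF_mem dgF hypAt_l hypAt_r)
open Vale.Agent.P092.H714.Sg (Fm)
open Vale.Agent.P092.H289.O2
open Vale.Agent.P092.H71.P
open Vale.Agent.P092.H71.CLO (wz wz_lt)
open Vale.Agent.P092.H368.SN (Spr)
open Vale.Agent.P092.SR Vale.Agent.P092.H160 Vale.Agent.P092.H368
open Vale.Agent.P092.RC (Cm KK pic XX Om lam₁ lam₂)
open Vale.Agent.P092.H790.CTA (ORBG)

variable {k : Type} [NontriviallyNormedField k] [ProperSpace k] [MeasurableSpace k] [BorelSpace k]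
  {s : ℕ} {ι : Type} [Fintype ι] [DecidableEq ι]
  {J₀ : Matrix ι ι k} {T : Subgroup (FormGroup (RingHom.id k) (hyp (s + 2) 1 J₀))}
  (hF : Fm (RingHom.id k) 1 (hyp (s + 2) 1 J₀)) {w : k} (hw : w ≠ 0) (hw1 : ‖w‖ < 1)
  {l : Fin (s + 2) → ℤ} {b : T} (hb : b.1.1 = torF (s + 2) ι hw l)
  {E : Type} [Group E] [TopologicalSpace E] [IsTopologicalGroup E] [LocallyCompactSpace E]
  [SecondCountableTopology E] [T2Space E] [MeasurableSpace E] [BorelSpace E]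
  {φ : T →* E} (hφc : Continuous φ) (hφ : PrpG φ)
  {Γ : Subgroup E} [DiscreteTopology Γ] [MeasurableSpace (E ⧸ Γ)] [BorelSpace (E ⧸ Γ)]
  {ν : Measure (E ⧸ Γ)} [IsProbabilityMeasure ν] [Countable Γ]
  (hν : ∀ g : E, ν.map (fun x => g • x) = ν)
  {Λ : Type} [Group Λ] {α : Γ →* (Ell2 Λ →L[ℂ] Ell2 Λ)} (hα : Frame α)

omit [ProperSpace k] [MeasurableSpace k] [BorelSpace k] [DecidableEq ι] in
theorem dilV_exp' (c : kˣ) (v : ι → k) :
    ‖(c : k)‖ * ‖v‖ ≤ ‖dilV (k := k) (P := ι → k) c v‖ := by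
  rw [dilV_apply, norm_smul]

omit [ProperSpace k] [MeasurableSpace k] [BorelSpace k] [DecidableEq ι] in
theorem dilV_exp1 (c : kˣ) (v : k) : ‖(c : k)‖ * ‖v‖ ≤ ‖dilV (k := k) (P := k) c v‖ := by
  rw [dilV_apply, smul_eq_mul, norm_mul]

include hF hw1 hb hφc hφ

/-- **`u1`, first leg** -/
theorem orbU1₁ (hl : 0 < l 0 + l 1) {n : k → T} (hn : IsU1 n) {μ : Measure k}
    [μ.IsAddHaarMeasure] : ∃ ρ : ℝ, 0 < ρ ∧ ρ < 1 ∧ ORBG μ (φ b) (fun s => φ (n s)) ρ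
      (pic hν hα) (lam₁ ν α) (XX ν Λ ∪ Set.range (lam₂ ν α)) (Om ν Λ) :=
  orbG₁ hφc hφ hν hα (u1_cont hF hn) (wz_lt hw hw1 hl) (dilV_exp1 _) ⟨1, one_ne_zero⟩
    (spr1 hF hw hb hn)

/-- **`u1`, second leg** -/
theorem orbU1₂ (hl : 0 < l 0 + l 1) {n : k → T} (hn : IsU1 n) {μ : Measure k}
    [μ.IsAddHaarMeasure] : ∃ ρ : ℝ, 0 < ρ ∧ ρ < 1 ∧ ORBG μ (φ b) (fun s => φ (n s)) ρ
      (pic hν hα) (lam₂ ν α) (XX ν Λ ∪ Set.range (lam₁ ν α)) (Om ν Λ) :=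
  orbG₂ hφc hφ hν hα (u1_cont hF hn) (wz_lt hw hw1 hl) (dilV_exp1 _) ⟨1, one_ne_zero⟩
    (spr1 hF hw hb hn)

variable (h2 : (2 : k) ≠ 0) [Nonempty ι]

include h2

/-- **`u2`, first leg** -/
theorem orbU2₁ (hl : 0 < l 1) {n : (ι → k) → T} (hn : IsU2 n) {μ : Measure (ι → k)}
    [μ.IsAddHaarMeasure] : ∃ ρ : ℝ, 0 < ρ ∧ ρ < 1 ∧ ORBG μ (φ b) (fun s => φ (n s)) ρ
      (pic hν hα) (lam₁ ν α) (XX ν Λ ∪ Set.range (lam₂ ν α)) (Om ν Λ) :=
  orbG₁ hφc hφ hν hα (u2_cont hF h2 hn) (wz_lt hw hw1 hl) (dilV_exp' _)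
    ⟨fun _ => 1, fun h => one_ne_zero (congrFun h (Classical.arbitrary ι))⟩ (spr2 hF hw hb h2 hn)

/-- **`u2`, second leg** -/
theorem orbU2₂ (hl : 0 < l 1) {n : (ι → k) → T} (hn : IsU2 n) {μ : Measure (ι → k)}
    [μ.IsAddHaarMeasure] : ∃ ρ : ℝ, 0 < ρ ∧ ρ < 1 ∧ ORBG μ (φ b) (fun s => φ (n s)) ρ
      (pic hν hα) (lam₂ ν α) (XX ν Λ ∪ Set.range (lam₁ ν α)) (Om ν Λ) :=
  orbG₂ hφc hφ hν hα (u2_cont hF h2 hn) (wz_lt hw hw1 hl) (dilV_exp' _)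
    ⟨fun _ => 1, fun h => one_ne_zero (congrFun h (Classical.arbitrary ι))⟩ (spr2 hF hw hb h2 hn)

end Vale.Agent.P092.H289.O3
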