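import Vale.Agent.P092.H370.Cg4
import Vale.Agent.P092.H289.O3

/-!
P092, CL-O (orthogonal groups), block [CLO-U2] (helper289), part 4: fields of `CL.Geo` for a
subgroup `T` of the isometry group of `hyp (s + 2) 1 J₀` which contains the Eichler group, in the
letters of `CL/Lt` (`p0`, `m0`, `b1`, `b2`): base points fixed, contraction, unboundedness.
-/

set_option linter.all false

open Matrix Module Set Filter Topology

namespace Vale.Agent.P092.H289.O4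

open Vale.Agent.P092.H303 (FormGroup Idx hyp torF torF_mem dgF hypAt_l hypAt_r)
open Vale.Agent.P092.H714.Cl
open Vale.Agent.P092.H714.Sg (Fm)
open Vale.Agent.P092.H370.Po (SGr Inc Col Sing WI smul_eq_of_fix smul_S)
open Vale.Agent.P092.H370.Fo
open Vale.Agent.P092.H370.Cg (conj_fix trans_not_col smul_iso exists_indep exists_see see_iso
  ep_iso p0_eq m0_eq pow_diag bs pn single_mem_cs smul_cs_diag)
open Vale.Agent.P092.H289.O2
open Vale.Agent.P092.H71.CLO (wz wz_lt)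

/-! ### General lemmas -/

section gen

variable {k : Type} [NontriviallyNormedField k] {G₀ P : Type} [Group G₀]

theorem pow_conj {b : G₀} [NormedAddCommGroup P] [NormedSpace k P] {n : P → G₀} {c : k}
    (hb : ∀ t, b * n t = n (c • t) * b) (N : ℕ) (t : P) : b ^ N * n t = n (c ^ N • t) * b ^ N := by
  induction N generalizing t with
  | zero => simp
  | succ N ih =>
    rw [pow_succ, mul_assoc, hb, ← mul_assoc, ih, mul_assoc, smul_smul, pow_succ]

/-- **contraction** -/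
theorem con_of [TopologicalSpace G₀] {b : G₀} [NormedAddCommGroup P] [NormedSpace k P]
    {n : P → G₀} (hn : Continuous n) (h0 : n 0 = 1) {c : k} (hc : 1 < ‖c‖)
    (hb : ∀ t, b * n t = n (c • t) * b) (t : P) :
    Tendsto (fun N : ℕ => (b ^ N)⁻¹ * n t * b ^ N) atTop (𝓝 1) := by
  have hc0 : c ≠ 0 := by
    rintro rfl
    rw [norm_zero] at hc
    linarith
  have e : ∀ N : ℕ, (b ^ N)⁻¹ * n t * b ^ N = n ((c⁻¹) ^ N • t) := by
    intro N
    have h1 := pow_conj hb N ((c⁻¹) ^ N • t)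
    rw [smul_smul, ← mul_pow, mul_inv_cancel₀ hc0, one_pow, one_smul] at h1
    rw [mul_assoc, ← h1, inv_mul_cancel_left]
  simp only [e]
  rw [← h0]
  refine (hn.tendsto 0).comp ?_
  have h2 : ‖c⁻¹‖ < 1 := by
    rw [norm_inv]
    exact inv_lt_one_of_one_lt₀ hc
  have h3 := (tendsto_pow_atTop_nhds_zero_of_norm_lt_one h2).smul_const t
  rwa [zero_smul] at h3

variable {nm : G₀ → ℝ}

/-- a family seen by a continuous function is unbounded -/
theorem unb_see' {G₀ : Type} [TopologicalSpace G₀] {nm : G₀ → ℝ}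
    (hc : ∀ C : ℝ, IsCompact {g : G₀ | nm g ≤ C}) {F : G₀ → k} (hF : Continuous F)
    {ψ : k → G₀} {c : k} (hψ : ∀ s, F (ψ s) = c + s) (C : ℝ) : ∃ s, C ≤ nm (ψ s) := by
  by_contra h
  push Not at h
  obtain ⟨B, hB⟩ := (hc C).exists_bound_of_continuousOn (f := F) hF.continuousOn
  obtain ⟨s, hs⟩ := NormedField.exists_lt_norm k (B + ‖c‖)
  have h1 := hB (ψ s) (h s).le
  rw [hψ] at h1
  have h2 : ‖s‖ ≤ ‖c + s‖ + ‖c‖ := by
    have h3 := norm_sub_le (c + s) c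
    rwa [add_sub_cancel_left] at h3
  linarith

/-- conjugates -/
theorem nm_conj' (h1 : ∀ g, 0 < nm g)
    (h2 : ∃ C : ℝ, 0 < C ∧ ∀ g h, nm (g * h) ≤ C * (nm g * nm h)) (g : G₀) :
    ∃ c : ℝ, 0 < c ∧ ∀ x, nm x ≤ c * nm (g * x * g⁻¹) := by
  obtain ⟨C, hC, h⟩ := h2
  refine ⟨C * C * nm g⁻¹ * nm g, by have := h1 g; have := h1 g⁻¹; positivity, fun x => ?_⟩
  have e : x = g⁻¹ * (g * x * g⁻¹) * g := by group
  have h3 := h (g⁻¹ * (g * x * g⁻¹)) g
  have h4 := h g⁻¹ (g * x * g⁻¹)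
  rw [← e] at h3
  have h5 : nm (g⁻¹ * (g * x * g⁻¹)) * nm g ≤ C * (nm g⁻¹ * nm (g * x * g⁻¹)) * nm g :=
    mul_le_mul_of_nonneg_right h4 (h1 g).le
  calc nm x ≤ C * (nm (g⁻¹ * (g * x * g⁻¹)) * nm g) := h3
    _ ≤ C * (C * (nm g⁻¹ * nm (g * x * g⁻¹)) * nm g) := mul_le_mul_of_nonneg_left h5 hC.le
    _ = C * C * nm g⁻¹ * nm g * nm (g * x * g⁻¹) := by ring

/-- unbounded families stay unbounded under conjugation -/
theorem unb_conj' (h1 : ∀ g, 0 < nm g)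
    (h2 : ∃ C : ℝ, 0 < C ∧ ∀ g h, nm (g * h) ≤ C * (nm g * nm h)) {A : Type} {ψ : A → G₀}
    (h : ∀ C : ℝ, ∃ s, C ≤ nm (ψ s)) (g : G₀) (C : ℝ) : ∃ s, C ≤ nm (g * ψ s * g⁻¹) := by
  obtain ⟨c, hc, h3⟩ := nm_conj' h1 h2 g
  obtain ⟨s, hs⟩ := h (c * C)
  refine ⟨s, ?_⟩
  have h4 := hs.trans (h3 (ψ s))
  exact le_of_mul_le_mul_left h4 hc

end gen

/-! ### Unboundedness of pair stabilisers, any form -/

section unb

variable {n : Type} [Fintype n] [DecidableEq n] {k : Type} [NontriviallyNormedField k]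
  {σ : k →+* k} {ε : k} {J : Matrix n n k} {T : Subgroup (FormGroup σ J)} {nm : T → ℝ}
  (hT : ∀ g : FormGroup σ J, g.1 ∈ EU σ ε J → g ∈ T)

include hT

/-- two singular spaces which contain independent orthogonal vectors: their common stabiliser is
unbounded -/
theorem unb_isoT (hF : Fm σ ε J) (hc : ∀ C : ℝ, IsCompact {g : T | nm g ≤ C})
    {i j : ℕ} {X : SGr σ J i} {Y : SGr σ J j} {u v : n → k} (hu : hf σ J u u = 0)
    (hv : hf σ J v v = 0) (huv : hf σ J u v = 0) (hvu : v ∉ Submodule.span k {u}) (hu0 : u ≠ 0)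
    (hX : u ∈ X.S ∨ v ∈ X.S) (hY : u ∈ Y.S ∨ v ∈ Y.S) (C : ℝ) :
    ∃ g : T, g • X = X ∧ g • Y = Y ∧ C ≤ nm g := by
  obtain ⟨z, t, h1, h2, h3⟩ := exists_see hF hu0 hvu
  have hcont : Continuous fun g : T => hf σ J (z ᵥ* g.1.1.1) t := by
    have e : Continuous fun g : T => g.1.1.1 := (jO_ind (T := T)).continuous
    change Continuous fun g : T => (z ᵥ* g.1.1.1) ⬝ᵥ (J *ᵥ fun i => σ (t i))
    refine continuous_finset_sum _ fun a _ => ?_
    refine Continuous.mul ?_ continuous_const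
    change Continuous fun g : T => ∑ b, z b * g.1.1.1 b a
    refine continuous_finset_sum _ fun b _ => continuous_const.mul ?_
    exact (continuous_apply_apply b a).comp e
  have hm : ∀ s : k, ei σ ε J u (s • v) 0 ∈ EU σ ε J := fun s =>
    ei_mem_EU (ep_iso hF hu hv huv s)
  let ψ : k → T := fun s =>
    ⟨⟨ei σ ε J u (s • v) 0, ei_mem hF (ep_iso hF hu hv huv s)⟩, hT _ (hm s)⟩
  have hψ : ∀ s, hf σ J (z ᵥ* (ψ s).1.1.1) t = hf σ J z t + s := fun s =>
    see_iso hF hu hv huv h1 h2 h3 s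
  obtain ⟨s, hs⟩ := unb_see' hc hcont (ψ := ψ) (c := hf σ J z t) hψ C
  refine ⟨ψ s, ?_, ?_, hs⟩
  · change (ψ s).1 • X = X
    exact smul_iso hF hu hv huv s hX
  · change (ψ s).1 • Y = Y
    exact smul_iso hF hu hv huv s hY

end unb

/-! ### The fields -/

section fields

variable {k : Type} [NontriviallyNormedField k] {ι : Type} [Fintype ι] [DecidableEq ι]
  {s : ℕ} {J₀ : Matrix ι ι k} {T : Subgroup (FormGroup (RingHom.id k) (hyp (s + 2) 1 J₀))}

theorem hf_span0 {x : Idx (s + 2) ι → k} {I : Set (Fin (s + 2))}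
    (hx : x ∈ Submodule.span k (CL.ep k ι '' I)) (v : ι → k) :
    hf (RingHom.id k) (hyp (s + 2) 1 J₀) x (x0 s v) = 0 := by
  induction hx using Submodule.span_induction with
  | mem x hx =>
    obtain ⟨i, -, rfl⟩ := hx
    exact h_p0 i v
  | zero => exact hf_zero_left _ _ _
  | add a b _ _ ha hb => rw [hf_add_left, ha, hb, add_zero]
  | smul c a _ ha => rw [hf_smul_left, ha, mul_zero]

theorem hf_spanp {x : Idx (s + 2) ι → k} {I : Set (Fin (s + 2))}
    (hx : x ∈ Submodule.span k (CL.ep k ι '' I)) (j : Fin (s + 2)) :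
    hf (RingHom.id k) (hyp (s + 2) 1 J₀) x (xp k ι j) = 0 :=
  CL.hf_span (I := univ) (Submodule.span_mono (image_mono (subset_univ _)) hx)
    (Submodule.subset_span (mem_image_of_mem _ trivial))

variable (hF : Fm (RingHom.id k) 1 (hyp (s + 2) 1 J₀))

include hF

theorem u1_p0 {n : k → T} (hn : IsU1 n) (t : k) :
    n t • (CL.p0 : SGr (RingHom.id k) (hyp (s + 2) 1 J₀) 1) = CL.p0 := by
  change (n t).1 • (CL.p0 : SGr (RingHom.id k) (hyp (s + 2) 1 J₀) 1) = CL.p0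
  refine smul_eq_of_fix fun x hx => ?_
  rw [hn t]
  exact u1_fix hF t (hf_spanp hx 0) (hf_spanp hx 1)

theorem u1_m0 {n : k → T} (hn : IsU1 n) (t : k) :
    n t • (CL.m0 : SGr (RingHom.id k) (hyp (s + 2) 1 J₀) (s + 2)) = CL.m0 := by
  change (n t).1 • (CL.m0 : SGr (RingHom.id k) (hyp (s + 2) 1 J₀) (s + 2)) = CL.m0
  refine smul_eq_of_fix fun x hx => ?_
  rw [hn t]
  exact u1_fix hF t (hf_spanp hx 0) (hf_spanp hx 1)

theorem u2_p0 (h2 : (2 : k) ≠ 0) {n : (ι → k) → T} (hn : IsU2 n) (v : ι → k) :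
    n v • (CL.p0 : SGr (RingHom.id k) (hyp (s + 2) 1 J₀) 1) = CL.p0 := by
  change (n v).1 • (CL.p0 : SGr (RingHom.id k) (hyp (s + 2) 1 J₀) 1) = CL.p0
  refine smul_eq_of_fix fun x hx => ?_
  rw [hn v]
  exact u2_fix hF h2 v (hf_spanp hx 1) (hf_span0 hx v)

theorem u2_m0 (h2 : (2 : k) ≠ 0) {n : (ι → k) → T} (hn : IsU2 n) (v : ι → k) :
    n v • (CL.m0 : SGr (RingHom.id k) (hyp (s + 2) 1 J₀) (s + 2)) = CL.m0 := by
  change (n v).1 • (CL.m0 : SGr (RingHom.id k) (hyp (s + 2) 1 J₀) (s + 2)) = CL.m0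
  refine smul_eq_of_fix fun x hx => ?_
  rw [hn v]
  exact u2_fix hF h2 v (hf_spanp hx 1) (hf_span0 hx v)

/-- `u2` fixes the opposite base point -/
theorem u2_pn (h2 : (2 : k) ≠ 0) {n : (ι → k) → T} (hn : IsU2 n) (v : ι → k) :
    n v • pn (RingHom.id k) 1 J₀ (s + 1) = pn (RingHom.id k) 1 J₀ (s + 1) := by
  change (n v).1 • pn (RingHom.id k) 1 J₀ (s + 1) = pn (RingHom.id k) 1 J₀ (s + 1)
  refine smul_eq_of_fix fun x hx => ?_
  have hx' : x = x (.inl (.inr 0)) • xm k ι 0 := by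
    have h1 := H370.Cg.mem_cs.1 hx
    funext y
    by_cases hy : y = .inl (.inr 0)
    · subst hy
      have e : xm k ι 0 (.inl (.inr (0 : Fin (s + 2)))) = 1 := Pi.single_eq_same _ _
      rw [Pi.smul_apply, e, smul_eq_mul, mul_one]
    · have e : xm k ι (0 : Fin (s + 2)) y = 0 := Pi.single_eq_of_ne hy _
      rw [Pi.smul_apply, e, smul_zero]
      exact h1 y fun a ha => hy ha.symm
  rw [hn v]
  refine u2_fix hF h2 v ?_ ?_
  · rw [hx', hf_smul_left, h_mp, if_neg (by simp), mul_zero]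
  · rw [hx', hf_smul_left, h_m0, mul_zero]

/-- **contraction of `u1`** -/
theorem con_u1 {w : k} (hw : w ≠ 0) (hw1 : ‖w‖ < 1) {l : Fin (s + 2) → ℤ} (hl : 0 < l 0 + l 1)
    {b : T} (hb : b.1.1 = torF (s + 2) ι hw l) {n : k → T} (hn : IsU1 n) (t : k) :
    Tendsto (fun N : ℕ => (b ^ N)⁻¹ * n t * b ^ N) atTop (𝓝 1) :=
  con_of (u1_cont hF hn) (u1_zero hF hn) (wz_lt hw hw1 hl) (u1_conj hF hw hb hn) t

variable {nm : T → ℝ} (hT : ∀ g : FormGroup (RingHom.id k) (hyp (s + 2) 1 J₀),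
  g.1 ∈ EU (RingHom.id k) 1 (hyp (s + 2) 1 J₀) → g ∈ T)

/-- **unbu** -/
theorem unbu (hc : ∀ C : ℝ, IsCompact {g : T | nm g ≤ C}) (h1 : ∀ g, 0 < nm g)
    (h2 : ∃ C : ℝ, 0 < C ∧ ∀ g h, nm (g * h) ≤ C * (nm g * nm h)) {n : k → T} (hn : IsU1 n)
    (g : T) (C : ℝ) : ∃ t, C ≤ nm (g * n t * g⁻¹) := by
  refine unb_conj' h1 h2 (ψ := n) (fun C => ?_) g C
  have hcont : Continuous fun g : T => g.1.1.1 (Sum.inl (Sum.inr 0)) (Sum.inl (Sum.inl 1)) :=
    (continuous_apply_apply (Sum.inl (Sum.inr 0) : Idx (s + 2) ι)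
      (Sum.inl (Sum.inl 1) : Idx (s + 2) ι)).comp (jO_ind (T := T)).continuous
  exact unb_see' hc hcont (ψ := n) (c := 0) (fun t => by rw [zero_add, hn t, u1_row hF]) C

include hT

/-- **unb2** -/
theorem unb2 (hc : ∀ C : ℝ, IsCompact {g : T | nm g ≤ C})
    (x y : SGr (RingHom.id k) (hyp (s + 2) 1 J₀) (s + 2)) (C : ℝ) :
    ∃ g : T, g • x = x ∧ g • y = y ∧ C ≤ nm g := by
  obtain ⟨u, hu, v, hv, hu0, hvu, huv⟩ := exists_indep hF (X := x.S) (Y := y.S)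
    (by rw [x.dim]; omega) y.sing (by rw [y.dim]; omega)
  exact unb_isoT hT hF hc (x.sing u hu u hu) (y.sing v hv v hv) huv hvu hu0 (Or.inl hu)
    (Or.inr hv) C

/-- **unb1** -/
theorem unb1 (hFo : Fo (RingHom.id k) 1 (hyp (s + 2) 1 J₀)) {w : k} (hw : w ≠ 0)
    {l : Fin (s + 2) → ℤ} {b : T} (hb : b.1.1 = torF (s + 2) ι hw l)
    (hc : ∀ C : ℝ, IsCompact {g : T | nm g ≤ C}) (h1 : ∀ g, 0 < nm g)
    (h2 : ∃ C : ℝ, 0 < C ∧ ∀ g h, nm (g * h) ≤ C * (nm g * nm h))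
    (h3 : Tendsto (fun N : ℕ => nm (b ^ N)) atTop atTop)
    (x y : SGr (RingHom.id k) (hyp (s + 2) 1 J₀) 1) (C : ℝ) :
    ∃ g : T, g • x = x ∧ g • y = y ∧ C ≤ nm g := by
  by_cases hxy : Col x y
  · obtain ⟨m, hm⟩ : ∃ m : SGr (RingHom.id k) (hyp (s + 2) 1 J₀) (s + 2), Inc x m :=
      exists_inc_ge hFo (by omega) le_rfl x
        (CL.m0 : SGr (RingHom.id k) (hyp (s + 2) 1 J₀) (s + 2))
    obtain ⟨v, h0, hv, rfl⟩ := exists_ptv x
    obtain ⟨v', h0', hv', rfl⟩ := exists_ptv y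
    rw [col_ptv] at hxy
    have hvl : v ∈ m.S := (inc_ptv h0 hv).1 hm
    have m1 : v ∈ (ptv v h0 hv).S := Submodule.mem_span_singleton_self v
    have m2 : v' ∈ (ptv v' h0' hv').S := Submodule.mem_span_singleton_self v'
    by_cases hs : v' ∈ Submodule.span k {v}
    · have h4 : ¬ m.S ≤ Submodule.span k {v} := by
        intro h
        have h5 := Submodule.finrank_mono h
        rw [finrank_span_singleton h0, m.dim] at h5
        omega
      obtain ⟨z, hz, hzv⟩ := SetLike.not_le_iff_exists.1 h4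
      have e : ptv v' h0' hv' = ptv v h0 hv := (ptv_eq h0' hv' h0 hv).2 hs
      rw [e]
      exact unb_isoT hT hF hc hv (m.sing z hz z hz) (m.sing v hvl z hz) hzv h0 (Or.inl m1)
        (Or.inl m1) C
    · exact unb_isoT hT hF hc hv hv' hxy hs h0 (Or.inl m1) (Or.inr m2) C
  · have h4 : ¬ Col (CL.p0 : SGr (RingHom.id k) (hyp (s + 2) 1 J₀) 1)
        (pn (RingHom.id k) 1 J₀ (s + 1)) := by
      intro h
      have h5 := h (Pi.single (.inl (.inl 0)) 1) (by rw [p0_eq]; exact single_mem_cs (0 : Fin 1))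
        (Pi.single (.inl (.inr 0)) 1) (single_mem_cs (0 : Fin 1))
      rw [H631.P2.hf_eR, Pi.single_eq_same] at h5
      exact one_ne_zero h5
    obtain ⟨g, hg, h5, h6⟩ := trans_not_col hFo h4 hxy
    obtain ⟨N, hN⟩ := unb_conj' h1 h2 (ψ := fun N : ℕ => b ^ N)
      (fun C => (h3.eventually_ge_atTop C).exists) ⟨g, hT g hg⟩ C
    have hbN : ((b ^ N).1).1.1 = diagonal fun i => dgF (s + 2) ι w l i ^ N := by
      change (b.1 ^ N).1.1 = _
      exact pow_diag (d := dgF (s + 2) ι w l) (by rw [hb]; rfl) N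
    refine ⟨_, conj_fix (g := (⟨g, hT g hg⟩ : T)) h5 ?_, conj_fix (g := (⟨g, hT g hg⟩ : T)) h6 ?_,
      hN⟩
    · rw [p0_eq]
      exact smul_cs_diag (g := (b ^ N).1) hbN
    · exact smul_cs_diag (g := (b ^ N).1) hbN

end fields

end Vale.Agent.P092.H289.O4
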