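import Vale.Agent.P092.CL.LtO
import Vale.Agent.P092.H289.O4

/-!
P092, CL-O (orthogonal groups), block [CLO-U2] (helper289), part 5: fields of `CL.Geo` for the
letters `ltO` (helper387): `b1p … b2m`, `u1p … u2m`, `u1c`, `u10`, `u2c`, `u20`, `con1`, `con2`,
`unb1`, `unb2`, `unbu`.
-/

set_option linter.all false

open Matrix Module Set Filter Topology MeasureTheory

namespace Vale.Agent.P092.H289.O5

open Vale.Agent.P092.H303 (FormGroup Idx hyp torF torF_mem dgF hypAt_l hypAt_r)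
open Vale.Agent.P092.H714.Cl
open Vale.Agent.P092.H714.Sg (Fm)
open Vale.Agent.P092.H370.Po (SGr Inc Col)
open Vale.Agent.P092.H370.Fo
open Vale.Agent.P092.CL (OF EUF u1O u2O b1O b2O ltO p0 m0)
open Vale.Agent.P092.H289.O2 (IsU1 IsU2 spr1 spr2)
open Vale.Agent.P092.H71.CLO (wz wz_lt)
open Vale.Agent.P092.H71.P (rt rt_pos rt_lt dilV)

variable {k : Type} [NontriviallyNormedField k] {ι : Type} [Fintype ι] [DecidableEq ι]
  {J₀ : Matrix ι ι k} (h : OF J₀) (s : ℕ) {a : k} (ha : a ≠ 0)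

theorem isU1 : IsU1 (u1O h s) := fun _ => rfl

theorem isU2 : IsU2 (u2O h s) := fun _ => rfl

theorem hT (g : FormGroup (RingHom.id k) (hyp (s + 2) 1 J₀))
    (hg : g.1 ∈ EU (RingHom.id k) 1 (hyp (s + 2) 1 J₀)) :
    g ∈ EUF (RingHom.id k) 1 (hyp (s + 2) 1 J₀) := hg

theorem b1_val : (b1O h s ha).1.1 = torF (s + 2) ι (pow_ne_zero 2 ha) (Pi.single 0 1) := rfl

theorem b2_val : (b2O h s ha).1.1 = torF (s + 2) ι (pow_ne_zero 2 ha) fun _ => 1 := rfl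

theorem l1_pos : 0 < (Pi.single 0 1 : Fin (s + 2) → ℤ) 0 + (Pi.single 0 1 : Fin (s + 2) → ℤ) 1 := by
  rw [Pi.single_eq_same, Pi.single_eq_of_ne (by simp)]
  norm_num

theorem sq_lt {a : k} (ha1 : ‖a‖ < 1) : ‖a ^ 2‖ < 1 := by
  rw [norm_pow]
  exact pow_lt_one₀ (norm_nonneg _) ha1 two_ne_zero

/-! ### Fields of `Geo` -/

theorem u1c : Continuous (u1O h s) := O2.u1_cont (h.fm s) (isU1 h s)
theorem u10 : u1O h s 0 = 1 := O2.u1_zero (h.fm s) (isU1 h s)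
theorem u2c : Continuous (u2O h s) := O2.u2_cont (h.fm s) h.two (isU2 h s)
theorem u20 : u2O h s 0 = 1 := O2.u2_zero (h.fm s) h.two (isU2 h s)

theorem u1p (t : k) : u1O h s t • (p0 : SGr (RingHom.id k) (hyp (s + 2) 1 J₀) 1) = p0 :=
  O4.u1_p0 (h.fm s) (isU1 h s) t
theorem u1m (t : k) : u1O h s t • (m0 : SGr (RingHom.id k) (hyp (s + 2) 1 J₀) (s + 2)) = m0 :=
  O4.u1_m0 (h.fm s) (isU1 h s) t
theorem u2p (v : ι → k) : u2O h s v • (p0 : SGr (RingHom.id k) (hyp (s + 2) 1 J₀) 1) = p0 :=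
  O4.u2_p0 (h.fm s) h.two (isU2 h s) v
theorem u2m (v : ι → k) :
    u2O h s v • (m0 : SGr (RingHom.id k) (hyp (s + 2) 1 J₀) (s + 2)) = m0 :=
  O4.u2_m0 (h.fm s) h.two (isU2 h s) v
theorem u2pn (v : ι → k) : u2O h s v • H370.Cg.pn (RingHom.id k) 1 J₀ (s + 1) =
    H370.Cg.pn (RingHom.id k) 1 J₀ (s + 1) := O4.u2_pn (h.fm s) h.two (isU2 h s) v

theorem b1p : b1O h s ha • (p0 : SGr (RingHom.id k) (hyp (s + 2) 1 J₀) 1) = p0 :=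
  H370.Cg.b1_p0 (pow_ne_zero 2 ha) rfl
theorem b1m : b1O h s ha • (m0 : SGr (RingHom.id k) (hyp (s + 2) 1 J₀) (s + 2)) = m0 :=
  H370.Cg.b1_m0 (pow_ne_zero 2 ha) rfl
theorem b2p : b2O h s ha • (p0 : SGr (RingHom.id k) (hyp (s + 2) 1 J₀) 1) = p0 :=
  H370.Cg.b2_p0 (pow_ne_zero 2 ha) rfl
theorem b2m : b2O h s ha • (m0 : SGr (RingHom.id k) (hyp (s + 2) 1 J₀) (s + 2)) = m0 :=
  H370.Cg.b2_m0 (pow_ne_zero 2 ha) rfl

theorem con1 (ha1 : ‖a‖ < 1) (t : k) :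
    Tendsto (fun N : ℕ => (b1O h s ha ^ N)⁻¹ * u1O h s t * b1O h s ha ^ N) atTop (𝓝 1) :=
  O4.con_u1 (h.fm s) (pow_ne_zero 2 ha) (sq_lt ha1) (l1_pos s) (b1_val h s ha) (isU1 h s) t

theorem con2 (ha1 : ‖a‖ < 1) (t : k) :
    Tendsto (fun N : ℕ => (b2O h s ha ^ N)⁻¹ * u1O h s t * b2O h s ha ^ N) atTop (𝓝 1) :=
  O4.con_u1 (h.fm s) (pow_ne_zero 2 ha) (sq_lt ha1) (by norm_num) (b2_val h s ha) (isU1 h s) t

section unb

variable {nm : EUF (RingHom.id k) 1 (hyp (s + 2) 1 J₀) → ℝ}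
  (hc : ∀ C : ℝ, IsCompact {g : EUF (RingHom.id k) 1 (hyp (s + 2) 1 J₀) | nm g ≤ C})

include h hc

theorem unb2 (x y : SGr (RingHom.id k) (hyp (s + 2) 1 J₀) (s + 2)) (C : ℝ) :
    ∃ g : EUF (RingHom.id k) 1 (hyp (s + 2) 1 J₀), g • x = x ∧ g • y = y ∧ C ≤ nm g :=
  O4.unb2 (h.fm s) (hT s) hc x y C

variable (h1 : ∀ g, 0 < nm g) (h2 : ∃ C : ℝ, 0 < C ∧ ∀ g g', nm (g * g') ≤ C * (nm g * nm g'))

include h1 h2

theorem unb1 (hFo : Fo (RingHom.id k) 1 (hyp (s + 2) 1 J₀))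
    (h3 : Tendsto (fun N : ℕ => nm (b1O h s ha ^ N)) atTop atTop)
    (x y : SGr (RingHom.id k) (hyp (s + 2) 1 J₀) 1) (C : ℝ) :
    ∃ g : EUF (RingHom.id k) 1 (hyp (s + 2) 1 J₀), g • x = x ∧ g • y = y ∧ C ≤ nm g :=
  O4.unb1 (h.fm s) (hT s) hFo (pow_ne_zero 2 ha) (b1_val h s ha) hc h1 h2 h3 x y C

theorem unbu (g : EUF (RingHom.id k) 1 (hyp (s + 2) 1 J₀)) (C : ℝ) :
    ∃ t, C ≤ nm (g * u1O h s t * g⁻¹) :=
  O4.unbu (h.fm s) hc h1 h2 (isU1 h s) g C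

end unb

end Vale.Agent.P092.H289.O5
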