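import Vale.Agent.P092.H289.Gen

/-!
P092 (helper289), Team N, block [N-GR] (2a): a common adapted basis of two subspaces; `SL_n(k)` is
transitive on the pairs `(X, Y)` of subspaces with given `dim X`, `dim Y`, `dim (X ⊓ Y)`.
-/

set_option linter.all false

namespace Vale.Agent.P092.H289

open Module Submodule Set

section adp

variable {k V : Type*} [Field k] [AddCommGroup V] [Module k V]

theorem disjoint_span_diff {B A : Set V} (hB : LinearIndepOn k id B) (hA : A ⊆ B) :
    Disjoint (span k A) (span k (B \ A)) := by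
  have h := LinearIndependent.disjoint_span_image (v := fun x : B => (x : V)) hB
    (s := {x | (x : V) ∈ A}) (t := {x | (x : V) ∉ A}) (by
      rw [Set.disjoint_left]; exact fun x hx hx' => hx' hx)
  have e1 : (fun x : B => (x : V)) '' {x | (x : V) ∈ A} = A := by
    ext x
    constructor
    · rintro ⟨y, hy, rfl⟩; exact hy
    · intro hx; exact ⟨⟨x, hA hx⟩, hx, rfl⟩
  have e2 : (fun x : B => (x : V)) '' {x | (x : V) ∉ A} = B \ A := by
    ext x
    constructor
    · rintro ⟨y, hy, rfl⟩; exact ⟨y.2, hy⟩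
    · intro hx; exact ⟨⟨x, hx.1⟩, hx.2, rfl⟩
  rwa [e1, e2] at h

/-- **A common adapted basis of two subspaces.** -/
theorem exists_adapted (X Y : Submodule k V) : ∃ B B₁ B₂ : Set V,
    LinearIndepOn k id B ∧ span k B = ⊤ ∧ B₁ ⊆ B ∧ B₂ ⊆ B ∧ span k B₁ = X ∧ span k B₂ = Y ∧
      span k (B₁ ∩ B₂) = X ⊓ Y := by
  have h0 : LinearIndepOn k id (∅ : Set V) := linearIndepOn_empty k id
  set B₀ := h0.extend (empty_subset ((X ⊓ Y : Submodule k V) : Set V)) with hB₀
  have i0 : LinearIndepOn k id B₀ := h0.linearIndepOn_extend _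
  have s0 : span k B₀ = X ⊓ Y := by rw [hB₀, h0.span_extend_eq_span, span_eq]
  have c0 : B₀ ⊆ ((X ⊓ Y : Submodule k V) : Set V) := h0.extend_subset _
  have c1 : B₀ ⊆ (X : Set V) := fun x hx => (c0 hx).1
  have c2 : B₀ ⊆ (Y : Set V) := fun x hx => (c0 hx).2
  set B₁ := i0.extend c1 with hB₁
  set B₂ := i0.extend c2 with hB₂
  have i1 : LinearIndepOn k id B₁ := i0.linearIndepOn_extend _
  have i2 : LinearIndepOn k id B₂ := i0.linearIndepOn_extend _
  have s1 : span k B₁ = X := by rw [hB₁, i0.span_extend_eq_span, span_eq]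
  have s2 : span k B₂ = Y := by rw [hB₂, i0.span_extend_eq_span, span_eq]
  have d1 : B₀ ⊆ B₁ := i0.subset_extend _
  have d2 : B₀ ⊆ B₂ := i0.subset_extend _
  have hdj : Disjoint (span k B₁) (span k (B₂ \ B₀)) := by
    rw [Submodule.disjoint_def]
    intro x hx1 hx2
    have hxY : x ∈ Y := by
      rw [← s2]; exact span_mono diff_subset hx2
    have hx0 : x ∈ span k B₀ := by
      rw [s0]; exact ⟨s1 ▸ hx1, hxY⟩
    exact Submodule.disjoint_def.1 (disjoint_span_diff i2 d2) x hx0 hx2
  have i3 : LinearIndepOn k id (B₁ ∪ (B₂ \ B₀)) := by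
    refine LinearIndepOn.id_union i1 (i2.mono diff_subset) hdj
  have e3 : B₁ ∪ (B₂ \ B₀) = B₁ ∪ B₂ := by
    ext x
    simp only [mem_union, mem_diff]
    constructor
    · rintro (h | h)
      · exact Or.inl h
      · exact Or.inr h.1
    · rintro (h | h)
      · exact Or.inl h
      · by_cases hx : x ∈ B₀
        · exact Or.inl (d1 hx)
        · exact Or.inr ⟨h, hx⟩
  rw [e3] at i3
  have e4 : B₁ ∩ B₂ = B₀ := by
    apply Subset.antisymm
    · rintro x ⟨h1, h2⟩
      by_contra hx
      have hxX : x ∈ span k B₁ := subset_span h1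
      have hx2 : x ∈ span k (B₂ \ B₀) := subset_span ⟨h2, hx⟩
      have hz := Submodule.disjoint_def.1 hdj x hxX hx2
      have := i1.zero_notMem_image
      exact this ⟨x, h1, hz⟩
    · exact fun x hx => ⟨d1 hx, d2 hx⟩
  refine ⟨i3.extend (subset_univ _), B₁, B₂, i3.linearIndepOn_extend _, ?_,
    subset_union_left.trans (i3.subset_extend _), subset_union_right.trans (i3.subset_extend _),
    s1, s2, ?_⟩
  · rw [i3.span_extend_eq_span, span_univ]
  · rw [e4, s0]

variable [FiniteDimensional k V]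

theorem ncard_eq {B : Set V} (hB : LinearIndepOn k id B) : B.ncard = finrank k (span k B) := by
  have hfin : B.Finite := by
    have := LinearIndependent.finite_of_isNoetherian (R := k) (v := fun x : B => (x : V)) hB
    exact Set.toFinite B
  have : Fintype B := hfin.fintype
  rw [finrank_span_set_eq_card hB, Set.ncard_eq_toFinset_card']

/-- **The linear group is transitive on pairs of subspaces in given relative position.** -/
theorem exists_equiv_pair {X Y X' Y' : Submodule k V} (hX : finrank k X = finrank k X')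
    (hY : finrank k Y = finrank k Y') (hXY : finrank k ↥(X ⊓ Y) = finrank k ↥(X' ⊓ Y'))
    (c : k) (hc : c ≠ 0) (hV : 0 < finrank k V) :
    ∃ L : V ≃ₗ[k] V, LinearMap.det (L : V →ₗ[k] V) = c ∧ X.map (L : V →ₗ[k] V) = X' ∧
      Y.map (L : V →ₗ[k] V) = Y' := by
  classical
  obtain ⟨B, B₁, B₂, iB, sB, c1, c2, s1, s2, s3⟩ := exists_adapted X Y
  obtain ⟨B', B₁', B₂', iB', sB', c1', c2', s1', s2', s3'⟩ := exists_adapted X' Y'
  have hfin : B.Finite := by
    have := LinearIndependent.finite_of_isNoetherian (R := k) (v := fun x : B => (x : V)) iB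
    exact Set.toFinite B
  have hfin' : B'.Finite := by
    have := LinearIndependent.finite_of_isNoetherian (R := k) (v := fun x : B' => (x : V)) iB'
    exact Set.toFinite B'
  have n0 : B.ncard = B'.ncard := by rw [ncard_eq iB, ncard_eq iB', sB, sB']
  have n1 : B₁.ncard = B₁'.ncard := by
    rw [ncard_eq (iB.mono c1), ncard_eq (iB'.mono c1'), s1, s1', hX]
  have n2 : B₂.ncard = B₂'.ncard := by
    rw [ncard_eq (iB.mono c2), ncard_eq (iB'.mono c2'), s2, s2', hY]
  have n3 : (B₁ ∩ B₂).ncard = (B₁' ∩ B₂').ncard := by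
    rw [ncard_eq (iB.mono (inter_subset_left.trans c1)),
      ncard_eq (iB'.mono (inter_subset_left.trans c1')), s3, s3', hXY]
  -- the classes
  let f : B → Bool × Bool := fun x => (decide ((x : V) ∈ B₁), decide ((x : V) ∈ B₂))
  let f' : B' → Bool × Bool := fun x => (decide ((x : V) ∈ B₁'), decide ((x : V) ∈ B₂'))
  have fB : Finite B := hfin
  have fB' : Finite B' := hfin'
  have hcard : ∀ c, Nonempty ({a // f a = c} ≃ {b // f' b = c}) := by
    intro c
    have key : ∀ {C C₁ C₂ : Set V} (hC : C.Finite) (k1 : C₁ ⊆ C) (k2 : C₂ ⊆ C),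
        Nat.card {a : C // (decide ((a : V) ∈ C₁), decide ((a : V) ∈ C₂)) = c} =
        {a : V | a ∈ C ∧ (decide (a ∈ C₁), decide (a ∈ C₂)) = c}.ncard := by
      intro C C₁ C₂ hC k1 k2
      rw [← Nat.card_coe_set_eq]
      exact Nat.card_congr ⟨fun a => ⟨a.1.1, a.1.2, a.2⟩, fun a => ⟨⟨a.1, a.2.1⟩, a.2.2⟩,
        fun a => rfl, fun a => rfl⟩
    have key2 : ∀ {C C₁ C₂ : Set V} (hC : C.Finite) (k1 : C₁ ⊆ C) (k2 : C₂ ⊆ C),
        {a : V | a ∈ C ∧ (decide (a ∈ C₁), decide (a ∈ C₂)) = c}.ncard =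
          (if c.1 then (if c.2 then (C₁ ∩ C₂).ncard else C₁.ncard - (C₁ ∩ C₂).ncard) else
            (if c.2 then C₂.ncard - (C₁ ∩ C₂).ncard else
              C.ncard + (C₁ ∩ C₂).ncard - C₁.ncard - C₂.ncard)) := by
      intro C C₁ C₂ hC k1 k2
      have f1 : C₁.Finite := hC.subset k1
      have f2 : C₂.Finite := hC.subset k2
      obtain ⟨a, b⟩ := c
      cases a <;> cases b
      · have e : {a : V | a ∈ C ∧ (decide (a ∈ C₁), decide (a ∈ C₂)) = (false, false)} =
            C \ (C₁ ∪ C₂) := by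
          ext x
          simp only [Prod.ext_iff, mem_setOf_eq, decide_eq_false_iff_not, mem_diff, mem_union,
            not_or]
        simp only [e, Bool.false_eq_true, if_false]
        have g1 := Set.ncard_diff_add_ncard_of_subset (union_subset k1 k2) hC
        have g2 := Set.ncard_union_add_ncard_inter C₁ C₂ f1 f2
        omega
      · have e : {a : V | a ∈ C ∧ (decide (a ∈ C₁), decide (a ∈ C₂)) = (false, true)} =
            C₂ \ C₁ := by
          ext x
          simp only [Prod.ext_iff, mem_setOf_eq, decide_eq_false_iff_not, decide_eq_true_eq,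
            mem_diff]
          exact ⟨fun h => ⟨h.2.2, h.2.1⟩, fun h => ⟨k2 h.1, h.2, h.1⟩⟩
        simp only [e, Bool.false_eq_true, if_false, if_true]
        have g1 := Set.ncard_inter_add_ncard_sdiff_eq_ncard C₂ C₁ f2
        rw [inter_comm] at g1
        omega
      · have e : {a : V | a ∈ C ∧ (decide (a ∈ C₁), decide (a ∈ C₂)) = (true, false)} =
            C₁ \ C₂ := by
          ext x
          simp only [Prod.ext_iff, mem_setOf_eq, decide_eq_false_iff_not, decide_eq_true_eq,
            mem_diff]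
          exact ⟨fun h => ⟨h.2.1, h.2.2⟩, fun h => ⟨k1 h.1, h.1, h.2⟩⟩
        simp only [e, Bool.false_eq_true, if_false, if_true]
        have g1 := Set.ncard_inter_add_ncard_sdiff_eq_ncard C₁ C₂ f1
        omega
      · have e : {a : V | a ∈ C ∧ (decide (a ∈ C₁), decide (a ∈ C₂)) = (true, true)} =
            C₁ ∩ C₂ := by
          ext x
          simp only [Prod.ext_iff, mem_setOf_eq, decide_eq_true_eq, mem_inter_iff]
          exact ⟨fun h => h.2, fun h => ⟨k1 h.1, h⟩⟩
        simp only [e, if_true]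
    have e1 := (key hfin c1 c2).trans (key2 hfin c1 c2)
    have e2 := (key hfin' c1' c2').trans (key2 hfin' c1' c2')
    rw [← n0, ← n1, ← n2, ← n3] at e2
    exact Finite.card_eq.1 (e1.trans e2.symm)
  have σf : ∀ c, {a // f a = c} ≃ {b // f' b = c} := fun c => (hcard c).some
  let σ : B ≃ B' := Equiv.ofFiberEquiv (f := f) (g := f') σf
  have hσ : ∀ a, f' (σ a) = f a := fun a => Equiv.ofFiberEquiv_map σf a
  have hσ1 : ∀ a : B, (a : V) ∈ B₁ → ((σ a : B') : V) ∈ B₁' := by
    intro a ha
    have := congrArg Prod.fst (hσ a)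
    simp only [f, f', ha, decide_true, decide_eq_true_eq] at this
    exact this
  have hσ2 : ∀ a : B, (a : V) ∈ B₂ → ((σ a : B') : V) ∈ B₂' := by
    intro a ha
    have := congrArg Prod.snd (hσ a)
    simp only [f, f', ha, decide_true, decide_eq_true_eq] at this
    exact this
  let b : Basis B k V := Basis.mk (v := fun x : B => (x : V)) iB (by
    rw [Subtype.range_coe]; exact sB.ge)
  let b' : Basis B' k V := Basis.mk (v := fun x : B' => (x : V)) iB' (by
    rw [Subtype.range_coe]; exact sB'.ge)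
  have hb : ∀ x : B, b x = (x : V) := fun x => Basis.mk_apply _ _ _
  have hb' : ∀ x : B', b' x = (x : V) := fun x => Basis.mk_apply _ _ _
  let L₀ : V ≃ₗ[k] V := b.equiv b' σ
  have hL₀ : ∀ x : B, L₀ (x : V) = (σ x : V) := by
    intro x
    rw [← hb x, Basis.equiv_apply, hb']
  -- the correction of the determinant
  have hBne : Nonempty B' := by
    by_contra hne
    rw [not_nonempty_iff] at hne
    have := Module.finrank_eq_nat_card_basis b'
    rw [Nat.card_of_isEmpty] at this
    omega
  obtain ⟨i0⟩ := hBne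
  have : Fintype B' := Fintype.ofFinite _
  set d := LinearMap.det (L₀ : V →ₗ[k] V) with hd
  have hd0 : d ≠ 0 := by
    have := L₀.isUnit_det'
    exact this.ne_zero
  let D : V →ₗ[k] V := Matrix.toLin b' b' (Matrix.diagonal (Function.update 1 i0 (c * d⁻¹)))
  have hD : LinearMap.det D = c * d⁻¹ := by
    rw [LinearMap.det_toLin, Matrix.det_diagonal, Finset.prod_update_of_mem (Finset.mem_univ _)]
    simp
  have hDb : ∀ x : B', D (x : V) = (Function.update (1 : B' → k) i0 (c * d⁻¹)) x • (x : V) := by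
    intro x
    rw [← hb' x, Matrix.toLin_self]
    rw [Finset.sum_eq_single x]
    · rw [Matrix.diagonal_apply_eq]
    · intro y _ hy
      rw [Matrix.diagonal_apply_ne _ hy, zero_smul]
    · intro h; exact absurd (Finset.mem_univ _) h
  have hdet : LinearMap.det (D ∘ₗ (L₀ : V →ₗ[k] V)) = c := by
    rw [LinearMap.det_comp, hD, ← hd, mul_assoc, inv_mul_cancel₀ hd0, mul_one]
  have hu : IsUnit (LinearMap.det (D ∘ₗ (L₀ : V →ₗ[k] V))) := by
    rw [hdet]; exact IsUnit.mk0 _ hc
  let L : V ≃ₗ[k] V := LinearMap.equivOfDetNeZero (D ∘ₗ (L₀ : V →ₗ[k] V)) (by rw [hdet]; exact hc)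
  have hL : (L : V →ₗ[k] V) = D ∘ₗ (L₀ : V →ₗ[k] V) := by
    ext x; rfl
  have main : ∀ (C C' : Set V), C ⊆ B → (∀ a : B, (a : V) ∈ C → ((σ a : B') : V) ∈ C') →
      finrank k (span k C) = finrank k (span k C') →
      (span k C).map (L : V →ₗ[k] V) = span k C' := by
    intro C C' hCB hCC' hf
    apply Submodule.eq_of_le_of_finrank_eq
    · rw [Submodule.map_span, span_le]
      rintro _ ⟨x, hx, rfl⟩
      rw [hL]
      show D (L₀ x) ∈ _
      have e := hL₀ ⟨x, hCB hx⟩
      rw [show L₀ x = L₀ ((⟨x, hCB hx⟩ : B) : V) from rfl, e, hDb]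
      exact Submodule.smul_mem _ _ (subset_span (hCC' _ hx))
    · rw [LinearEquiv.finrank_map_eq L, hf]
  refine ⟨L, by rw [hL, hdet], ?_, ?_⟩
  · have := main B₁ B₁' c1 hσ1 (by rw [s1, s1', hX])
    rwa [s1, s1'] at this
  · have := main B₂ B₂' c2 hσ2 (by rw [s2, s2', hY])
    rwa [s2, s2'] at this

end adp

section sl

open scoped Pointwise

variable {ι : Type*} [Fintype ι] [DecidableEq ι] {k : Type*} [Field k]

/-- **`SL_n(k)` is transitive on pairs of subspaces in given relative position.** -/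
theorem exists_sl_pair {X Y X' Y' : Submodule k (ι → k)} (hX : finrank k X = finrank k X')
    (hY : finrank k Y = finrank k Y') (hXY : finrank k ↥(X ⊓ Y) = finrank k ↥(X' ⊓ Y')) :
    ∃ g : Matrix.SpecialLinearGroup ι k, g • X = X' ∧ g • Y = Y' := by
  rcases isEmpty_or_nonempty ι with hι | hι
  · have e : ∀ Z Z' : Submodule k (ι → k), Z = Z' := fun Z Z' => by
      ext x
      have : x = 0 := Subsingleton.elim _ _
      simp [this]
    exact ⟨1, e _ _, e _ _⟩
  obtain ⟨L, h1, h2, h3⟩ := exists_equiv_pair hX hY hXY 1 one_ne_zero (by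
    rw [finrank_fintype_fun_eq_card]; exact Fintype.card_pos)
  let g : Matrix.SpecialLinearGroup ι k := ⟨LinearMap.toMatrix' (L : (ι → k) →ₗ[k] (ι → k)), by
        rw [LinearMap.det_toMatrix', h1]⟩
  have e : ∀ Z : Submodule k (ι → k), g • Z = Z.map (L : (ι → k) →ₗ[k] (ι → k)) := by
    intro Z
    ext x
    constructor
    · rintro ⟨y, hy, rfl⟩
      refine ⟨y, hy, ?_⟩
      show _ = Matrix.mulVec (LinearMap.toMatrix' (L : (ι → k) →ₗ[k] (ι → k))) y
      rw [LinearMap.toMatrix'_mulVec]
    · rintro ⟨y, hy, rfl⟩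
      refine ⟨y, hy, ?_⟩
      show Matrix.mulVec (LinearMap.toMatrix' (L : (ι → k) →ₗ[k] (ι → k))) y = _
      rw [LinearMap.toMatrix'_mulVec]
  exact ⟨g, (e X).trans h2, (e Y).trans h3⟩

/-- transitivity on nested pairs -/
theorem exists_sl_nested {X Y X' Y' : Submodule k (ι → k)} (h : X ≤ Y) (h' : X' ≤ Y')
    (hX : finrank k X = finrank k X') (hY : finrank k Y = finrank k Y') :
    ∃ g : Matrix.SpecialLinearGroup ι k, g • X = X' ∧ g • Y = Y' :=
  exists_sl_pair hX hY (by rw [inf_eq_left.2 h, inf_eq_left.2 h', hX])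

/-- transitivity -/
theorem exists_sl {X X' : Submodule k (ι → k)} (hX : finrank k X = finrank k X') :
    ∃ g : Matrix.SpecialLinearGroup ι k, g • X = X' := by
  obtain ⟨g, h, _⟩ := exists_sl_nested (le_refl X) (le_refl X') hX hX
  exact ⟨g, h⟩

theorem finrank_smul (g : Matrix.SpecialLinearGroup ι k) (X : Submodule k (ι → k)) :
    finrank k ↥(g • X) = finrank k X :=
  LinearEquiv.finrank_eq ((Submodule.equivMapOfInjective
    (DistribSMul.toLinearMap k (ι → k) g) (MulAction.injective g) X).symm)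

end sl

end Vale.Agent.P092.H289
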