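import Vale.Agent.P092.H71.P.CLPB
import Vale.Agent.P092.H289.O5

/-!
P092, CL-O (orthogonal groups), block [CLO-U2] (helper289), part 6: the root groups of the letters
`ltO` are spread out by the walls (helper71's `SprL`), hence `orb1`, `orb2`, `orb2'` of `CL.PB`.
-/

set_option linter.all false

open Matrix Module Set Filter Topology MeasureTheory

namespace Vale.Agent.P092.H289.O6

open Vale.Agent.P092.CL (OF EUF u1O u2O b1O b2O ltO p0 m0)
open Vale.Agent.P092.H289.O2 (IsU1 IsU2 spr1 spr2)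
open Vale.Agent.P092.H289.O5
open Vale.Agent.P092.H71.CLO (wz wz_lt SprL)
open Vale.Agent.P092.H71.P (rt rt_pos rt_lt dilV)

variable {k : Type} [NontriviallyNormedField k] {ι : Type} [Fintype ι] [DecidableEq ι]
  {J₀ : Matrix ι ι k} (h : OF J₀) (s : ℕ) {a : k} (ha : a ≠ 0)

/-! ### Spreading: the fields `orb1`, `orb2`, `orb2'` of `PB` -/

/-- **The root groups of `ltO` are spread out by the walls** -/
theorem sprL [ProperSpace k] [MeasurableSpace k] [BorelSpace k] (ha1 : ‖a‖ < 1) (μ₁ : Measure k)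
    [μ₁.IsAddHaarMeasure] (μ₂ : Measure (ι → k)) [μ₂.IsAddHaarMeasure] :
    SprL (ltO h s ha μ₁ μ₂) := by
  haveI := h.ne
  have hne : ∃ v : ι → k, v ≠ 0 :=
    ⟨fun _ => 1, fun h0 => one_ne_zero (congrFun h0 (Classical.arbitrary ι))⟩
  exact
    { s1 := ⟨_, rt_pos _, rt_lt (wz_lt (pow_ne_zero 2 ha) (sq_lt ha1) (l1_pos s))
        (O3.dilV_exp1 _) ⟨1, one_ne_zero⟩, spr1 (μ := μ₁) (h.fm s) (pow_ne_zero 2 ha) (b1_val h s ha)
        (isU1 h s)⟩
      s2 := ⟨_, rt_pos _, rt_lt (wz_lt (m := 1) (pow_ne_zero 2 ha) (sq_lt ha1) one_pos)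
        (O3.dilV_exp' _) hne, spr2 (μ := μ₂) (h.fm s) (pow_ne_zero 2 ha) (b2_val h s ha) h.two
        (isU2 h s)⟩
      s2' := ⟨_, rt_pos _, rt_lt (wz_lt (m := 1 + 1) (pow_ne_zero 2 ha) (sq_lt ha1)
        (by norm_num)) (O3.dilV_exp1 _) ⟨1, one_ne_zero⟩,
        spr1 (μ := μ₁) (h.fm s) (pow_ne_zero 2 ha) (b2_val h s ha) (isU1 h s)⟩ }

end Vale.Agent.P092.H289.O6
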