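import Vale.Agent.P092.H289.QFG4

/-!
P092, block CLASS-H (helper289): standard description of the class, part 5.  For every nondegenerate
isotropic (skew-)hermitian form over a quaternion division algebra (of dimension at least three in the
skew-hermitian case) the group generated by the transvections is the commutator subgroup of the isometry
group; for hermitian forms it is the isometry group.
-/

set_option linter.all false

open Matrix
open scoped commutatorElement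

namespace Vale.Agent.P092.H289.QF

open Vale.Agent.P092.H103.QH
open Vale.Agent.P092.H183.DV

variable {n : Type*} [Fintype n] [DecidableEq n] {D : Type*} [DivisionRing D] [StarRing D]
  {ε : D} {J : Matrix n n D}

/-- The transvections are commutators. -/
theorem GT_le_comm (hF : Frm ε J) {r : D} (hr : Cs r) (hr0 : r ≠ 0) (hr2 : r * r ≠ 1) :
    GT ε J ≤ ⁅FG J, FG J⁆ := by
  rw [GT, Subgroup.closure_le]
  rintro _ ⟨u, d, hu, hd, rfl⟩
  by_cases hu0 : u = 0
  · subst hu0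
    rw [tv_vec_zero]
    exact one_mem _
  obtain ⟨w, hw, huw⟩ := hF.exists_hyp hu0 hu
  have hP : Hp J u w := ⟨hu, hw, huw⟩
  obtain ⟨ρ, hρ⟩ : ∃ ρ : Dˣ, ρ.1 = r := ⟨Units.mk0 r hr0, rfl⟩
  have hq0 : r * r - 1 ≠ 0 := sub_ne_zero.mpr hr2
  obtain ⟨q, hq⟩ : ∃ q, q = (r * r - 1)⁻¹ := ⟨_, rfl⟩
  have hqs : Cs q := by rw [hq]; exact ((hr.mul hr).sub Cs.one).inv
  have hc : CC ε (q * d) := hd.smul hF.eps hqs
  obtain ⟨T, hT⟩ : ∃ T, T = tb hF hP ρ := ⟨_, rfl⟩
  have hTm : T ∈ FG J := by rw [hT]; exact tb_mem hF hP ρ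
  have e : tv J u d = ⁅T⁻¹, tv J u (q * d)⁆ := by
    rw [commutatorElement_def, inv_inv, conj_tv hTm hu, hT, u_tb, hρ, tv_smul hu, hr.st,
      ← tv_neg hu, ← tv_add hu]
    congr 1
    have h5 : (r * r - 1) * q = 1 := by rw [hq, mul_inv_cancel₀ hq0]
    have e3 : r * (q * d) * r = r * r * (q * d) := by
      rw [mul_assoc, ← hr.cm (q * d), ← mul_assoc]
    rw [e3]
    calc d = ((r * r - 1) * q) * d := by rw [h5, one_mul]
      _ = r * r * (q * d) + -(q * d) := by noncomm_ring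
  rw [e]
  exact Subgroup.commutator_mem_commutator (inv_mem hTm) (tv_mem hF hu hc)

/-- The commutators of isometries of a skew-hermitian form are products of transvections. -/
theorem comm_le_GT (hQ : Qt D) {J : Matrix n n D} (hF : Frm (-1 : D) J) (h3 : Dm3 (-1) J) {r : D}
    (hr : Cs r) (hr0 : r ≠ 0) (hr2 : r * r ≠ 1) : ⁅FG J, FG J⁆ ≤ GT (-1) J := by
  obtain ⟨u, w, v, hu, hw, huw, hvu, hvw, hv⟩ := h3 rfl
  have hP : Hp J u w := ⟨hu, hw, huw⟩
  obtain ⟨ρ, hρ⟩ : ∃ ρ : Dˣ, ρ.1 = r := ⟨Units.mk0 r hr0, rfl⟩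
  have hρc : Cs ρ.1 := by rw [hρ]; exact hr
  have hρ1 : ρ.1 ≠ 1 := by
    rw [hρ]
    rintro rfl
    exact hr2 (one_mul 1)
  have hm : Pu (hf J v v) := by
    have := hF.herm v v
    rw [neg_one_mul] at this
    unfold Pu
    rw [eq_neg_iff_add_eq_zero, add_comm, ← eq_neg_iff_add_eq_zero]
    exact this
  haveI hN : (NG (-1 : D) J).Normal := NG_normal hF
  -- the homomorphism
  obtain ⟨φ, hφ⟩ : ∃ φ : Dˣ →* (FG J ⧸ NG (-1 : D) J),
      ∀ b, φ b = QuotientGroup.mk (⟨tb hF hP b, tb_mem hF hP b⟩ : FG J) :=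
    ⟨(QuotientGroup.mk' (NG (-1 : D) J)).comp
      ((tbh hF hP).codRestrict (FG J) (tb_mem hF hP)), fun b => rfl⟩
  have mk1 : ∀ (g : (Matrix n n D)ˣ) (hg : g ∈ GT (-1 : D) J),
      (QuotientGroup.mk (⟨g, GT_le hF hg⟩ : FG J) : FG J ⧸ NG (-1 : D) J) = 1 := fun g hg =>
    (QuotientGroup.eq_one_iff _).2 (mem_NG.2 hg)
  -- conjugation by the elements of the small group
  have cj : ∀ (u' w' : n → D) (hP' : Hp J u' w') (g : (Matrix n n D)ˣ), g ∈ GT (-1 : D) J →
      ∀ a : Dˣ, u ᵥ* g.1 = a.1 • u' → ∀ b : Dˣ,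
      φ b = QuotientGroup.mk (⟨tb hF hP' (a⁻¹ * b * a), tb_mem hF hP' _⟩ : FG J) := by
    intro u' w' hP' g hg a ha b
    obtain ⟨g', hg', h1, h2⟩ := pair_corr hF hρc hρ1 hP hP' hg ha
    have h3 := conj_tb hF hP hP' (GT_le hF hg') h1 h2 b
    have h4 : (⟨tb hF hP b, tb_mem hF hP b⟩ : FG J) * ⟨g', GT_le hF hg'⟩ =
        ⟨g', GT_le hF hg'⟩ * ⟨tb hF hP' (a⁻¹ * b * a), tb_mem hF hP' _⟩ := Subtype.ext h3
    have h5 := congrArg (QuotientGroup.mk : FG J → FG J ⧸ NG (-1 : D) J) h4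
    rw [QuotientGroup.mk_mul, QuotientGroup.mk_mul, mk1 g' hg', mul_one, one_mul] at h5
    rw [hφ]
    exact h5
  -- centrality
  have cen : ∀ μ z : Dˣ, μ.1 * hf J v v = hf J v v * μ.1 → φ μ * φ z = φ z * φ μ := by
    intro μ z hμ
    obtain ⟨g, hg, h1⟩ := exists_scal hQ hF hP hvu hvw hv hμ
    have h2 := cj u w hP g hg μ h1 z
    rw [← hφ, map_mul, map_mul, map_inv, mul_assoc, eq_inv_mul_iff_mul_eq] at h2
    exact h2
  have hcomm := comm_of hQ φ hm hv cen
  -- the range is everything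
  have hall : ∀ g : FG J, (QuotientGroup.mk g : FG J ⧸ NG (-1 : D) J) ∈ φ.range := by
    have h5 : FG J ≤ (φ.range.comap (QuotientGroup.mk' (NG (-1 : D) J))).map (FG J).subtype := by
      refine FG_le_of hF hQ.nc ?_ ?_
      · intro t ht
        refine ⟨⟨t, GT_le hF ht⟩, ?_, rfl⟩
        show (QuotientGroup.mk (⟨t, GT_le hF ht⟩ : FG J) : FG J ⧸ NG (-1 : D) J) ∈ φ.range
        rw [mk1 t ht]
        exact one_mem _
      · intro u' w' hP' b
        refine ⟨⟨tb hF hP' b, tb_mem hF hP' b⟩, ?_, rfl⟩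
        show (QuotientGroup.mk (⟨tb hF hP' b, tb_mem hF hP' b⟩ : FG J) :
          FG J ⧸ NG (-1 : D) J) ∈ φ.range
        have hu0 : u ≠ 0 := (hF.ne_zero_of_pair (by rw [hP.uw]; exact one_ne_zero)).1
        have hu0' : u' ≠ 0 := (hF.ne_zero_of_pair (by rw [hP'.uw]; exact one_ne_zero)).1
        obtain ⟨g, hg, a, ha⟩ := trans_line hF hu0 hP.uu hu0' hP'.uu
        have h6 := cj u' w' hP' g hg a ha (a * b * a⁻¹)
        have h7 : a⁻¹ * (a * b * a⁻¹) * a = b := by group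
        rw [h7] at h6
        rw [← h6]
        exact ⟨_, rfl⟩
    intro g
    obtain ⟨g', hg', e⟩ := h5 g.2
    have e' : g' = g := Subtype.ext e
    rw [← e']
    exact hg'
  rw [Subgroup.commutator_le]
  intro x hx y hy
  obtain ⟨a, ha⟩ := hall ⟨x, hx⟩
  obtain ⟨b, hb⟩ := hall ⟨y, hy⟩
  have h8 : (⟨⁅x, y⁆, by
      rw [commutatorElement_def]
      exact mul_mem (mul_mem (mul_mem hx hy) (inv_mem hx)) (inv_mem hy)⟩ : FG J) ∈
      NG (-1 : D) J := by
    rw [← QuotientGroup.eq_one_iff]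
    have h9 : (QuotientGroup.mk (⟨⁅x, y⁆, by
        rw [commutatorElement_def]
        exact mul_mem (mul_mem (mul_mem hx hy) (inv_mem hx)) (inv_mem hy)⟩ : FG J) :
        FG J ⧸ NG (-1 : D) J) = φ a * φ b * (φ a)⁻¹ * (φ b)⁻¹ := by
      rw [ha, hb]
      rfl
    rw [h9, hcomm a b, mul_inv_cancel_right, mul_inv_cancel]
  exact mem_NG.1 h8

/-- **The group generated by the transvections is the commutator subgroup of the isometry group.** -/
theorem GT_eq_comm (hQ : Qt D) (hF : Frm ε J) (h3 : Dm3 ε J) {r : D} (hr : Cs r) (hr0 : r ≠ 0)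
    (hr2 : r * r ≠ 1) : GT ε J = ⁅FG J, FG J⁆ := by
  refine le_antisymm (GT_le_comm hF hr hr0 hr2) ?_
  rcases hF.eps with he | he
  · subst he
    rw [FG_eq_GT hQ hF, Subgroup.commutator_le]
    intro x hx y hy
    rw [commutatorElement_def]
    exact mul_mem (mul_mem (mul_mem hx hy) (inv_mem hx)) (inv_mem hy)
  · subst he
    exact comm_le_GT hQ hF h3 hr hr0 hr2

end Vale.Agent.P092.H289.QF
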