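import Vale.Agent.P092.H289.DTd2

/-!
P092 (helper289), row [CLASS-D] (6), part 3: the compact open subgroups of `SL_n(D)` form a basis of
neighbourhoods of `1`; the volume field of `QC.Td` in terms of indices.
-/

set_option linter.all false

open Matrix Topology Filter MeasureTheory MeasureTheory.Measure
open scoped NNReal ENNReal

namespace Vale.Agent.P092.H289.DT

open Vale.Agent.P092.H465.DA

section basis

variable {n D : Type*} [Fintype n] [DecidableEq n] [NormedDivisionRing D] [IsUltrametricDist D]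

theorem Bd.neg {r : ℝ} {A : Matrix n n D} (hA : Bd r A) : Bd r (-A) := fun i j => by
  rw [Matrix.neg_apply, norm_neg]; exact hA i j

/-- the congruence subgroups -/
def Kc (n D : Type*) [Fintype n] [DecidableEq n] [NormedDivisionRing D] [IsUltrametricDist D]
    (ε : ℝ) (h0 : 0 ≤ ε) (h1 : ε ≤ 1) : Subgroup (SLD n D) where
  carrier := {g | Bd ε (g.1.1 - 1) ∧ Bd ε (((g.1)⁻¹).1 - 1)}
  one_mem' := by
    refine ⟨?_, ?_⟩
    · show Bd ε ((1 : Matrix n n D) - 1)
      rw [sub_self]; intro i j; rw [Matrix.zero_apply, norm_zero]; exact h0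
    · show Bd ε (((1 : (Matrix n n D)ˣ)⁻¹).1 - 1)
      rw [inv_one]
      show Bd ε ((1 : Matrix n n D) - 1)
      rw [sub_self]; intro i j; rw [Matrix.zero_apply, norm_zero]; exact h0
  mul_mem' := by
    have key : ∀ A B : Matrix n n D, Bd ε (A - 1) → Bd ε (B - 1) → Bd ε (A * B - 1) := by
      intro A B hA hB
      have hB1 : Bd 1 B := by
        have := (hB.mono h1).add Bd.one
        rwa [sub_add_cancel] at this
      have e : A * B - 1 = (A - 1) * B + (B - 1) := by noncomm_ring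
      rw [e]
      refine Bd.add ?_ hB
      simpa using Bd.mul h0 zero_le_one hA hB1
    rintro a b ⟨ha, ha'⟩ ⟨hb, hb'⟩
    refine ⟨key _ _ ha hb, ?_⟩
    show Bd ε (((a.1 * b.1)⁻¹).1 - 1)
    rw [_root_.mul_inv_rev]
    exact key _ _ hb' ha'
  inv_mem' := by
    rintro a ⟨ha, ha'⟩
    refine ⟨ha', ?_⟩
    show Bd ε (((a.1)⁻¹⁻¹).1 - 1)
    rw [inv_inv]; exact ha

theorem isOpen_Kc [ProperSpace D] {ε : ℝ} (h0 : 0 < ε) (h1 : ε ≤ 1) : IsOpen (Kc n D ε h0.le h1 : Set (SLD n D)) := by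
  have hc : Continuous fun g : SLD n D => ((g.1)⁻¹).1 :=
    continuous_val1.comp (continuous_inv (G := SLD n D))
  exact ((isOpen_bd h0.ne').preimage (continuous_val1.sub continuous_const)).inter
    ((isOpen_bd h0.ne').preimage (hc.sub continuous_const))

variable [ProperSpace D]

theorem isCompact_Kc (hE : IsClosedEmbedding fun g : SLD n D => g.1.1) {ε : ℝ} (h0 : 0 < ε)
    (h1 : ε ≤ 1) : IsCompact (Kc n D ε h0.le h1 : Set (SLD n D)) := by
  refine (isCompact_bdS hE 1).of_isClosed_subset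
    (Subgroup.isClosed_of_isOpen _ (isOpen_Kc h0 h1)) fun g hg => ?_
  have := (hg.1.mono h1).add (Bd.one (n := n) (D := D))
  rwa [sub_add_cancel] at this

theorem basis_sld (hE : IsClosedEmbedding fun g : SLD n D => g.1.1) :
    ∀ V ∈ 𝓝 (1 : SLD n D), ∃ L : Subgroup (SLD n D), IsOpen (L : Set (SLD n D)) ∧
      IsCompact (L : Set (SLD n D)) ∧ (L : Set (SLD n D)) ⊆ V := by
  intro V hV
  rw [hE.isInducing.nhds_eq_comap, Filter.mem_comap] at hV
  obtain ⟨O, hO, hOV⟩ := hV
  have hO' : O ∈ 𝓝 ((fun i j => (1 : Matrix n n D) i j : n → n → D)) := hO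
  obtain ⟨ε, hε, hb⟩ := Metric.mem_nhds_iff.1 hO'
  have h0 : 0 < min (ε / 2) 1 := by positivity
  refine ⟨Kc n D (min (ε / 2) 1) h0.le (min_le_right _ _), isOpen_Kc h0 _, isCompact_Kc hE h0 _, ?_⟩
  intro g hg
  apply hOV
  show g.1.1 ∈ O
  have h3 : dist (fun i j => g.1.1 i j : n → n → D) (fun i j => (1 : Matrix n n D) i j) < ε := by
    refine lt_of_le_of_lt ?_ (half_lt_self hε)
    refine (dist_pi_le_iff (by positivity)).2 fun i => (dist_pi_le_iff (by positivity)).2 fun j => ?_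
    rw [dist_eq_norm]
    exact (hg.1 i j).trans (min_le_left _ _)
  exact hb (Metric.mem_ball.2 h3)

end basis

section vol

variable {n D : Type} [Fintype n] [DecidableEq n] [NormedDivisionRing D] [IsUltrametricDist D]
  [ProperSpace D]

/-- **The volume field of `QC.Td`.** -/
theorem vol_sld (hn : 2 ≤ Fintype.card n) (k : Type*) [NontriviallyNormedField k]
    [NormedAlgebra k D] (hE : IsClosedEmbedding fun g : SLD n D => g.1.1) :
    ∃ K : Subgroup (SLD n D), IsOpen (K : Set (SLD n D)) ∧ IsCompact (K : Set (SLD n D)) ∧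
      ∀ U W : Subgroup (SLD n D), IsOpen (U : Set (SLD n D)) → IsOpen (W : Set (SLD n D)) →
        IsCompact (W : Set (SLD n D)) → U ≤ W → U ≤ K → U.relIndex W ≤ U.relIndex K := by
  haveI : LocallyCompactSpace (Matrix n n D) :=
    inferInstanceAs (LocallyCompactSpace (n → n → D))
  haveI : LocallyCompactSpace (SLD n D) := hE.locallyCompactSpace
  letI : MeasurableSpace (SLD n D) := borel _
  haveI : BorelSpace (SLD n D) := ⟨rfl⟩
  have hKo : IsOpen (KO n D : Set (SLD n D)) := isOpen_KO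
  have hKc := isCompact_KO hE
  refine ⟨KO n D, hKo, hKc, fun U W hU hW hWc hUW hUK => ?_⟩
  have h1 := haar_le hn k hE hWc
  rw [H632.haar_eq_index hU hW hWc hUW, H632.haar_eq_index hU hKo hKc hUK] at h1
  have h3 : (haar (U : Set (SLD n D)) : ℝ≥0∞) ≠ 0 :=
    (hU.measure_pos _ ⟨1, Subgroup.one_mem _⟩).ne'
  have h4 : (haar (U : Set (SLD n D)) : ℝ≥0∞) ≠ ∞ :=
    (hWc.of_isClosed_subset (Subgroup.isClosed_of_isOpen _ hU) hUW).measure_lt_top.ne
  have h5 := (ENNReal.mul_le_mul_iff_left h3 h4).mp h1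
  exact_mod_cast h5

/-- The same from closedness in `GL_n(D)`. -/
theorem vol_basis_sld (hn : 2 ≤ Fintype.card n) (k : Type*) [NontriviallyNormedField k]
    [ProperSpace k] [NormedAlgebra k D] [FiniteDimensional k D]
    (hcl : IsClosed (SLD n D : Set (Matrix n n D)ˣ)) :
    (∀ V ∈ 𝓝 (1 : SLD n D), ∃ L : Subgroup (SLD n D), IsOpen (L : Set (SLD n D)) ∧
      IsCompact (L : Set (SLD n D)) ∧ (L : Set (SLD n D)) ⊆ V) ∧
    ∃ K : Subgroup (SLD n D), IsOpen (K : Set (SLD n D)) ∧ IsCompact (K : Set (SLD n D)) ∧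
      ∀ U W : Subgroup (SLD n D), IsOpen (U : Set (SLD n D)) → IsOpen (W : Set (SLD n D)) →
        IsCompact (W : Set (SLD n D)) → U ≤ W → U ≤ K → U.relIndex W ≤ U.relIndex K := by
  have hE := isClosedEmbedding_SLD k hn hcl
  exact ⟨basis_sld hE, vol_sld hn k hE⟩

end vol

end Vale.Agent.P092.H289.DT
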