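import Vale.Agent.P092.H465.DA3
import Vale.Agent.P092.H632.Vol

/-!
P092 (helper289), row [CLASS-D] (6): `SL_n(D)` over a non-archimedean local field: compact open
subgroups; conjugation by `GL_n(D)` preserves the Haar measure; the volumes of the compact subgroups
are bounded by the volume of `SL_n(D) ∩ GL_n(O_D)`.
-/

set_option linter.all false

open Matrix Topology Filter MeasureTheory MeasureTheory.Measure
open scoped NNReal ENNReal

namespace Vale.Agent.P092.H289.DT

open Vale.Agent.P092.H465.DA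

section bd

variable {n D : Type*} [Fintype n] [DecidableEq n] [NormedDivisionRing D]

/-- vectors bounded by `r` -/
def Vb (r : ℝ) (v : n → D) : Prop := ∀ i, ‖v i‖ ≤ r

/-- matrices bounded by `r` -/
def Bd (r : ℝ) (A : Matrix n n D) : Prop := ∀ i j, ‖A i j‖ ≤ r

theorem Bd.mono {r s : ℝ} {A : Matrix n n D} (h : Bd r A) (hs : r ≤ s) : Bd s A :=
  fun i j => (h i j).trans hs

theorem Bd.one : Bd 1 (1 : Matrix n n D) := fun i j => by
  rw [Matrix.one_apply]
  split_ifs <;> simp

theorem exists_bd (A : Matrix n n D) : ∃ r : ℝ, 0 ≤ r ∧ Bd r A := by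
  refine ⟨∑ i, ∑ j, ‖A i j‖, by positivity, fun i j => ?_⟩
  exact (Finset.single_le_sum (f := fun j => ‖A i j‖) (fun _ _ => norm_nonneg _)
    (Finset.mem_univ j)).trans (Finset.single_le_sum (f := fun i => ∑ j, ‖A i j‖)
      (fun i _ => Finset.sum_nonneg fun j _ => norm_nonneg _) (Finset.mem_univ i))

variable [IsUltrametricDist D]

theorem Bd.mulVec {r s : ℝ} (hr : 0 ≤ r) (hs : 0 ≤ s) {A : Matrix n n D} {v : n → D}
    (hA : Bd r A) (hv : Vb s v) : Vb (r * s) (A *ᵥ v) := by
  intro i
  show ‖∑ j, A i j * v j‖ ≤ _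
  refine IsUltrametricDist.norm_sum_le_of_forall_le_of_nonneg (by positivity) fun j _ => ?_
  rw [norm_mul]
  exact mul_le_mul (hA i j) (hv j) (norm_nonneg _) hr

theorem Bd.mul {r s : ℝ} (hr : 0 ≤ r) (hs : 0 ≤ s) {A B : Matrix n n D}
    (hA : Bd r A) (hB : Bd s B) : Bd (r * s) (A * B) := by
  intro i j
  rw [Matrix.mul_apply]
  refine IsUltrametricDist.norm_sum_le_of_forall_le_of_nonneg (by positivity) fun l _ => ?_
  rw [norm_mul]
  exact mul_le_mul (hA i l) (hB l j) (norm_nonneg _) hr

theorem Bd.add {r : ℝ} {A B : Matrix n n D} (hA : Bd r A) (hB : Bd r B) : Bd r (A + B) :=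
  fun i j => (IsUltrametricDist.norm_add_le_max _ _).trans (max_le (hA i j) (hB i j))

theorem Vb.add {r : ℝ} {v w : n → D} (hv : Vb r v) (hw : Vb r w) : Vb r (v + w) :=
  fun i => (IsUltrametricDist.norm_add_le_max _ _).trans (max_le (hv i) (hw i))

theorem isOpen_bd {r : ℝ} (hr : r ≠ 0) : IsOpen {A : Matrix n n D | Bd r A} := by
  have : {A : Matrix n n D | Bd r A} = ⋂ i, ⋂ j, (fun A : Matrix n n D => A i j) ⁻¹'
      Metric.closedBall (0 : D) r := by
    ext A; simp [Bd]
  rw [this]
  exact isOpen_iInter_of_finite fun i => isOpen_iInter_of_finite fun j =>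
    (IsUltrametricDist.isOpen_closedBall _ hr).preimage (continuous_id.matrix_elem i j)

theorem isCompact_bd [ProperSpace D] (r : ℝ) : IsCompact {A : Matrix n n D | Bd r A} := by
  have hc : IsCompact (Set.pi Set.univ fun _ : n => Set.pi Set.univ
      fun _ : n => Metric.closedBall (0 : D) r) :=
    isCompact_univ_pi fun _ => isCompact_univ_pi fun _ => isCompact_closedBall _ _
  have h2 : {A : Matrix n n D | Bd r A} = (Set.pi Set.univ fun _ : n => Set.pi Set.univ
      fun _ : n => Metric.closedBall (0 : D) r) := by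
    ext A
    constructor
    · intro h i _ j _
      rw [Metric.mem_closedBall, dist_zero_right]
      exact h i j
    · intro h i j
      have := h i trivial j trivial
      rwa [Metric.mem_closedBall, dist_zero_right] at this
  rw [h2]
  exact hc

theorem isCompact_vb [ProperSpace D] (r : ℝ) : IsCompact {v : n → D | Vb r v} := by
  have hc : IsCompact (Set.pi Set.univ fun _ : n => Metric.closedBall (0 : D) r) :=
    isCompact_univ_pi fun _ => isCompact_closedBall _ _
  have h2 : {v : n → D | Vb r v} = (Set.pi Set.univ fun _ : n => Metric.closedBall (0 : D) r) := by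
    ext v
    constructor
    · intro h i _
      rw [Metric.mem_closedBall, dist_zero_right]
      exact h i
    · intro h i
      have := h i trivial
      rwa [Metric.mem_closedBall, dist_zero_right] at this
  rw [h2]
  exact hc

end bd

section cj

variable {n D : Type*} [Fintype n] [DecidableEq n] [NormedDivisionRing D]

/-- conjugation by an element of `GL_n(D)` as an automorphism of `SL_n(D)` -/
def cj (A : (Matrix n n D)ˣ) : SLD n D ≃ₜ* SLD n D where
  toFun := fun g => ⟨A * g.1 * A⁻¹, conj_mem A g.2⟩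
  invFun := fun g => ⟨A⁻¹ * g.1 * A⁻¹⁻¹, conj_mem A⁻¹ g.2⟩
  left_inv := fun g => Subtype.ext (by simp [mul_assoc])
  right_inv := fun g => Subtype.ext (by simp [mul_assoc])
  map_mul' := fun g h => Subtype.ext (by
    show A * (g.1 * h.1) * A⁻¹ = A * g.1 * A⁻¹ * (A * h.1 * A⁻¹)
    group)
  continuous_toFun := by
    refine Continuous.subtype_mk ?_ _
    fun_prop
  continuous_invFun := by
    refine Continuous.subtype_mk ?_ _
    fun_prop

theorem cj_val (A : (Matrix n n D)ˣ) (g : SLD n D) : (cj A g).1 = A * g.1 * A⁻¹ := rfl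

theorem cj_mul (A B : (Matrix n n D)ˣ) : cj (A * B) = (cj B).trans (cj A) := by
  ext1 g
  apply Subtype.ext
  show A * B * g.1 * (A * B)⁻¹ = A * (B * g.1 * B⁻¹) * A⁻¹
  group

theorem cj_one : cj (1 : (Matrix n n D)ˣ) = ContinuousMulEquiv.refl _ := by
  ext1 g
  apply Subtype.ext
  show 1 * g.1 * 1⁻¹ = g.1
  group

theorem val_inv (g : SLD n D) : (g⁻¹).1 = (g.1)⁻¹ := rfl

end cj

section top

variable (k : Type*) [NontriviallyNormedField k] [ProperSpace k]
  {n D : Type*} [Fintype n] [DecidableEq n] [NormedDivisionRing D] [NormedAlgebra k D]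
  [FiniteDimensional k D]

include k in
/-- `SL_n(D)` is closed in the matrices, if it is closed in `GL_n(D)`. -/
theorem isClosedEmbedding_SLD (hn : 2 ≤ Fintype.card n)
    (hcl : IsClosed (SLD n D : Set (Matrix n n D)ˣ)) :
    IsClosedEmbedding fun g : SLD n D => g.1.1 := by
  have hle := SLD_le_KN k n D hn
  have h1 := isClosedEmbedding_KN k n D
  have h2 : IsClosedEmbedding (Subgroup.inclusion hle) := by
    refine ⟨⟨?_, Subgroup.inclusion_injective hle⟩, ?_⟩
    · have : IsInducing ((Subtype.val : KN k n D → _) ∘ Subgroup.inclusion hle) :=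
        IsInducing.subtypeVal
      exact this.of_comp (by
        refine Continuous.subtype_mk continuous_subtype_val _) continuous_subtype_val
    · have : Set.range (Subgroup.inclusion hle) =
          (Subtype.val : KN k n D → _) ⁻¹' (SLD n D : Set (Matrix n n D)ˣ) := by
        ext g
        constructor
        · rintro ⟨x, rfl⟩; exact x.2
        · intro hg; exact ⟨⟨g.1, hg⟩, rfl⟩
      rw [this]
      exact hcl.preimage continuous_subtype_val
  exact h1.comp h2

end top

section top2

variable {n D : Type*} [Fintype n] [DecidableEq n] [NormedDivisionRing D] [IsUltrametricDist D]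
  [ProperSpace D]

theorem isCompact_bdS (hE : IsClosedEmbedding fun g : SLD n D => g.1.1) (r : ℝ) :
    IsCompact {g : SLD n D | Bd r g.1.1} :=
  hE.isCompact_preimage (isCompact_bd r)

theorem continuous_val1 : Continuous fun g : SLD n D => g.1.1 :=
  Units.continuous_val.comp continuous_subtype_val

theorem bound_of_compact {S : Set (SLD n D)} (hS : IsCompact S) :
    ∃ R : ℝ, 0 ≤ R ∧ ∀ g ∈ S, Bd R g.1.1 := by
  have h1 : ∀ i j, ∃ R : ℝ, ∀ g ∈ S, ‖g.1.1 i j‖ ≤ R := by
    intro i j
    have hc : Continuous fun g : SLD n D => ‖g.1.1 i j‖ :=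
      (Continuous.matrix_elem continuous_val1 i j).norm
    obtain ⟨R, hR⟩ := (hS.image hc).bddAbove
    exact ⟨R, fun g hg => hR ⟨g, hg, rfl⟩⟩
  choose R hR using h1
  refine ⟨∑ i, ∑ j, |R i j|, by positivity, fun g hg i j => ?_⟩
  have h2 : |R i j| ≤ ∑ j, |R i j| :=
    Finset.single_le_sum (f := fun j => |R i j|) (fun _ _ => abs_nonneg _) (Finset.mem_univ j)
  have h3 : ∑ j, |R i j| ≤ ∑ i, ∑ j, |R i j| :=
    Finset.single_le_sum (f := fun i => ∑ j, |R i j|)
      (fun i _ => Finset.sum_nonneg fun j _ => abs_nonneg _) (Finset.mem_univ i)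
  exact ((hR i j g hg).trans (le_abs_self _)).trans (h2.trans h3)

/-- `SL_n(D) ∩ GL_n(O_D)` -/
def KO (n D : Type*) [Fintype n] [DecidableEq n] [NormedDivisionRing D] [IsUltrametricDist D] :
    Subgroup (SLD n D) where
  carrier := {g | Bd 1 g.1.1 ∧ Bd 1 ((g.1)⁻¹).1}
  one_mem' := by
    refine ⟨Bd.one, ?_⟩
    show Bd 1 ((1 : (Matrix n n D)ˣ)⁻¹).1
    rw [inv_one]; exact Bd.one
  mul_mem' := by
    rintro a b ⟨ha, ha'⟩ ⟨hb, hb'⟩
    refine ⟨?_, ?_⟩
    · show Bd 1 (a.1.1 * b.1.1)
      simpa using Bd.mul zero_le_one zero_le_one ha hb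
    · show Bd 1 ((a.1 * b.1)⁻¹).1
      rw [_root_.mul_inv_rev]
      show Bd 1 (((b.1)⁻¹).1 * ((a.1)⁻¹).1)
      simpa using Bd.mul zero_le_one zero_le_one hb' ha'
  inv_mem' := by
    rintro a ⟨ha, ha'⟩
    refine ⟨ha', ?_⟩
    show Bd 1 ((a.1)⁻¹⁻¹).1
    rw [inv_inv]; exact ha

theorem isOpen_KO : IsOpen (KO n D : Set (SLD n D)) := by
  have hc : Continuous fun g : SLD n D => ((g.1)⁻¹).1 :=
    continuous_val1.comp (continuous_inv (G := SLD n D))
  exact ((isOpen_bd one_ne_zero).preimage continuous_val1).inter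
    ((isOpen_bd one_ne_zero).preimage hc)

theorem isCompact_KO (hE : IsClosedEmbedding fun g : SLD n D => g.1.1) :
    IsCompact (KO n D : Set (SLD n D)) :=
  (isCompact_bdS hE 1).of_isClosed_subset (Subgroup.isClosed_of_isOpen _ isOpen_KO)
    fun g hg => hg.1

end top2

end Vale.Agent.P092.H289.DT
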