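import Mathlib

/-!
P092 (helper289), block [CLASS-D] (3a): `D` a central division algebra of finite dimension over a
complete nontrivially normed field `k` (any characteristic).  The commutator subgroup of `Dˣ`
contains a neighbourhood of `1` in the kernel of the norm `Dˣ → kˣ`.
-/

set_option linter.all false

open Module Filter Topology
open scoped commutatorElement

namespace Vale.Agent.P092.H289.DC

section alg

variable {k D : Type*} [Field k] [DivisionRing D] [Algebra k D] [FiniteDimensional k D]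

/-- The trace functionals of a central division algebra are a line. -/
theorem trace_line [Algebra.IsCentral k D] (f g : D →ₗ[k] k) (hf : ∀ x y, f (x * y) = f (y * x))
    (hg : ∀ x y, g (x * y) = g (y * x)) (hf0 : f ≠ 0) : ∃ c : k, g = c • f := by
  let B : D →ₗ[k] (D →ₗ[k] k) :=
    LinearMap.mk₂ k (fun z y => f (z * y)) (fun a b c => by rw [add_mul, map_add])
      (fun c a b => by rw [smul_mul_assoc, map_smul]) (fun a b c => by rw [mul_add, map_add])
      (fun c a b => by rw [mul_smul_comm, map_smul])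
  have hB : ∀ z y, B z y = f (z * y) := fun z y => rfl
  have hinj : Function.Injective B := by
    rw [← LinearMap.ker_eq_bot, LinearMap.ker_eq_bot']
    intro z hz
    by_contra h
    apply hf0
    ext w
    have := congrArg (fun φ : D →ₗ[k] k => φ (z⁻¹ * w)) hz
    simpa [hB, ← mul_assoc, mul_inv_cancel₀ h] using this
  have hsurj : Function.Surjective B :=
    (LinearMap.injective_iff_surjective_of_finrank_eq_finrank
      (Subspace.dual_finrank_eq (K := k) (V := D)).symm).1 hinj
  obtain ⟨z, hz⟩ := hsurj g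
  have hzy : ∀ y, f (z * y) = g y := fun y => by rw [← hB, hz]
  have hcen : z ∈ Subalgebra.center k D := by
    rw [Subalgebra.mem_center_iff]
    intro x
    have h1 : B (x * z - z * x) = 0 := by
      ext y
      rw [hB, sub_mul, map_sub, LinearMap.zero_apply, sub_eq_zero]
      calc f (x * z * y) = f (x * (z * y)) := by rw [mul_assoc]
        _ = f (z * y * x) := hf _ _
        _ = f (z * (y * x)) := by rw [mul_assoc]
        _ = g (y * x) := hzy _
        _ = g (x * y) := hg _ _
        _ = f (z * (x * y)) := (hzy _).symm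
        _ = f (z * x * y) := by rw [mul_assoc]
    have h2 := hinj (h1.trans (map_zero B).symm)
    exact sub_eq_zero.1 h2
  have hbot := Algebra.IsCentral.out (K := k) (D := D) hcen
  obtain ⟨c, rfl⟩ := Algebra.mem_bot.1 hbot
  refine ⟨c, ?_⟩
  ext y
  rw [← hzy, ← Algebra.smul_def, map_smul, LinearMap.smul_apply]

variable (k D) in
/-- the span of the `a y a⁻¹ - y` -/
def cs : Submodule k D := Submodule.span k {z | ∃ (a : Dˣ) (y : D), z = a * y * (a⁻¹ : Dˣ) - y}

theorem trace_of_cs (f : D →ₗ[k] k) (hf : ∀ z ∈ cs k D, f z = 0) (x y : D) :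
    f (x * y) = f (y * x) := by
  by_cases hx : x = 0
  · simp [hx]
  · have h1 : x * y - y * x ∈ cs k D := by
      refine Submodule.subset_span ⟨Units.mk0 x hx, y * x, ?_⟩
      simp only [Units.val_mk0, Units.val_inv_eq_inv_val]
      rw [mul_assoc, mul_assoc, mul_inv_cancel₀ hx, mul_one]
    have := hf _ h1
    rwa [map_sub, sub_eq_zero] at this

/-- The commutators have codimension at most one. -/
theorem exists_compl [Algebra.IsCentral k D] : ∃ c : D, c ≠ 0 ∧ cs k D ⊔ Submodule.span k {c} = ⊤ := by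
  by_cases h : cs k D = ⊤
  · exact ⟨1, one_ne_zero, by rw [h, top_sup_eq]⟩
  obtain ⟨c, -, hc⟩ := SetLike.exists_of_lt (lt_top_iff_ne_top.2 h)
  refine ⟨c, fun h0 => hc (h0 ▸ Submodule.zero_mem _), ?_⟩
  by_contra hne
  obtain ⟨d, -, hd⟩ := SetLike.exists_of_lt (lt_top_iff_ne_top.2 hne)
  obtain ⟨f, hfc, hf⟩ := Submodule.exists_le_ker_of_notMem hc
  obtain ⟨g, hgd, hg⟩ := Submodule.exists_le_ker_of_notMem hd
  have hf' : ∀ z ∈ cs k D, f z = 0 := fun z hz => hf hz
  have hg' : ∀ z ∈ cs k D, g z = 0 := fun z hz => hg (Submodule.mem_sup_left hz)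
  have hgc : g c = 0 := hg (Submodule.mem_sup_right (Submodule.mem_span_singleton_self c))
  obtain ⟨l, hl⟩ := trace_line f g (trace_of_cs f hf') (trace_of_cs g hg')
    (fun h0 => hfc (by rw [h0]; rfl))
  rw [hl, LinearMap.smul_apply, smul_eq_mul] at hgc
  rcases mul_eq_zero.1 hgc with h1 | h1
  · apply hgd
    rw [hl, h1, zero_smul]; rfl
  · exact hfc h1

/-- `N(1 + t c) = 1` has only finitely many solutions. -/
theorem finite_norm {c : D} (hc : c ≠ 0) :
    {t : k | t ≠ 0 ∧ Algebra.norm k (1 + t • c) = 1}.Finite := by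
  classical
  set p : Polynomial k := (Algebra.lmul k D (-c)).charpoly - Polynomial.X ^ finrank k D with hp
  have hev : ∀ s : k, p.eval s = Algebra.norm k (algebraMap k D s + c) - s ^ finrank k D := by
    intro s
    rw [hp, Polynomial.eval_sub, LinearMap.eval_charpoly, Polynomial.eval_pow, Polynomial.eval_X,
      Algebra.norm_apply, map_add]
    congr 2
    rw [map_neg, sub_neg_eq_add]
    congr 1
    ext x
    simp [Algebra.smul_def, Module.algebraMap_end_apply]
  have hpos : 0 < finrank k D := Module.finrank_pos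
  have hp0 : p ≠ 0 := by
    intro h0
    have h1 := hev 0
    rw [h0, Polynomial.eval_zero, map_zero, zero_add, zero_pow hpos.ne', sub_zero] at h1
    have h2 : IsUnit (Algebra.norm k c) := (IsUnit.mk0 c hc).map (Algebra.norm k)
    exact h2.ne_zero h1.symm
  refine Set.Finite.subset ((p.roots.toFinset.finite_toSet).image fun s => s⁻¹) ?_
  rintro t ⟨ht, h1⟩
  refine ⟨t⁻¹, ?_, inv_inv t⟩
  simp only [Finset.mem_coe, Multiset.mem_toFinset]
  rw [Polynomial.mem_roots hp0, Polynomial.IsRoot.def, hev]
  have h2 : (1 : D) + t • c = algebraMap k D t * (algebraMap k D t⁻¹ + c) := by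
    rw [mul_add, ← map_mul, mul_inv_cancel₀ ht, map_one, Algebra.smul_def]
  rw [h2, map_mul, Algebra.norm_algebraMap] at h1
  have h3 : t ^ finrank k D ≠ 0 := pow_ne_zero _ ht
  rw [sub_eq_zero, inv_pow]
  exact eq_inv_of_mul_eq_one_right h1

end alg

section ana

variable {k D : Type*} [NontriviallyNormedField k] [NormedDivisionRing D] [NormedAlgebra k D]

/-- The curve `s ↦ a (1 + s y) a⁻¹ (1 + s y)⁻¹`. -/
def cur (a : Dˣ) (y : D) (s : k) : D := a * (1 + s • y) * (a⁻¹ : Dˣ) * (1 + s • y)⁻¹

theorem cur_zero (a : Dˣ) (y : D) : cur a y (0 : k) = 1 := by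
  simp [cur]

variable [CompleteSpace D]

theorem cur_sd (a : Dˣ) (y : D) : HasStrictFDerivAt (cur a y : k → D)
    (ContinuousLinearMap.smulRight (1 : k →L[k] k) (a * y * (a⁻¹ : Dˣ) - y)) 0 := by
  have h1 : HasStrictFDerivAt (fun s : k => 1 + s • y)
      (ContinuousLinearMap.smulRight (1 : k →L[k] k) y) 0 := by
    have := ((ContinuousLinearMap.smulRight (1 : k →L[k] k) y).hasStrictFDerivAt
      (x := (0 : k))).const_add (1 : D)
    exact this
  have h2 : HasStrictFDerivAt (fun s : k => (a : D) * (1 + s • y) * (a⁻¹ : Dˣ))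
      (ContinuousLinearMap.smulRight (1 : k →L[k] k) (a * y * (a⁻¹ : Dˣ))) 0 := by
    have := (h1.const_mul (a : D)).mul_const' ((a⁻¹ : Dˣ) : D)
    refine this.congr_fderiv ?_
    ext
    simp
  have h3 : HasStrictFDerivAt (fun s : k => (1 + s • y)⁻¹)
      (ContinuousLinearMap.smulRight (1 : k →L[k] k) (-y)) 0 := by
    have e : (1 : D) + (0 : k) • y ≠ 0 := by simp
    have := (hasStrictFDerivAt_inv' (𝕜 := k) e).comp (0 : k) h1
    refine this.congr_fderiv ?_
    ext
    simp
  have h4 := h2.mul' h3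
  refine h4.congr_fderiv ?_
  ext
  simp
  abel

theorem list_sd {ι E : Type*} [NormedAddCommGroup E] [NormedSpace k E] (f : ι → E → D)
    (L : ι → E →L[k] D) (h : ∀ i, HasStrictFDerivAt (f i) (L i) 0) (h1 : ∀ i, f i 0 = 1)
    (l : List ι) : HasStrictFDerivAt (fun e => (l.map fun i => f i e).prod) ((l.map L).sum) 0 ∧
      (l.map fun i => f i 0).prod = 1 := by
  induction l with
  | nil => exact ⟨by simpa using hasStrictFDerivAt_const (1 : D) (0 : E), by simp⟩
  | cons i l ih =>
    constructor
    · simp only [List.map_cons, List.prod_cons, List.sum_cons]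
      have := (h i).mul' ih.1
      refine this.congr_fderiv ?_
      ext x
      simp only [h1 i, ih.2]
      simp
      abel
    · rw [List.map_cons, List.prod_cons, ih.2, h1, mul_one]

/-- **The commutator subgroup of `Dˣ` contains a neighbourhood of `1` in the kernel of the norm.** -/
theorem comm_nhds [CompleteSpace k] [FiniteDimensional k D] [Algebra.IsCentral k D] :
    ∃ U ∈ 𝓝 (1 : D), ∀ x : Dˣ, (x : D) ∈ U → Algebra.norm k (x : D) = 1 → x ∈ commutator Dˣ := by
  classical
  obtain ⟨c, hc0, hc⟩ := exists_compl (k := k) (D := D)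
  obtain ⟨b, hbS, hbspan, hbli⟩ := exists_linearIndependent k
    {z : D | ∃ (a : Dˣ) (y : D), z = a * y * (a⁻¹ : Dˣ) - y}
  have hfin : Finite b := LinearIndependent.finite_of_isNoetherian hbli
  have := Fintype.ofFinite b
  choose a y hay using fun i : b => hbS i.2
  let E := (b → k) × k
  let F : b → E → D := fun i e => cur (a i) (y i) (e.1 i)
  let L : b → E →L[k] D := fun i =>
    (ContinuousLinearMap.smulRight (1 : k →L[k] k) (i : D)).comp
      ((ContinuousLinearMap.proj i).comp (ContinuousLinearMap.fst k (b → k) k))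
  have hF : ∀ i, HasStrictFDerivAt (F i) (L i) 0 := by
    intro i
    have h1 := cur_sd (k := k) (a i) (y i)
    rw [← hay i] at h1
    have h2 : HasStrictFDerivAt (fun e : E => e.1 i)
      ((ContinuousLinearMap.proj i).comp (ContinuousLinearMap.fst k (b → k) k)) 0 :=
      ((ContinuousLinearMap.proj (R := k) (φ := fun _ : b => k) i).comp
        (ContinuousLinearMap.fst k (b → k) k)).hasStrictFDerivAt
    exact HasStrictFDerivAt.comp (g := cur (a i) (y i)) (f := fun e : E => e.1 i) (0 : E) h1 h2
  have hF1 : ∀ i, F i 0 = 1 := fun i => cur_zero _ _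
  obtain ⟨hP, hP1⟩ := list_sd F L hF hF1 (Finset.univ.toList)
  set P : E → D := fun e => (Finset.univ.toList.map fun i => F i e).prod with hPdef
  have hQ : HasStrictFDerivAt (fun e : E => 1 + e.2 • c)
      ((ContinuousLinearMap.smulRight (1 : k →L[k] k) c).comp
        (ContinuousLinearMap.snd k (b → k) k)) 0 := by
    have := (((ContinuousLinearMap.smulRight (1 : k →L[k] k) c).comp
        (ContinuousLinearMap.snd k (b → k) k)).hasStrictFDerivAt (x := (0 : E))).const_add (1 : D)
    exact this
  have hΦ := hP.mul' hQ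
  set Φ : E → D := fun e => P e * (1 + e.2 • c) with hΦdef
  have hΦ0 : Φ 0 = 1 := by
    show P 0 * (1 + (0 : E).2 • c) = 1
    rw [show P 0 = 1 from hP1]; simp
  set Φ' := P 0 • ((ContinuousLinearMap.smulRight (1 : k →L[k] k) c).comp
        (ContinuousLinearMap.snd k (b → k) k)) +
      MulOpposite.op (1 + (0 : E).2 • c) • ((Finset.univ.toList.map L).sum) with hΦ'
  have hval : ∀ e : E, Φ' e = (∑ i : b, e.1 i • (i : D)) + e.2 • c := by
    intro e
    have h0 : P 0 = 1 := hP1
    have hsum : ((Finset.univ.toList.map L).sum) e = ∑ i : b, e.1 i • (i : D) := by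
      rw [Finset.sum_map_toList]
      rw [ContinuousLinearMap.sum_apply]
      rfl
    rw [hΦ', h0]
    simp [hsum]
    abel
  have hsurj : Φ'.range = ⊤ := by
    rw [eq_top_iff, ← hc, sup_le_iff]
    constructor
    · rw [cs, ← hbspan, Submodule.span_le]
      intro z hz
      refine ⟨(Pi.single (⟨z, hz⟩ : b) 1, 0), ?_⟩
      show Φ' _ = z
      rw [hval]
      simp [Pi.single_apply, Finset.sum_ite_eq]
    · rw [Submodule.span_singleton_le_iff_mem]
      refine ⟨(0, 1), ?_⟩
      show Φ' _ = c
      rw [hval]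
      simp
  have : CompleteSpace E := inferInstance
  have hmap : map Φ (𝓝 0) = 𝓝 1 := by
    rw [← hΦ0]
    exact hΦ.map_nhds_eq_of_surj hsurj
  -- the neighbourhood
  have hV1 : ∀ i : b, ∀ᶠ e : E in 𝓝 0, 1 + e.1 i • y i ≠ 0 := by
    intro i
    have hcont : Continuous fun e : E => 1 + e.1 i • y i :=
      continuous_const.add (((continuous_apply i).comp continuous_fst).smul continuous_const)
    exact hcont.continuousAt.eventually_ne (by simp)
  have hV2 : ∀ᶠ e : E in 𝓝 0, e.2 ≠ 0 → Algebra.norm k (1 + e.2 • c) ≠ 1 := by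
    have h1 : {t : k | t ≠ 0 ∧ Algebra.norm k (1 + t • c) = 1}ᶜ ∈ 𝓝 (0 : k) :=
      (finite_norm hc0).isClosed.isOpen_compl.mem_nhds (by simp)
    have h2 : ∀ᶠ e : E in 𝓝 0, e.2 ∈ {t : k | t ≠ 0 ∧ Algebra.norm k (1 + t • c) = 1}ᶜ :=
      continuous_snd.continuousAt.eventually_mem h1
    filter_upwards [h2] with e he h3 h4
    exact he ⟨h3, h4⟩
  set V : Set E := {e | (∀ i : b, 1 + e.1 i • y i ≠ 0) ∧
    (e.2 ≠ 0 → Algebra.norm k (1 + e.2 • c) ≠ 1)} with hVdef
  have hV : V ∈ 𝓝 (0 : E) := (eventually_all.2 hV1).and hV2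
  refine ⟨Φ '' V, by rw [← hmap]; exact image_mem_map hV, ?_⟩
  rintro x ⟨e, ⟨he1, he2⟩, hex⟩ hx
  let w : Dˣ := (Finset.univ.toList.map fun i : b => ⁅a i, Units.mk0 _ (he1 i)⁆).prod
  have hw : (w : D) = P e := by
    show ((Units.coeHom D) w) = _
    rw [map_list_prod, List.map_map]
    rfl
  have hwc : w ∈ commutator Dˣ := by
    refine Subgroup.list_prod_mem _ ?_
    intro z hz
    obtain ⟨i, -, rfl⟩ := List.mem_map.1 hz
    exact Subgroup.commutator_mem_commutator (Subgroup.mem_top _) (Subgroup.mem_top _)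
  have hNw : Algebra.norm k (w : D) = 1 := by
    have h1 : commutator Dˣ ≤ (Units.map (Algebra.norm k : D →* k)).ker :=
      Abelianization.commutator_subset_ker _
    have h2 := MonoidHom.mem_ker.1 (h1 hwc)
    have h3 := congrArg (fun u : kˣ => (u : k)) h2
    simpa using h3
  have ht : e.2 = 0 := by
    by_contra h
    apply he2 h
    have h4 : Algebra.norm k (Φ e) = 1 := by rw [hex]; exact hx
    rw [hΦdef] at h4
    simp only [map_mul] at h4
    rw [← hw, hNw, one_mul] at h4
    exact h4
  have hxw : x = w := by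
    apply Units.ext
    rw [hw, ← hex]
    show P e * (1 + e.2 • c) = P e
    rw [ht, zero_smul, add_zero, mul_one]
  rw [hxw]
  exact hwc

end ana

end Vale.Agent.P092.H289.DC
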