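import Vale.Agent.P092.H465.DA5
import Vale.Agent.P092.H701.SLn

/-!
P092 (helper289), row CLASS-D, item 5 (first half): the row pairs of `SL_n(D)` over the centre `k`
of the division algebra `D`.
-/

set_option linter.all false

open Matrix Topology Filter Set

namespace Vale.Agent.P092.H289.DD

open Vale.Agent.P092.H465.DA Vale.Agent.P092.H701

theorem sum_same {n k V : Type*} [Fintype n] [DecidableEq n] [CommRing k] [AddCommGroup V] [Module k V]
    (r : n → V) (a b : n) (t : k) :
    ∑ c, (transvection a b t) a c • r c = r a + t • r b := by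
  have e : ∀ c, (transvection a b t) a c • r c =
      (if a = c then r c else 0) + (if b = c then t • r c else 0) := by
    intro c
    rw [transvection, Matrix.add_apply, Matrix.one_apply, Matrix.single_apply, add_smul]
    congr 1
    · split_ifs <;> simp
    · by_cases hc : b = c
      · rw [if_pos ⟨rfl, hc⟩, if_pos hc]
      · rw [if_neg (fun hh => hc hh.2), if_neg hc, zero_smul]
  simp only [e, Finset.sum_add_distrib, Finset.sum_ite_eq, Finset.mem_univ, if_true]

theorem sum_ne {n k V : Type*} [Fintype n] [DecidableEq n] [CommRing k] [AddCommGroup V] [Module k V]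
    (r : n → V) {a b c : n} (hc : c ≠ a) (t : k) :
    ∑ d, (transvection a b t) c d • r d = r c := by
  have e : ∀ d, (transvection a b t) c d • r d = if c = d then r d else 0 := by
    intro d
    have h : single a b t c d = 0 := by
      rw [Matrix.single_apply, if_neg (fun hh => hc hh.1.symm)]
    rw [transvection, Matrix.add_apply, Matrix.one_apply, h, add_zero]
    split_ifs <;> simp
  simp only [e, Finset.sum_ite_eq, Finset.mem_univ, if_true]

theorem sum_diag {n k V : Type*} [Fintype n] [DecidableEq n] [CommRing k] [AddCommGroup V] [Module k V]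
    (r : n → V) (i : n) (d : k) {M : Matrix n n k} (hM : ∀ b, M i b = d * (1 : Matrix n n k) i b) :
    ∑ b, M i b • r b = d • r i := by
  have e : ∀ b, M i b • r b = if i = b then d • r b else 0 := by
    intro b
    rw [hM, one_apply]
    split_ifs <;> simp
  simp only [e, Finset.sum_ite_eq, Finset.mem_univ, if_true]

section alg

variable {m : ℕ} {k : Type*} [Field k] {D : Type*} [DivisionRing D] [Algebra k D]

theorem nontrivial_fin (hm : 0 < m) : Nontrivial (Fin (m + 1)) :=
  Fin.nontrivial_iff_two_le.2 (by omega)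

variable (D) in
/-- the homomorphism `SL_n(k) → SL_n(D)` -/
def sE (hm : 0 < m) : SpecialLinearGroup (Fin (m + 1)) k →* SLD (Fin (m + 1)) D :=
  haveI := nontrivial_fin hm
  (slE (k := k) (D := D) (1 : Matrix (Fin (m + 1)) (Fin (m + 1)) D) 1 (Matrix.mul_one 1)).codRestrict
    (SLD (Fin (m + 1)) D) (fun g => slE_mem _ _ _ g)

theorem sE_val (hm : 0 < m) (g : SpecialLinearGroup (Fin (m + 1)) k) :
    (sE D hm g).1.1 = g.1.map (algebraMap k D) := by
  show (slE (k := k) (D := D) (1 : Matrix (Fin (m + 1)) (Fin (m + 1)) D) 1 (Matrix.mul_one 1) g).1 = _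
  rw [slE_val, Matrix.one_mul, Matrix.mul_one, add_sub_cancel]

/-- the rows of a product -/
theorem sE_row (hm : 0 < m) (g : SpecialLinearGroup (Fin (m + 1)) k) (x : SLD (Fin (m + 1)) D)
    (a : Fin (m + 1)) : (sE D hm g * x).1.1 a = ∑ b, g.1 a b • x.1.1 b := by
  funext c
  show ((sE D hm g).1.1 * x.1.1) a c = _
  rw [sE_val, mul_apply, Finset.sum_apply]
  refine Finset.sum_congr rfl fun b _ => ?_
  rw [map_apply, Pi.smul_apply, Algebra.smul_def]

theorem sE_row_elem_same (hm : 0 < m) {a b : Fin (m + 1)} {t : k}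
    {g : SpecialLinearGroup (Fin (m + 1)) k} (hg : g.1 = transvection a b t)
    (x : SLD (Fin (m + 1)) D) : (sE D hm g * x).1.1 a = x.1.1 a + t • x.1.1 b := by
  rw [sE_row, hg]
  exact sum_same (V := Fin (m + 1) → D) (fun c => x.1.1 c) a b t

theorem sE_row_elem_ne (hm : 0 < m) {a b : Fin (m + 1)} {t : k}
    {g : SpecialLinearGroup (Fin (m + 1)) k} (hg : g.1 = transvection a b t) {c : Fin (m + 1)}
    (hc : c ≠ a) (x : SLD (Fin (m + 1)) D) : (sE D hm g * x).1.1 c = x.1.1 c := by
  rw [sE_row, hg]
  exact sum_ne (V := Fin (m + 1) → D) (fun c => x.1.1 c) hc t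

theorem drow_ne (x : SLD (Fin (m + 1)) D) (a : Fin (m + 1)) : x.1.1 a ≠ 0 := by
  intro h
  have h1 : (x.1.1 * (x.1⁻¹).1) a a = 1 := by rw [Units.mul_inv, one_apply_eq]
  rw [mul_apply] at h1
  have h2 : ∀ b, x.1.1 a b = 0 := fun b => congrFun h b
  simp only [h2, zero_mul, Finset.sum_const_zero] at h1
  exact zero_ne_one h1

end alg

section top

variable {m : ℕ} {k : Type*} [NontriviallyNormedField k] {D : Type*} [NormedDivisionRing D]
  [NormedAlgebra k D]

theorem tor_row (hm : 0 < m) {w : k} (hw : w ≠ 0) (j i : Fin (m + 1)) (N : ℕ)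
    (x : SLD (Fin (m + 1)) D) :
    (sE D hm (tor m hw j) ^ N * x).1.1 i = (dg m w j i) ^ N • x.1.1 i := by
  rw [← map_pow, sE_row]
  refine sum_diag (V := Fin (m + 1) → D) (fun c => x.1.1 c) i _ fun b => ?_
  have h := tor_pow_row m hw j i N 1
  rw [mul_one] at h
  exact congrFun h b

theorem continuous_drow (a : Fin (m + 1)) : Continuous fun x : SLD (Fin (m + 1)) D => x.1.1 a := by
  have h : Continuous fun x : SLD (Fin (m + 1)) D => x.1.1 :=
    Units.continuous_val.comp continuous_subtype_val
  exact (continuous_apply a).comp h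

theorem continuous_sE (hm : 0 < m) : Continuous (sE (k := k) D hm) := by
  have hc : Continuous (algebraMap k D) := continuous_algebraMap k D
  have h1 : Continuous fun g : SpecialLinearGroup (Fin (m + 1)) k => g.1 := continuous_subtype_val
  have h2 : Continuous fun g : SpecialLinearGroup (Fin (m + 1)) k => (g⁻¹).1 :=
    h1.comp continuous_inv
  refine Continuous.subtype_mk ?_ _
  rw [Units.continuous_iff]
  constructor
  · show Continuous fun g : SpecialLinearGroup (Fin (m + 1)) k => (sE D hm g).1.1
    simp only [sE_val]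
    exact h1.matrix_map hc
  · have e : ∀ g : SpecialLinearGroup (Fin (m + 1)) k,
        ((sE D hm g).1⁻¹).1 = (g⁻¹).1.map (algebraMap k D) := fun g => by
      rw [← sE_val hm, map_inv]
      rfl
    show Continuous fun g : SpecialLinearGroup (Fin (m + 1)) k => ((sE D hm g).1⁻¹).1
    simp only [e]
    exact h2.matrix_map hc

/-- the row pair `(a, b)` of `SL_n(D)` -/
noncomputable def dRow (hm : 0 < m) {a b : Fin (m + 1)} (h : a ≠ b) :
    RowPair (SLD (Fin (m + 1)) D) k (Fin (m + 1) → D) where
  ρ₁ x := x.1.1 a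
  ρ₂ x := x.1.1 b
  cont₁ := continuous_drow a
  cont₂ := continuous_drow b
  ne x := lt_max_of_lt_left (norm_pos_iff.2 (drow_ne x a))
  up t := sE D hm (elem h t)
  lo t := sE D hm (elem h.symm t)
  cont_up := (continuous_sE hm).comp (continuous_elem h)
  cont_lo := (continuous_sE hm).comp (continuous_elem h.symm)
  up₁ t x := sE_row_elem_same hm (g := elem h t) rfl x
  up₂ t x := sE_row_elem_ne hm (g := elem h t) rfl h.symm x
  lo₁ t x := sE_row_elem_ne hm (g := elem h.symm t) rfl h x
  lo₂ t x := sE_row_elem_same hm (g := elem h.symm t) rfl x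

end top

end Vale.Agent.P092.H289.DD
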