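import Vale.Agent.P092.H289.DTd

/-!
P092 (helper289), row [CLASS-D] (6), part 2: the modulus of conjugation by `GL_n(D)` on `SL_n(D)` is
trivial on the scalars, on `SL_n(D)` and on the diagonal matrices.
-/

set_option linter.all false

open Matrix Topology Filter MeasureTheory MeasureTheory.Measure
open scoped NNReal ENNReal

namespace Vale.Agent.P092.H289.DT

open Vale.Agent.P092.H465.DA

section dg

variable {n D : Type*} [Fintype n] [DecidableEq n] [NormedDivisionRing D]

/-- the diagonal matrix with entry `d` at `j` and `1` elsewhere -/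
def dj (j : n) : Dˣ →* (Matrix n n D)ˣ :=
  Units.map ((Matrix.diagonalRingHom n D).toMonoidHom.comp (MonoidHom.mulSingle (fun _ : n => D) j))

theorem dj_val (j : n) (d : Dˣ) : (dj j d).1 = diagonal (Pi.mulSingle j (d : D)) := rfl

theorem dj_inv_val (j : n) (d : Dˣ) : ((dj j d)⁻¹).1 = diagonal (Pi.mulSingle j ((d⁻¹ : Dˣ) : D)) := by
  rw [← map_inv]; rfl

theorem bd_diagonal {r : ℝ} (hr : 0 ≤ r) {f : n → D} (h : ∀ i, ‖f i‖ ≤ r) : Bd r (diagonal f) := by
  intro i j
  by_cases hij : i = j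
  · subst hij; rw [diagonal_apply_eq]; exact h i
  · rw [diagonal_apply_ne _ hij, norm_zero]; exact hr

theorem bd_dj {r : ℝ} (hr : 1 ≤ r) (j : n) {d : Dˣ} (hd : ‖(d : D)‖ ≤ r) : Bd r (dj j d).1 := by
  rw [dj_val]
  refine bd_diagonal (by linarith) fun i => ?_
  by_cases hij : i = j
  · subst hij; rw [Pi.mulSingle_eq_same]; exact hd
  · rw [Pi.mulSingle_eq_of_ne hij, norm_one]; exact hr

variable {k : Type*} [NontriviallyNormedField k] [NormedAlgebra k D]

/-- the diagonal matrices with entries in `k` -/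
def dk (n D : Type*) [Fintype n] [DecidableEq n] [NormedDivisionRing D]
    {k : Type*} [NontriviallyNormedField k] [NormedAlgebra k D] : (n → kˣ) →* (Matrix n n D)ˣ :=
  MonoidHom.toHomUnits
    { toFun := fun f => diagonal fun i => algebraMap k D (f i)
      map_one' := by simp
      map_mul' := fun f g => by rw [diagonal_mul_diagonal]; simp }

theorem dk_val (f : n → kˣ) : (dk n D f).1 = diagonal fun i => algebraMap k D (f i) := rfl

theorem dk_single (j : n) (l : kˣ) :
    dk n D (Pi.mulSingle j l) = dj j (Units.map (algebraMap k D).toMonoidHom l) := by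
  apply Units.ext
  rw [dk_val, dj_val]
  congr 1
  funext i
  by_cases hij : i = j
  · subst hij; rw [Pi.mulSingle_eq_same, Pi.mulSingle_eq_same]; rfl
  · rw [Pi.mulSingle_eq_of_ne hij, Pi.mulSingle_eq_of_ne hij]; simp

theorem dk_mem [Nontrivial n] (f : n → kˣ) (hf : ∏ i, f i = 1) : dk n D f ∈ SLD n D := by
  have hdet : (diagonal fun i => (f i : k)).det = 1 := by
    rw [det_diagonal, ← Units.coe_prod, hf, Units.val_one]
  let g : SpecialLinearGroup n k := ⟨diagonal fun i => (f i : k), hdet⟩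
  have h1 := slE_mem (D := D) (1 : Matrix n n D) (1 : Matrix n n D) (Matrix.mul_one _) g
  have h2 : dk n D f = slE (1 : Matrix n n D) (1 : Matrix n n D) (Matrix.mul_one _) g := by
    apply Units.ext
    rw [slE_val, dk_val]
    simp only [Matrix.one_mul, Matrix.mul_one, add_sub_cancel]
    show _ = (diagonal fun i => (f i : k)).map (algebraMap k D)
    rw [Matrix.diagonal_map (map_zero _)]
  rw [h2]
  exact h1

theorem cj_const (l : kˣ) : cj (dk n D fun _ => l) = ContinuousMulEquiv.refl _ := by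
  ext1 g
  apply Subtype.ext
  apply Units.ext
  have e : (dk n D fun _ => l).1 = algebraMap k (Matrix n n D) (l : k) := by
    rw [dk_val]; ext i j
    rw [Matrix.algebraMap_matrix_apply]
    by_cases hij : i = j
    · subst hij; simp
    · simp [hij]
  show (dk n D fun _ => l).1 * g.1.1 * ((dk n D fun _ => l)⁻¹).1 = g.1.1
  rw [e, Algebra.commutes, mul_assoc, ← e, Units.mul_inv, mul_one]

end dg

section haar

variable {n D : Type*} [Fintype n] [DecidableEq n] [NormedDivisionRing D]
  [LocallyCompactSpace (SLD n D)] [MeasurableSpace (SLD n D)] [BorelSpace (SLD n D)]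

/-- the modulus of conjugation -/
noncomputable def md (n D : Type*) [Fintype n] [DecidableEq n] [NormedDivisionRing D]
    [LocallyCompactSpace (SLD n D)] [MeasurableSpace (SLD n D)] [BorelSpace (SLD n D)] :
    (Matrix n n D)ˣ →* ℝ≥0 where
  toFun := fun A => mulEquivHaarChar (cj A)
  map_one' := by rw [cj_one, mulEquivHaarChar_refl]
  map_mul' := fun A B => by rw [cj_mul, mulEquivHaarChar_trans, mul_comm]

theorem md_smul (A : (Matrix n n D)ˣ) (X : Set (SLD n D)) :
    (md n D A : ℝ≥0∞) * haar ((cj A) ⁻¹' X) = haar X := by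
  have h1 := mulEquivHaarChar_smul_preimage (haar : Measure (SLD n D)) (X := X) (cj A)
  rwa [ENNReal.smul_def, smul_eq_mul] at h1

theorem md_of_mem (hn : 2 ≤ Fintype.card n) (k : Type*) [NontriviallyNormedField k]
    [NormedAlgebra k D] {s : (Matrix n n D)ˣ} (hs : s ∈ SLD n D) : md n D s = 1 := by
  have h1 := hom_eq_one hn k H899.exists_sq_ne (((md n D).comp (SLD n D).subtype).toHomUnits)
  have h2 := DFunLike.congr_fun h1 (⟨s, hs⟩ : SLD n D)
  exact congrArg Units.val h2

theorem md_mul_inv (A : (Matrix n n D)ˣ) : md n D A * md n D A⁻¹ = 1 := by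
  rw [← map_mul, mul_inv_cancel, map_one]

theorem md_const {k : Type*} [NontriviallyNormedField k] [NormedAlgebra k D] (l : kˣ) :
    md n D (dk n D fun _ => l) = 1 := by
  show mulEquivHaarChar (cj _) = 1
  rw [cj_const, mulEquivHaarChar_refl]

theorem md_dk {k : Type*} [NontriviallyNormedField k] [NormedAlgebra k D]
    (hn : 2 ≤ Fintype.card n) (j : n) (l : kˣ) : md n D (dk n D (Pi.mulSingle j l)) = 1 := by
  have : Nontrivial n := Fintype.one_lt_card_iff_nontrivial.1 hn
  set N := Fintype.card n with hN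
  have h1 : dk n D ((Pi.mulSingle j l) ^ N * fun _ => l⁻¹) ∈ SLD n D := by
    refine dk_mem _ ?_
    simp only [Pi.mul_apply, Pi.pow_apply]
    rw [Finset.prod_mul_distrib, Finset.prod_pow, Finset.prod_const, Finset.card_univ, ← hN]
    have e : ∏ i, (Pi.mulSingle j l : n → kˣ) i = l := by
      rw [Finset.prod_eq_single j]
      · exact Pi.mulSingle_eq_same _ _
      · intro i _ hi; exact Pi.mulSingle_eq_of_ne hi _
      · intro h; exact absurd (Finset.mem_univ j) h
    rw [e, inv_pow, mul_inv_cancel]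
  have h2 := md_of_mem hn k h1
  rw [map_mul, map_pow, map_mul, md_const, mul_one, map_pow] at h2
  exact (pow_eq_one_iff_of_nonneg zero_le' (by omega)).1 h2

variable [IsUltrametricDist D] [ProperSpace D]

/-- a lower bound of the modulus -/
theorem md_lower (hE : IsClosedEmbedding fun g : SLD n D => g.1.1) {R : ℝ} (hR : 0 ≤ R) :
    ∃ c : ℝ≥0∞, c ≠ 0 ∧ ∀ A : (Matrix n n D)ˣ, Bd R A.1 → Bd R (A⁻¹).1 → c ≤ md n D A := by
  have hKo : IsOpen (KO n D : Set (SLD n D)) := isOpen_KO
  set C : Set (SLD n D) := {g | Bd (R * 1 * R) g.1.1} with hC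
  have hCc : IsCompact C := isCompact_bdS hE _
  have hK0 : (haar (KO n D : Set (SLD n D)) : ℝ≥0∞) ≠ 0 :=
    (hKo.measure_pos _ ⟨1, (KO n D).one_mem⟩).ne'
  have hCt : (haar C : ℝ≥0∞) ≠ ⊤ := hCc.measure_lt_top.ne
  have key : ∀ A : (Matrix n n D)ˣ, Bd R A.1 → Bd R (A⁻¹).1 →
      haar (KO n D : Set (SLD n D)) ≤ (md n D A : ℝ≥0∞) * haar C := by
    intro A hA hA'
    rw [← md_smul A (KO n D : Set (SLD n D))]
    gcongr
    intro g hg
    have h2 : Bd 1 (A.1 * g.1.1 * (A⁻¹).1) := hg.1
    have h3 : g.1.1 = (A⁻¹).1 * (A.1 * g.1.1 * (A⁻¹).1) * A.1 := by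
      have e := Units.inv_mul A
      calc g.1.1 = ((A⁻¹).1 * A.1) * g.1.1 * ((A⁻¹).1 * A.1) := by rw [e, one_mul, mul_one]
        _ = _ := by simp only [mul_assoc]
    show Bd _ g.1.1
    rw [h3]
    exact (Bd.mul hR zero_le_one hA' h2).mul (by positivity) hR hA
  exact ⟨haar (KO n D : Set (SLD n D)) / haar C, ENNReal.div_ne_zero.2 ⟨hK0, hCt⟩,
    fun A hA hA' => ENNReal.div_le_of_le_mul (key A hA hA')⟩

theorem one_le_md (hE : IsClosedEmbedding fun g : SLD n D => g.1.1) {R : ℝ} (hR : 0 ≤ R)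
    {A : (Matrix n n D)ˣ} (h : ∀ m : ℕ, ∃ z : (Matrix n n D)ˣ, md n D z = 1 ∧
      Bd R (z * A ^ m).1 ∧ Bd R ((z * A ^ m)⁻¹).1) : 1 ≤ md n D A := by
  obtain ⟨c, hc, hcA⟩ := md_lower hE hR
  by_contra hlt
  push Not at hlt
  have key : ∀ m : ℕ, c ≤ ((md n D A : ℝ≥0∞)) ^ m := by
    intro m
    obtain ⟨z, hz, h1, h2⟩ := h m
    have h3 := hcA _ h1 h2
    rw [map_mul, hz, one_mul, map_pow] at h3
    exact_mod_cast h3
  have hlim : Filter.Tendsto (fun m : ℕ => ((md n D A : ℝ≥0∞)) ^ m) Filter.atTop (𝓝 0) :=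
    ENNReal.tendsto_pow_atTop_nhds_zero_of_lt_one (by exact_mod_cast hlt)
  exact hc (le_antisymm (ge_of_tendsto' hlim key) zero_le')

/-- the modulus of the diagonal matrices is trivial -/
theorem md_dj (hn : 2 ≤ Fintype.card n) (k : Type*) [NontriviallyNormedField k] [NormedAlgebra k D]
    (hE : IsClosedEmbedding fun g : SLD n D => g.1.1) (j : n) (d : Dˣ) : md n D (dj j d) = 1 := by
  obtain ⟨c, hc⟩ := NormedField.exists_one_lt_norm k
  have main : ∀ d : Dˣ, 1 ≤ md n D (dj j d) := by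
    intro d
    refine one_le_md hE (R := ‖c‖) (norm_nonneg _) fun m => ?_
    obtain ⟨l, hl0, hl1, hl2, -⟩ := rescale_to_shell (F := D) hc (one_pos : (0 : ℝ) < 1)
      (x := ((d ^ m : Dˣ) : D)) (Units.ne_zero _)
    let lu : kˣ := Units.mk0 l hl0
    refine ⟨dk n D (Pi.mulSingle j lu), md_dk hn j lu, ?_⟩
    have e : dk n D (Pi.mulSingle j lu) * dj j d ^ m =
        dj j (Units.map (algebraMap k D).toMonoidHom lu * d ^ m) := by
      rw [dk_single, map_mul, map_pow]
    have e2 : ((Units.map (algebraMap k D).toMonoidHom lu * d ^ m : Dˣ) : D) =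
        l • ((d ^ m : Dˣ) : D) := by
      rw [Algebra.smul_def]; rfl
    rw [e]
    refine ⟨bd_dj hc.le j ?_, ?_⟩
    · rw [e2]; exact (hl1.le).trans hc.le
    · rw [← map_inv]
      refine bd_dj hc.le j ?_
      rw [Units.val_inv_eq_inv_val, e2, norm_inv]
      have h3 : (0 : ℝ) < 1 / ‖c‖ := by positivity
      calc ‖l • ((d ^ m : Dˣ) : D)‖⁻¹ ≤ (1 / ‖c‖)⁻¹ := inv_anti₀ h3 hl2
        _ = ‖c‖ := by rw [one_div, inv_inv]
  refine le_antisymm ?_ (main d)
  have h1 := main d⁻¹
  calc md n D (dj j d) ≤ md n D (dj j d) * md n D (dj j d⁻¹) := le_mul_of_one_le_right zero_le' h1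
    _ = 1 := by rw [← map_mul, ← map_mul, mul_inv_cancel, map_one, map_one]

/-- **Reduction of a lattice.** -/
theorem exists_red (hn : 2 ≤ Fintype.card n) (k : Type*) [NontriviallyNormedField k]
    [NormedAlgebra k D] (hE : IsClosedEmbedding fun g : SLD n D => g.1.1) {M : Set (n → D)}
    (hadd : ∀ v ∈ M, ∀ w ∈ M, v + w ∈ M)
    (hsm : ∀ v ∈ M, ∀ c : D, ‖c‖ ≤ 1 → MulOpposite.op c • v ∈ M) (hc : IsCompact M) {r : ℝ}
    (hr : 0 < r) (hb : ∀ v, Vb r v → v ∈ M) (S : Finset n) :
    ∃ h : (Matrix n n D)ˣ, md n D h = 1 ∧ (∀ v, h.1 *ᵥ v ∈ M → ∀ i ∈ S, ‖v i‖ ≤ 1) ∧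
      ∀ i ∈ S, h.1 *ᵥ Pi.single i 1 ∈ M := by
  induction S using Finset.induction_on with
  | empty => exact ⟨1, map_one _, fun v _ i hi => absurd hi (Finset.notMem_empty i),
      fun i hi => absurd hi (Finset.notMem_empty i)⟩
  | insert j S hj ih =>
    obtain ⟨h, hmd, h1, h2⟩ := ih
    -- the transported lattice
    set M' : Set (n → D) := {v | h.1 *ᵥ v ∈ M} with hM'
    have hM'c : IsCompact M' := by
      have e : M' = (fun v => (h⁻¹).1 *ᵥ v) '' M := by
        ext v
        constructor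
        · intro hv; exact ⟨h.1 *ᵥ v, hv, inv_mulVec_mulVec h v⟩
        · rintro ⟨w, hw, rfl⟩
          show h.1 *ᵥ ((h⁻¹).1 *ᵥ w) ∈ M
          rw [mulVec_inv_mulVec]; exact hw
      rw [e]
      refine hc.image ?_
      exact Continuous.matrix_mulVec continuous_const continuous_id
    have hadd' : ∀ v ∈ M', ∀ w ∈ M', v + w ∈ M' := by
      intro v hv w hw
      show h.1 *ᵥ (v + w) ∈ M
      rw [mulVec_add]; exact hadd _ hv _ hw
    have hsm' : ∀ v ∈ M', ∀ c : D, ‖c‖ ≤ 1 → MulOpposite.op c • v ∈ M' := by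
      intro v hv c hc
      show h.1 *ᵥ (MulOpposite.op c • v) ∈ M
      rw [mulVec_smul]; exact hsm _ hv c hc
    have hzero : (0 : n → D) ∈ M' := by
      show h.1 *ᵥ 0 ∈ M
      rw [mulVec_zero]
      exact hb _ fun i => by simp [hr.le]
    obtain ⟨v₀, hv₀, hmax⟩ := hM'c.exists_isMaxOn ⟨0, hzero⟩
      (f := fun v : n → D => ‖v j‖) ((continuous_apply j).norm.continuousOn)
    have hmax' : ∀ v ∈ M', ‖v j‖ ≤ ‖v₀ j‖ := fun v hv => hmax hv
    have hv₀j : v₀ j ≠ 0 := by
      obtain ⟨R, hR, hRh⟩ := exists_bd h.1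
      obtain ⟨l, hl0, hl1, -, -⟩ := rescale_to_shell (F := k)
        (NormedField.exists_one_lt_norm k).choose_spec
        (show 0 < r / (R + 1) by positivity) (x := (1 : k)) one_ne_zero
      have h3 : (Pi.single j (algebraMap k D l) : n → D) ∈ M' := by
        apply hb
        have h4 : Vb (r / (R + 1)) (Pi.single j (algebraMap k D l) : n → D) := by
          intro i
          by_cases hij : i = j
          · subst hij
            rw [Pi.single_eq_same, norm_algebraMap']
            simpa using hl1.le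
          · rw [Pi.single_eq_of_ne hij, norm_zero]; positivity
        have h5 := Bd.mulVec hR (by positivity) hRh h4
        intro i
        refine (h5 i).trans ?_
        rw [mul_div_assoc', div_le_iff₀ (by positivity)]
        nlinarith
      have h6 := hmax' _ h3
      rw [Pi.single_eq_same, norm_algebraMap'] at h6
      intro h0
      rw [h0, norm_zero] at h6
      exact hl0 (norm_le_zero_iff.1 h6)
    -- remove the coordinates in `S`
    have hsingle : ∀ i ∈ S, ∀ c : D, ‖c‖ ≤ 1 → (Pi.single i c : n → D) ∈ M' := by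
      intro i hi c hc
      have h3 := hsm' _ (show (Pi.single i 1 : n → D) ∈ M' from h2 i hi) c hc
      have e : (MulOpposite.op c • Pi.single i 1 : n → D) = Pi.single i c := by
        rw [← Pi.single_smul]; simp
      rwa [e] at h3
    have hsum : ∀ T : Finset n, T ⊆ S → (∑ i ∈ T, Pi.single i (-(v₀ i)) : n → D) ∈ M' := by
      intro T
      induction T using Finset.induction_on with
      | empty => intro _; simpa using hzero
      | insert a T ha ih =>
        intro hT
        rw [Finset.sum_insert ha]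
        refine hadd' _ (hsingle a (hT (Finset.mem_insert_self a T)) _ ?_) _
          (ih fun x hx => hT (Finset.mem_insert_of_mem hx))
        rw [norm_neg]
        exact h1 _ hv₀ a (hT (Finset.mem_insert_self a T))
    set v₁ : n → D := v₀ + ∑ i ∈ S, Pi.single i (-(v₀ i)) with hv₁
    have hv₁M : v₁ ∈ M' := hadd' _ hv₀ _ (hsum S (Finset.Subset.refl S))
    have hv₁S : ∀ i ∈ S, v₁ i = 0 := by
      intro i hi
      rw [hv₁, Pi.add_apply, Finset.sum_apply, Finset.sum_eq_single i]
      · rw [Pi.single_eq_same, add_neg_cancel]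
      · intro a _ ha; exact Pi.single_eq_of_ne (Ne.symm ha) _
      · intro h; exact absurd hi h
    have hv₁j : v₁ j = v₀ j := by
      rw [hv₁, Pi.add_apply, Finset.sum_apply, Finset.sum_eq_zero, add_zero]
      intro a ha
      exact Pi.single_eq_of_ne (fun h : j = a => hj (h ▸ ha)) _
    have hv₁j0 : v₁ j ≠ 0 := by rw [hv₁j]; exact hv₀j
    -- the new basis vector
    let u : n → D := MulOpposite.op (v₁ j)⁻¹ • (v₁ - Pi.single j (v₁ j))
    have hu : (Pi.single j 1 : n → D) ⬝ᵥ u = 0 := by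
      rw [single_dotProduct, one_mul]
      simp [u]
    let d : Dˣ := Units.mk0 (v₁ j) hv₁j0
    let h' : (Matrix n n D)ˣ := tv hu * dj j d
    have hval : ∀ (x : n → D) (l : n), (h'.1 *ᵥ x) l =
        if l = j then v₁ j * x j else x l + v₁ l * x j := by
      intro x l
      have e1 : (h'.1 *ᵥ x) = tm u (Pi.single j 1) *ᵥ (diagonal (Pi.mulSingle j (v₁ j)) *ᵥ x) := by
        rw [mulVec_mulVec]; rfl
      rw [e1, tm_mulVec, single_dotProduct, one_mul]
      simp only [Pi.add_apply, Pi.smul_apply, mulVec_diagonal, MulOpposite.smul_eq_mul_unop,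
        MulOpposite.unop_op, Pi.mulSingle_eq_same, u, Pi.sub_apply]
      by_cases hl : l = j
      · subst hl
        simp
      · rw [if_neg hl, Pi.mulSingle_eq_of_ne hl, Pi.single_eq_of_ne hl, one_mul, sub_zero,
          mul_assoc, inv_mul_cancel_left₀ hv₁j0]
    refine ⟨h * h', ?_, ?_, ?_⟩
    · rw [map_mul, hmd, one_mul, map_mul, md_of_mem hn k (tv_mem hu), md_dj hn k hE, mul_one]
    · intro v hv i hi
      have h3 : h'.1 *ᵥ v ∈ M' := by
        show h.1 *ᵥ (h'.1 *ᵥ v) ∈ M
        rw [mulVec_mulVec]; exact hv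
      rcases Finset.mem_insert.1 hi with rfl | hi
      · have h4 := hmax' _ h3
        rw [hval, if_pos rfl, norm_mul, ← hv₁j] at h4
        have h5 : 0 < ‖v₁ i‖ := norm_pos_iff.2 hv₁j0
        exact le_of_mul_le_mul_left (by rw [mul_one]; exact h4) h5
      · have h4 := h1 _ h3 i hi
        have hij : i ≠ j := fun h => hj (h ▸ hi)
        rw [hval, if_neg hij, hv₁S i hi, zero_mul, add_zero] at h4
        exact h4
    · intro i hi
      show (h.1 * h'.1) *ᵥ Pi.single i 1 ∈ M
      rw [← mulVec_mulVec]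
      rcases Finset.mem_insert.1 hi with rfl | hi
      · have e : h'.1 *ᵥ Pi.single i 1 = v₁ := by
          funext l
          rw [hval]
          by_cases hl : l = i
          · subst hl; simp
          · rw [if_neg hl, Pi.single_eq_same, Pi.single_eq_of_ne hl, zero_add, mul_one]
        rw [e]; exact hv₁M
      · have hij : i ≠ j := fun h => hj (h ▸ hi)
        have e : h'.1 *ᵥ Pi.single i 1 = Pi.single i 1 := by
          funext l
          rw [hval, Pi.single_eq_of_ne (Ne.symm hij), mul_zero, mul_zero, add_zero]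
          by_cases hl : l = j
          · subst hl; rw [if_pos rfl, Pi.single_eq_of_ne (Ne.symm hij)]
          · rw [if_neg hl]
        rw [e]
        exact h2 i hi

/-- **Every compact subgroup has at most the volume of `SL_n(D) ∩ GL_n(O_D)`.** -/
theorem haar_le (hn : 2 ≤ Fintype.card n) (k : Type*) [NontriviallyNormedField k]
    [NormedAlgebra k D] (hE : IsClosedEmbedding fun g : SLD n D => g.1.1)
    {W : Subgroup (SLD n D)} (hW : IsCompact (W : Set (SLD n D))) :
    haar (W : Set (SLD n D)) ≤ haar (KO n D : Set (SLD n D)) := by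
  obtain ⟨R, hR0, hR⟩ := bound_of_compact hW
  set M : Set (n → D) := {v | ∀ w ∈ W, Vb 1 (w.1.1 *ᵥ v)} with hM
  have hMb : ∀ v ∈ M, Vb 1 v := by
    intro v hv
    have := hv 1 W.one_mem
    have e : ((1 : SLD n D).1.1) *ᵥ v = v := one_mulVec v
    rwa [e] at this
  have hMc : IsCompact M := by
    refine (isCompact_vb 1).of_isClosed_subset ?_ fun v hv => hMb v hv
    have e : M = ⋂ w ∈ W, ⋂ i, {v : n → D | ‖(w.1.1 *ᵥ v) i‖ ≤ 1} := by
      ext v; simp [hM, Vb]
    rw [e]
    refine isClosed_biInter fun w _ => isClosed_iInter fun i => ?_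
    refine isClosed_le ?_ continuous_const
    exact ((continuous_apply i).comp (Continuous.matrix_mulVec continuous_const continuous_id)).norm
  obtain ⟨h, hmd, h1, h2⟩ := exists_red hn k hE (M := M)
    (fun v hv w hw x hx => by rw [mulVec_add]; exact (hv x hx).add (hw x hx))
    (fun v hv c hc x hx => by
      rw [mulVec_smul]
      intro i
      rw [Pi.smul_apply, MulOpposite.smul_eq_mul_unop, MulOpposite.unop_op, norm_mul]
      exact mul_le_one₀ (hv x hx i) (norm_nonneg _) hc)
    hMc (r := 1 / (R + 1)) (by positivity)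
    (fun v hv x hx => by
      have h3 := Bd.mulVec hR0 (by positivity) (hR x hx) hv
      intro i
      refine (h3 i).trans ?_
      rw [mul_one_div, div_le_one (by positivity)]
      linarith) Finset.univ
  have hWM : ∀ w ∈ W, ∀ v ∈ M, w.1.1 *ᵥ v ∈ M := by
    intro w hw v hv x hx
    rw [mulVec_mulVec]
    exact hv (x * w) (W.mul_mem hx hw)
  have key : ∀ w ∈ W, Bd 1 ((h⁻¹).1 * w.1.1 * h.1) := by
    intro w hw l i
    have h3 : h.1 *ᵥ (((h⁻¹).1 * w.1.1 * h.1) *ᵥ Pi.single i 1) ∈ M := by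
      have e : h.1 *ᵥ (((h⁻¹).1 * w.1.1 * h.1) *ᵥ Pi.single i 1) =
          w.1.1 *ᵥ (h.1 *ᵥ Pi.single i 1) := by
        rw [mulVec_mulVec, mulVec_mulVec, ← mul_assoc, ← mul_assoc, Units.mul_inv, one_mul]
      rw [e]
      exact hWM w hw _ (h2 i (Finset.mem_univ i))
    have h4 := h1 _ h3 l (Finset.mem_univ l)
    rw [mulVec_single_one] at h4
    exact h4
  have hmd' : md n D h⁻¹ = 1 := by
    have := md_mul_inv h
    rwa [hmd, one_mul] at this
  have h5 := md_smul h⁻¹ (KO n D : Set (SLD n D))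
  rw [hmd', ENNReal.coe_one, one_mul] at h5
  rw [← h5]
  refine measure_mono fun w hw => ?_
  have e1 : (cj h⁻¹ w).1.1 = (h⁻¹).1 * w.1.1 * h.1 := by
    show (h⁻¹ * w.1 * h⁻¹⁻¹).1 = _
    rw [inv_inv]; rfl
  have e2 : ((cj h⁻¹ w).1⁻¹).1 = (h⁻¹).1 * (w⁻¹).1.1 * h.1 := by
    show ((h⁻¹ * w.1 * h⁻¹⁻¹)⁻¹).1 = _
    rw [inv_inv, _root_.mul_inv_rev, _root_.mul_inv_rev, inv_inv, ← mul_assoc]; rfl
  refine ⟨?_, ?_⟩
  · show Bd 1 _
    rw [e1]; exact key w hw
  · show Bd 1 _
    rw [e2]; exact key _ (W.inv_mem hw)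

end haar

end Vale.Agent.P092.H289.DT
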