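import Vale.Agent.P092.H899.Simple

/-!
P092 (helper289), Team N, block [N-GR] (2a): subspaces of `k^n` and `SL_n(k)`.

* `closure_stab` : if `X' ⊄ X` then the stabilisers of `X` and `X'` generate `SL_n(k)`;
* `const_of_adj` : a function on the `j`-dimensional subspaces which does not change between
  neighbours (`dim (X + X') = j + 1`) is constant.
-/

set_option linter.all false

namespace Vale.Agent.P092.H289

open Matrix Matrix.SpecialLinearGroup Module
open scoped Pointwise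

section tv

variable {ι : Type*} [Fintype ι] [DecidableEq ι] {k : Type*} [Field k]

/-- The transvection `x ↦ x + (φ ⬝ᵥ x) v`, `φ ⬝ᵥ v = 0`. -/
def tv (φ v : ι → k) (h : φ ⬝ᵥ v = 0) : SpecialLinearGroup ι k :=
  ⟨1 + vecMulVec v φ, by
    rw [vecMulVec_eq (ι := Unit), det_one_add_replicateCol_mul_replicateRow, h, add_zero]⟩

theorem tv_smul (φ v : ι → k) (h : φ ⬝ᵥ v = 0) (x : ι → k) :
    tv φ v h • x = x + (φ ⬝ᵥ x) • v := by
  show (1 + vecMulVec v φ) *ᵥ x = _
  rw [add_mulVec, one_mulVec, vecMulVec_mulVec]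
  congr 1
  ext i
  simp [mul_comm]

theorem sl_ext {g h : SpecialLinearGroup ι k} (H : ∀ x : ι → k, g • x = h • x) : g = h := by
  apply Subtype.ext
  apply Matrix.toLin'.injective
  apply LinearMap.ext
  exact H

theorem tv_conj (p : SpecialLinearGroup ι k) (φ v : ι → k) (h : φ ⬝ᵥ v = 0)
    (ψ : ι → k) (hψ : ∀ x, ψ ⬝ᵥ (p • x) = φ ⬝ᵥ x) :
    p * tv φ v h * p⁻¹ = tv ψ (p • v) (by rw [hψ, h]) := by
  apply sl_ext
  intro x
  rw [mul_smul, mul_smul, tv_smul, tv_smul, smul_add, smul_inv_smul, smul_comm p]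
  congr 2
  rw [← hψ, smul_inv_smul]

theorem transvection_eq_tv {i j : ι} (hij : i ≠ j) (c : k) :
    transvection hij c = tv (Pi.single j c) (Pi.single i 1) (by
      simp [single_dotProduct, hij.symm]) := by
  apply Subtype.ext
  show _ = 1 + vecMulVec (Pi.single i 1) (Pi.single j c)
  rw [transvection_coe]
  congr 1
  ext a b
  simp only [Matrix.single_apply, vecMulVec_apply, Pi.single_apply]
  by_cases ha : i = a
  · subst ha
    by_cases hb : j = b
    · subst hb; simp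
    · simp [hb, Ne.symm hb]
  · simp [ha, Ne.symm ha]

/-- a subgroup which contains all transvections is everything -/
theorem eq_top_of_tv [Nontrivial ι] (H : Subgroup (SpecialLinearGroup ι k))
    (h : ∀ φ v hv, tv φ v hv ∈ H) : H = ⊤ := by
  refine H899.eq_top_of_e H fun i j hij c => ?_
  rw [transvection_eq_tv]
  exact h _ _ _

theorem smul_eq_of_le (g : SpecialLinearGroup ι k) (X : Submodule k (ι → k)) (h : g • X ≤ X) :
    g • X = X := by
  apply Submodule.eq_of_le_of_finrank_eq h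
  exact LinearEquiv.finrank_eq ((Submodule.equivMapOfInjective
    (DistribSMul.toLinearMap k (ι → k) g) (MulAction.injective g) X).symm)

theorem tv_smul_of_mem {X : Submodule k (ι → k)} {φ v : ι → k} (h : φ ⬝ᵥ v = 0) (hv : v ∈ X) :
    tv φ v h • X = X := by
  apply smul_eq_of_le
  rintro _ ⟨x, hx, rfl⟩
  show tv φ v h • x ∈ X
  rw [tv_smul]
  exact X.add_mem hx (X.smul_mem _ hv)

theorem tv_smul_of_perp {X : Submodule k (ι → k)} {φ v : ι → k} (h : φ ⬝ᵥ v = 0)
    (hφ : ∀ x ∈ X, φ ⬝ᵥ x = 0) : tv φ v h • X = X := by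
  apply smul_eq_of_le
  rintro _ ⟨x, hx, rfl⟩
  show tv φ v h • x ∈ X
  rw [tv_smul, hφ x hx, zero_smul, add_zero]
  exact hx

theorem exists_perp {X : Submodule k (ι → k)} {v : ι → k} (hv : v ∉ X) :
    ∃ φ : ι → k, φ ⬝ᵥ v ≠ 0 ∧ ∀ x ∈ X, φ ⬝ᵥ x = 0 := by
  obtain ⟨f, hf, hX⟩ := Submodule.exists_le_ker_of_notMem hv
  have e : ∀ x, (fun i => f (Pi.single i 1)) ⬝ᵥ x = f x := by
    intro x
    conv_rhs => rw [← Finset.univ_sum_single x, map_sum]
    refine Finset.sum_congr rfl fun i _ => ?_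
    have : (Pi.single i (x i) : ι → k) = x i • Pi.single i 1 := by
      rw [← Pi.single_smul]; simp
    rw [this, map_smul, smul_eq_mul, mul_comm]
  refine ⟨fun i => f (Pi.single i 1), ?_, fun x hx => ?_⟩
  · rw [e]; exact hf
  · rw [e]; exact hX hx

theorem exists_perp₂ {X : Submodule k (ι → k)} {v w : ι → k} (hv : v ∉ X) (hw : w ∉ X) :
    ∃ φ : ι → k, φ ⬝ᵥ v = 1 ∧ φ ⬝ᵥ w ≠ 0 ∧ ∀ x ∈ X, φ ⬝ᵥ x = 0 := by
  suffices h : ∃ φ : ι → k, φ ⬝ᵥ v ≠ 0 ∧ φ ⬝ᵥ w ≠ 0 ∧ ∀ x ∈ X, φ ⬝ᵥ x = 0 by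
    obtain ⟨φ, h1, h2, h3⟩ := h
    refine ⟨(φ ⬝ᵥ v)⁻¹ • φ, ?_, ?_, fun x hx => ?_⟩
    · rw [smul_dotProduct, smul_eq_mul, inv_mul_cancel₀ h1]
    · rw [smul_dotProduct, smul_eq_mul]
      exact mul_ne_zero (inv_ne_zero h1) h2
    · rw [smul_dotProduct, h3 x hx, smul_zero]
  obtain ⟨φ, h1, h1'⟩ := exists_perp hv
  obtain ⟨ψ, h2, h2'⟩ := exists_perp hw
  by_cases h3 : φ ⬝ᵥ w = 0
  · by_cases h4 : ψ ⬝ᵥ v = 0
    · refine ⟨φ + ψ, ?_, ?_, fun x hx => ?_⟩
      · rw [add_dotProduct, h4, add_zero]; exact h1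
      · rw [add_dotProduct, h3, zero_add]; exact h2
      · rw [add_dotProduct, h1' x hx, h2' x hx, add_zero]
    · exact ⟨ψ, h4, h2, h2'⟩
  · exact ⟨φ, h1, h3, h1'⟩

/-- If `X'` is not contained in `X`, then the stabilisers of `X` and of `X'` generate `SL_n(k)`. -/
theorem closure_stab {X X' : Submodule k (ι → k)} (h : ¬ X' ≤ X) :
    Subgroup.closure ({g : SpecialLinearGroup ι k | g • X = X} ∪ {g | g • X' = X'}) = ⊤ := by
  classical
  rcases subsingleton_or_nontrivial ι with hι | hι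
  · rw [eq_top_iff]
    intro g _
    have : g = 1 := Subsingleton.elim _ _
    rw [this]
    exact Subgroup.one_mem _
  obtain ⟨v, hv', hv⟩ := Set.not_subset.1 h
  refine eq_top_of_tv _ fun φ w hw => ?_
  by_cases hwX : w ∈ X
  · exact Subgroup.subset_closure (Or.inl (tv_smul_of_mem hw hwX))
  obtain ⟨ψ, h1, h2, h3⟩ := exists_perp₂ hv hwX
  set c := ψ ⬝ᵥ w with hc
  have h4 : ψ ⬝ᵥ (c⁻¹ • w - v) = 0 := by
    rw [dotProduct_sub, dotProduct_smul, ← hc, smul_eq_mul, inv_mul_cancel₀ h2, h1, sub_self]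
  set p := tv ψ (c⁻¹ • w - v) h4 with hp
  have hpv : p • v = c⁻¹ • w := by
    rw [hp, tv_smul, h1, one_smul]; abel
  have hpX : p • X = X := tv_smul_of_perp _ h3
  -- the transported functional
  set φ' : ι → k := c • (φ ᵥ* p.1) with hφ'
  have e1 : ∀ x, (c • φ) ⬝ᵥ (p • x) = φ' ⬝ᵥ x := by
    intro x
    rw [hφ', smul_dotProduct, smul_dotProduct]
    congr 1
    show φ ⬝ᵥ (p.1 *ᵥ x) = _
    rw [dotProduct_mulVec]
  have h5 : φ' ⬝ᵥ v = 0 := by
    rw [← e1, hpv, smul_dotProduct, dotProduct_smul, hw, smul_zero, smul_zero]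
  have e2 := tv_conj p φ' v h5 (c • φ) e1
  have e3 : tv φ w hw = p * tv φ' v h5 * p⁻¹ := by
    rw [e2]
    apply sl_ext
    intro x
    rw [tv_smul, tv_smul, hpv, smul_dotProduct, smul_eq_mul, smul_smul, mul_assoc,
      mul_comm (φ ⬝ᵥ x), ← mul_assoc, mul_inv_cancel₀ h2, one_mul]
  rw [e3]
  have m1 : p ∈ Subgroup.closure ({g : SpecialLinearGroup ι k | g • X = X} ∪
      {g | g • X' = X'}) := Subgroup.subset_closure (Or.inl hpX)
  have m2 : tv φ' v h5 ∈ Subgroup.closure ({g : SpecialLinearGroup ι k | g • X = X} ∪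
      {g | g • X' = X'}) := Subgroup.subset_closure (Or.inr (tv_smul_of_mem _ hv'))
  exact Subgroup.mul_mem _ (Subgroup.mul_mem _ m1 m2) (Subgroup.inv_mem _ m1)

/-- The stabilisers of two different subspaces generate `SL_n(k)`. -/
theorem closure_stab_ne {X X' : Submodule k (ι → k)} (h : X ≠ X') :
    Subgroup.closure ({g : SpecialLinearGroup ι k | g • X = X} ∪ {g | g • X' = X'}) = ⊤ := by
  by_cases h1 : X' ≤ X
  · have h2 : ¬ X ≤ X' := fun h2 => h (le_antisymm h2 h1)
    rw [Set.union_comm]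
    exact closure_stab h2
  · exact closure_stab h1

end tv

section adj

variable {k V : Type*} [Field k] [AddCommGroup V] [Module k V] [FiniteDimensional k V]

/-- One step of a chain of neighbours. -/
theorem exists_step {X Y : Submodule k V} (hd : finrank k X = finrank k Y) (hne : X ≠ Y) :
    ∃ Z : Submodule k V, finrank k Z = finrank k X ∧ finrank k ↥(X ⊔ Z) = finrank k X + 1 ∧
      finrank k ↥(X ⊓ Y) < finrank k ↥(Z ⊓ Y) := by
  have h1 : ¬ Y ≤ X := fun h => hne (Submodule.eq_of_le_of_finrank_eq h hd.symm).symm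
  obtain ⟨v, hvY, hvX⟩ := Set.not_subset.1 h1
  have h2 : ¬ X ≤ Y := fun h => hne (Submodule.eq_of_le_of_finrank_eq h hd)
  obtain ⟨x, hxX, hxY⟩ := Set.not_subset.1 h2
  -- a hyperplane `U` of `X` containing `X ⊓ Y`
  obtain ⟨f, hf, hfY⟩ := Submodule.exists_le_ker_of_notMem (show x ∉ X ⊓ Y from fun h => hxY h.2)
  set U := X ⊓ LinearMap.ker f with hU
  have hUX : U ≤ X := inf_le_left
  have hXYU : X ⊓ Y ≤ U := le_inf inf_le_left hfY
  have hxU : x ∉ U := fun h => hf h.2
  have hvU : v ∉ U := fun h => hvX (hUX h)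
  have hUsup : X = U ⊔ k ∙ x := by
    apply le_antisymm
    · intro y hy
      have : y = (y - (f y / f x) • x) + (f y / f x) • x := by abel
      rw [this]
      refine Submodule.add_mem_sup ⟨X.sub_mem hy (X.smul_mem _ hxX), ?_⟩
        (Submodule.smul_mem _ _ (Submodule.mem_span_singleton_self x))
      show f _ = 0
      rw [map_sub, map_smul, smul_eq_mul, div_mul_cancel₀ _ hf, sub_self]
    · exact sup_le hUX ((Submodule.span_singleton_le_iff_mem _ _).2 hxX)
  have key : ∀ (W : Submodule k V) (w : V), w ∉ W → finrank k ↥(W ⊔ k ∙ w) = finrank k W + 1 := by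
    intro W w hw
    have hw0 : w ≠ 0 := fun h => hw (h ▸ W.zero_mem)
    have h3 := Submodule.finrank_sup_add_finrank_inf_eq W (k ∙ w)
    have h4 : W ⊓ (k ∙ w) = ⊥ := by
      rw [eq_bot_iff]
      rintro y ⟨hy, hy'⟩
      obtain ⟨c, rfl⟩ := Submodule.mem_span_singleton.1 hy'
      by_cases hc : c = 0
      · simp [hc]
      · exact absurd ((Submodule.smul_mem_iff W hc).1 hy) hw
    rw [h4, finrank_bot, add_zero, finrank_span_singleton hw0] at h3
    exact h3
  have hdX : finrank k X = finrank k U + 1 := by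
    conv_lhs => rw [hUsup]
    exact key U x hxU
  refine ⟨U ⊔ k ∙ v, ?_, ?_, ?_⟩
  · rw [key U v hvU, hdX]
  · have : X ⊔ (U ⊔ k ∙ v) = X ⊔ k ∙ v := by
      rw [← sup_assoc, sup_eq_left.2 hUX]
    rw [this, key X v hvX]
  · have h5 : (X ⊓ Y) ⊔ k ∙ v ≤ (U ⊔ k ∙ v) ⊓ Y := by
      apply le_inf
      · exact sup_le_sup_right hXYU _
      · exact sup_le inf_le_right ((Submodule.span_singleton_le_iff_mem _ _).2 hvY)
    have h6 := Submodule.finrank_mono h5
    rw [key (X ⊓ Y) v fun h => hvX h.1] at h6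
    omega

/-- A function of the `j`-dimensional subspaces which does not change between neighbours is
constant. -/
theorem const_of_adj {α : Sort*} (f : Submodule k V → α) (j : ℕ)
    (h : ∀ X Y : Submodule k V, finrank k X = j → finrank k Y = j →
      finrank k ↥(X ⊔ Y) = j + 1 → f X = f Y)
    {X Y : Submodule k V} (hX : finrank k X = j) (hY : finrank k Y = j) : f X = f Y := by
  have main : ∀ (m : ℕ) (X : Submodule k V), finrank k X = j →
      j ≤ finrank k ↥(X ⊓ Y) + m → f X = f Y := by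
    intro m
    induction m with
    | zero =>
      intro X hX hm
      have h1 : X ⊓ Y = X := Submodule.eq_of_le_of_finrank_le inf_le_left (by omega)
      have h2 : X ≤ Y := inf_eq_left.1 h1
      rw [Submodule.eq_of_le_of_finrank_eq h2 (hX.trans hY.symm)]
    | succ m ih =>
      intro X hX hm
      by_cases hne : X = Y
      · rw [hne]
      · obtain ⟨Z, h1, h2, h3⟩ := exists_step (hX.trans hY.symm) hne
        rw [h X Z hX (h1.trans hX) (h2.trans (by rw [hX]))]
        exact ih Z (h1.trans hX) (by omega)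
  exact main j X hX (by omega)

end adj

end Vale.Agent.P092.H289
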