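import Vale.Agent.P092.H370.Fo1
import Vale.Agent.P092.H71.P.CLOrb

/-!
P092, CL-O (orthogonal groups), block [CLO-U2] (helper289), part 1: Eichler elements as root groups:
additivity in the second vector, conjugation by a torus element, matrix entries, chart
`1 + X s`-free version of the orbit property for a family of Eichler elements.
Letters of `H370.Fo`: row vectors, matrices act from the right.
-/

set_option linter.all false

open Matrix Module Set Filter Topology

namespace Vale.Agent.P092.H289.O1

open Vale.Agent.P092.H303 (FormGroup Idx hyp torF torF_mem dgF hypAt_l hypAt_r)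
open Vale.Agent.P092.H714.Cl
open Vale.Agent.P092.H714.Sg (Fm)
open Vale.Agent.P092.H370.Fo

section alg

variable {n : Type} [Fintype n] [DecidableEq n] {k : Type} [Field k]
  {σ : k →+* k} {ε : k} {J : Matrix n n k}

/-- sum of parameters -/
theorem EP_add (hF : Fm σ ε J) {u v v' : n → k} {c c' : k} (h : EP σ ε J u v c)
    (h' : EP σ ε J u v' c') : EP σ ε J u (v + v') (c + c' - hf σ J v v') where
  uu := h.uu
  vu := by rw [hf_add_left, h.vu, h'.vu, add_zero]
  vv := by
    rw [hf_add_left, hf_add_right, hf_add_right, map_sub, map_add, hF.herm v v']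
    linear_combination h.vv + h'.vv

/-- **Eichler elements with the same isotropic vector multiply by adding the second vector.** -/
theorem ei_add (hF : Fm σ ε J) {u v v' : n → k} {c c' : k} (h : EP σ ε J u v c)
    (h' : EP σ ε J u v' c') :
    ei σ ε J u v c * ei σ ε J u v' c' = ei σ ε J u (v + v') (c + c' - hf σ J v v') := by
  refine ext_vecMul fun x => ?_
  have huv' : hf σ J u v' = 0 := hF.symm0 h'.vu
  rw [vecMul_mul', vecMul_ei hF h, vecMul_ei hF h', vecMul_ei hF (EP_add hF h h')]
  simp only [sub_eq_add_neg, ← neg_smul, hf_add_left, hf_add_right, hf_smul_left, h.uu, h.vu, huv']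
  module

theorem ei_zero (hF : Fm σ ε J) {u : n → k} (hu : hf σ J u u = 0) : ei σ ε J u 0 0 = 1 := by
  have h : EP σ ε J u 0 0 :=
    ⟨hu, hf_zero_left _ _ _, by rw [hf_zero_left, map_zero, mul_zero, add_zero, add_zero]⟩
  refine ext_vecMul fun x => ?_
  rw [vecMul_ei hF h, vecMul_one', hf_zero_right]
  module

/-- **conjugation by an isometry which scales both vectors** (`σ = id`) -/
theorem conj_ei {J : Matrix n n k} (hF : Fm (RingHom.id k) ε J) {u v : n → k} {c a b : k}
    (h : EP (RingHom.id k) ε J u v c) {g : SpecialLinearGroup n k}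
    (hg : g ∈ FormGroup (RingHom.id k) J) (ha : a ≠ 0) (hb : b ≠ 0) (hu : u ᵥ* g.1 = a • u)
    (hv : v ᵥ* g.1 = b • v) :
    g * ei (RingHom.id k) ε J u v c =
      ei (RingHom.id k) ε J u ((a * b)⁻¹ • v) ((a * a)⁻¹ * c) * g := by
  have hm := mem_formGroup.1 hg
  have hbb : b * b * hf (RingHom.id k) J v v = hf (RingHom.id k) J v v := by
    have := hm v v
    rw [hv, hf_smul_left, hf_smul_right] at this
    rw [mul_assoc]
    exact this
  have h' : EP (RingHom.id k) ε J u ((a * b)⁻¹ • v) ((a * a)⁻¹ * c) :=
    { uu := h.uu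
      vu := by rw [hf_smul_left, h.vu, mul_zero]
      vv := by
        rw [hf_smul_left, hf_smul_right]
        have h3 := h.vv
        simp only [RingHom.id_apply] at h3 ⊢
        have e : (a * b)⁻¹ * ((a * b)⁻¹ * (b * b * hf (RingHom.id k) J v v)) =
            (a * a)⁻¹ * hf (RingHom.id k) J v v := by
          field_simp
        rw [hbb] at e
        rw [e]
        linear_combination (a * a)⁻¹ * h3 }
  refine ext_vecMul fun x => ?_
  rw [vecMul_mul', vecMul_mul', vecMul_ei hF h, vecMul_ei hF h']
  have e1 : hf (RingHom.id k) J (x ᵥ* g.1) u = a⁻¹ * hf (RingHom.id k) J x u := by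
    have := hm x u
    rw [hu, hf_smul_right] at this
    rw [← this, RingHom.id_apply, ← mul_assoc, inv_mul_cancel₀ ha, one_mul]
  have e2 : hf (RingHom.id k) J (x ᵥ* g.1) v = b⁻¹ * hf (RingHom.id k) J x v := by
    have := hm x v
    rw [hv, hf_smul_right] at this
    rw [← this, RingHom.id_apply, ← mul_assoc, inv_mul_cancel₀ hb, one_mul]
  rw [e1, e2, add_vecMul, sub_vecMul, add_vecMul, smul_vecMul, smul_vecMul, smul_vecMul,
    smul_vecMul, hu, hv, hf_smul_right, RingHom.id_apply]
  have f1 : (hf (RingHom.id k) J x u) • (a * b)⁻¹ • b • v =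
      (a⁻¹ * hf (RingHom.id k) J x u) • v := by
    rw [smul_smul, smul_smul]
    congr 1
    field_simp
  have f2 : (ε * ((a * b)⁻¹ * hf (RingHom.id k) J x v)) • a • u =
      (ε * (b⁻¹ * hf (RingHom.id k) J x v)) • u := by
    rw [smul_smul]
    congr 1
    field_simp
  have f3 : (ε * ((a * a)⁻¹ * c) * hf (RingHom.id k) J x u) • a • u =
      (ε * c * (a⁻¹ * hf (RingHom.id k) J x u)) • u := by
    rw [smul_smul]
    congr 1
    field_simp
  rw [f1, f2, f3]

end alg

end Vale.Agent.P092.H289.O1
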