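import Vale.Agent.P092.H289.O1

/-!
P092, CL-O (orthogonal groups), block [CLO-U2] (helper289), part 2: the root groups of the letters
`ltO` as charts, for any subgroup `T` of the isometry group of `hyp (s + 2) 1 J₀`: additivity,
continuity, conjugation by the torus, properness, and the orbit property (both legs).
`u1 t = ei (e_0) (t e_1) 0`, `u2 v = ei (e_1) (v) (-½ v·J₀v)`.
-/

set_option linter.all false

open scoped InnerProductSpace ENNReal NNReal
open Matrix Module Set Filter Topology MeasureTheory ContinuousLinearMap MeasureTheory.Measure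

namespace Vale.Agent.P092.H289.O2

open Vale.Agent.P092.H303 (FormGroup Idx hyp torF torF_mem dgF hypAt_l hypAt_r)
open Vale.Agent.P092.H714.Cl
open Vale.Agent.P092.H714.Sg (Fm)
open Vale.Agent.P092.H370.Fo
open Vale.Agent.P092.H289.O1
open Vale.Agent.P092.H71.P
open Vale.Agent.P092.H71.CLO
open Vale.Agent.P092.H368.SN (Spr)

/-! ### Realisation -/

section real

variable {n : Type} [Fintype n] [DecidableEq n] {k : Type} [NontriviallyNormedField k]
  {G : Subgroup (SpecialLinearGroup n k)}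

/-- the matrix realisation of a subgroup of a subgroup of `SL` -/
def jO (T : Subgroup G) : T →* Matrix n n k := (jF G).comp T.subtype

theorem jO_apply (T : Subgroup G) (g : T) : jO T g = g.1.1.1 := rfl

theorem jO_inj {T : Subgroup G} : Function.Injective (jO T) :=
  fun _ _ h => Subtype.ext (jF_inj h)

theorem jO_ind {T : Subgroup G} : IsInducing (jO T) :=
  jF_ind.comp IsInducing.subtypeVal

end real

/-! ### The vectors -/

section vec

variable {k : Type} [Field k] {s : ℕ} {ι : Type} [Fintype ι] [DecidableEq ι] {J₀ : Matrix ι ι k}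

/-- the vector `e_i` -/
abbrev xp (k ι : Type) [Field k] [DecidableEq ι] {s : ℕ} (i : Fin (s + 2)) :
    Idx (s + 2) ι → k := Pi.single (Sum.inl (Sum.inl i)) 1

/-- the vector `e_(-i)` -/
abbrev xm (k ι : Type) [Field k] [DecidableEq ι] {s : ℕ} (i : Fin (s + 2)) :
    Idx (s + 2) ι → k := Pi.single (Sum.inl (Sum.inr i)) 1

/-- the vectors of the kernel -/
abbrev x0 (s : ℕ) (v : ι → k) : Idx (s + 2) ι → k := Sum.elim 0 v

theorem hf_hyp' (x y : Idx (s + 2) ι → k) : hf (RingHom.id k) (hyp (s + 2) 1 J₀) x y =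
    (∑ i : Fin (s + 2), x (.inl (.inl i)) * y (.inl (.inr i))) +
      (∑ i : Fin (s + 2), x (.inl (.inr i)) * y (.inl (.inl i))) +
      (fun i => x (.inr i)) ⬝ᵥ (J₀ *ᵥ fun i => y (.inr i)) := by
  unfold hf hyp
  rw [dotProduct, Fintype.sum_sum_type, Fintype.sum_sum_type]
  congr 1
  · congr 1
    · refine Finset.sum_congr rfl fun i _ => ?_
      congr 1
      simp [mulVec, dotProduct, Fintype.sum_sum_type, Matrix.one_apply]
    · refine Finset.sum_congr rfl fun i _ => ?_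
      congr 1
      simp [mulVec, dotProduct, Fintype.sum_sum_type, Matrix.one_apply]
  · unfold dotProduct
    refine Finset.sum_congr rfl fun i _ => ?_
    congr 1
    simp [mulVec, dotProduct, Fintype.sum_sum_type]

theorem h_pp (i j : Fin (s + 2)) :
    hf (RingHom.id k) (hyp (s + 2) 1 J₀) (xp k ι i) (xp k ι j) = 0 := by
  rw [hf_hyp']; simp

theorem h_mp (i j : Fin (s + 2)) :
    hf (RingHom.id k) (hyp (s + 2) 1 J₀) (xm k ι i) (xp k ι j) = if i = j then 1 else 0 := by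
  rw [hf_hyp']
  simp [Pi.single_apply, eq_comm]

theorem h_p0 (i : Fin (s + 2)) (v : ι → k) :
    hf (RingHom.id k) (hyp (s + 2) 1 J₀) (xp k ι i) (x0 s v) = 0 := by
  rw [hf_hyp']; simp

theorem h_m0 (i : Fin (s + 2)) (v : ι → k) :
    hf (RingHom.id k) (hyp (s + 2) 1 J₀) (xm k ι i) (x0 s v) = 0 := by
  rw [hf_hyp']; simp

theorem h_00 (v w : ι → k) :
    hf (RingHom.id k) (hyp (s + 2) 1 J₀) (x0 s v) (x0 s w) = v ⬝ᵥ (J₀ *ᵥ w) := by
  rw [hf_hyp']; simp

theorem h_0p (v : ι → k) (i : Fin (s + 2)) :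
    hf (RingHom.id k) (hyp (s + 2) 1 J₀) (x0 s v) (xp k ι i) = 0 := by
  rw [hf_hyp']
  have e : (fun _ : ι => (0 : k)) = 0 := rfl
  simp [e]

theorem x0_add (v w : ι → k) : x0 s (v + w) = x0 s v + x0 s w := by
  funext x; rcases x with x | x <;> simp

theorem x0_smul (c : k) (v : ι → k) : x0 s (c • v) = c • x0 s v := by
  funext x; rcases x with x | x <;> simp

/-- the quadratic term -/
abbrev qq (J₀ : Matrix ι ι k) (v : ι → k) : k := -(2⁻¹ * (v ⬝ᵥ (J₀ *ᵥ v)))

theorem qq_smul (c : k) (v : ι → k) : qq J₀ (c • v) = c * c * qq J₀ v := by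
  unfold qq
  rw [mulVec_smul, dotProduct_smul, smul_dotProduct, smul_eq_mul, smul_eq_mul]
  ring

theorem qq_sub (hF : Fm (RingHom.id k) 1 (hyp (s + 2) 1 J₀)) (h2 : (2 : k) ≠ 0) (v w : ι → k) :
    qq J₀ (v + w) = qq J₀ v + qq J₀ w - v ⬝ᵥ (J₀ *ᵥ w) := by
  have h1 : w ⬝ᵥ (J₀ *ᵥ v) = v ⬝ᵥ (J₀ *ᵥ w) := by
    have := hF.herm (x0 s v) (x0 s w)
    rw [h_00, h_00, one_mul, RingHom.id_apply] at this
    exact this
  unfold qq
  rw [mulVec_add, dotProduct_add, add_dotProduct, add_dotProduct, h1]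
  field_simp
  ring

theorem ep1 (t : k) : EP (RingHom.id k) 1 (hyp (s + 2) 1 J₀) (xp k ι 0) (t • xp k ι 1) 0 where
  uu := h_pp 0 0
  vu := by rw [hf_smul_left, h_pp, mul_zero]
  vv := by rw [hf_smul_left, hf_smul_right, h_pp, map_zero]; ring

theorem ep2 (h2 : (2 : k) ≠ 0) (v : ι → k) :
    EP (RingHom.id k) 1 (hyp (s + 2) 1 J₀) (xp k ι 1) (x0 s v) (qq J₀ v) where
  uu := h_pp 1 1
  vu := h_0p v 1
  vv := by
    rw [h_00]
    change -(2⁻¹ * _) + 1 * (-(2⁻¹ * _)) + _ = (0 : k)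
    field_simp
    ring

variable (hF : Fm (RingHom.id k) 1 (hyp (s + 2) 1 J₀))

include hF

theorem u1_add (t t' : k) :
    ei (RingHom.id k) 1 (hyp (s + 2) 1 J₀) (xp k ι 0) (t • xp k ι 1) 0 *
      ei (RingHom.id k) 1 (hyp (s + 2) 1 J₀) (xp k ι 0) (t' • xp k ι 1) 0 =
      ei (RingHom.id k) 1 (hyp (s + 2) 1 J₀) (xp k ι 0) ((t + t') • xp k ι 1) 0 := by
  rw [ei_add hF (ep1 t) (ep1 t'), hf_smul_left, hf_smul_right, h_pp, add_smul]
  congr 1
  ring

theorem u2_add (h2 : (2 : k) ≠ 0) (v v' : ι → k) :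
    ei (RingHom.id k) 1 (hyp (s + 2) 1 J₀) (xp k ι 1) (x0 s v) (qq J₀ v) *
      ei (RingHom.id k) 1 (hyp (s + 2) 1 J₀) (xp k ι 1) (x0 s v') (qq J₀ v') =
      ei (RingHom.id k) 1 (hyp (s + 2) 1 J₀) (xp k ι 1) (x0 s (v + v')) (qq J₀ (v + v')) := by
  rw [ei_add hF (ep2 h2 v) (ep2 h2 v'), h_00, qq_sub hF h2, x0_add]

/-- the row of `e_(-1)` of the second root group -/
theorem u2_row (h2 : (2 : k) ≠ 0) (v : ι → k) (a : ι) :
    (ei (RingHom.id k) 1 (hyp (s + 2) 1 J₀) (xp k ι 1) (x0 s v) (qq J₀ v)).1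
      (.inl (.inr 1)) (.inr a) = v a := by
  have h := congrFun (vecMul_ei hF (ep2 h2 v) (xm k ι 1)) (.inr a)
  rw [h_mp, h_m0] at h
  have e : (xm k ι 1 ᵥ* (ei (RingHom.id k) 1 (hyp (s + 2) 1 J₀) (xp k ι 1) (x0 s v)
      (qq J₀ v)).1) (.inr a) = (ei (RingHom.id k) 1 (hyp (s + 2) 1 J₀) (xp k ι 1) (x0 s v)
      (qq J₀ v)).1 (.inl (.inr 1)) (.inr a) := by
    rw [single_one_vecMul]
    rfl
  rw [← e, h]
  simp

/-- the row of `e_(-0)` of the first root group -/
theorem u1_row (t : k) :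
    (ei (RingHom.id k) 1 (hyp (s + 2) 1 J₀) (xp k ι 0) (t • xp k ι 1) 0).1
      (.inl (.inr 0)) (.inl (.inl 1)) = t := by
  have h := congrFun (vecMul_ei hF (ep1 t) (xm k ι 0)) (.inl (.inl 1))
  rw [h_mp, hf_smul_right, h_mp] at h
  have e : (xm k ι 0 ᵥ* (ei (RingHom.id k) 1 (hyp (s + 2) 1 J₀) (xp k ι 0) (t • xp k ι 1)
      0).1) (.inl (.inl 1)) = (ei (RingHom.id k) 1 (hyp (s + 2) 1 J₀) (xp k ι 0)
      (t • xp k ι 1) 0).1 (.inl (.inr 0)) (.inl (.inl 1)) := by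
    rw [single_one_vecMul]
    rfl
  rw [← e, h]
  simp

/-- `u2` fixes `e_0`, `e_(-0)`, and all `e_i` -/
theorem u2_fix (h2 : (2 : k) ≠ 0) (v : ι → k) {x : Idx (s + 2) ι → k}
    (hx : hf (RingHom.id k) (hyp (s + 2) 1 J₀) x (xp k ι 1) = 0)
    (hx' : hf (RingHom.id k) (hyp (s + 2) 1 J₀) x (x0 s v) = 0) :
    x ᵥ* (ei (RingHom.id k) 1 (hyp (s + 2) 1 J₀) (xp k ι 1) (x0 s v) (qq J₀ v)).1 = x := by
  rw [vecMul_ei hF (ep2 h2 v), hx, hx']
  simp

theorem u1_fix (t : k) {x : Idx (s + 2) ι → k}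
    (hx : hf (RingHom.id k) (hyp (s + 2) 1 J₀) x (xp k ι 0) = 0)
    (hx' : hf (RingHom.id k) (hyp (s + 2) 1 J₀) x (xp k ι 1) = 0) :
    x ᵥ* (ei (RingHom.id k) 1 (hyp (s + 2) 1 J₀) (xp k ι 0) (t • xp k ι 1) 0).1 = x := by
  rw [vecMul_ei hF (ep1 t), hf_smul_right, hx, hx']
  simp

end vec

/-! ### Topology and conjugation -/

section top

variable {k : Type} [NontriviallyNormedField k] {s : ℕ} {ι : Type} [Fintype ι] [DecidableEq ι]
  {J₀ : Matrix ι ι k} {T : Subgroup (FormGroup (RingHom.id k) (hyp (s + 2) 1 J₀))}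

/-- the family `u1` in `T` -/
def IsU1 (n : k → T) : Prop :=
  ∀ t, (n t).1.1 = ei (RingHom.id k) 1 (hyp (s + 2) 1 J₀) (xp k ι 0) (t • xp k ι 1) 0

/-- the family `u2` in `T` -/
def IsU2 (n : (ι → k) → T) : Prop :=
  ∀ v, (n v).1.1 = ei (RingHom.id k) 1 (hyp (s + 2) 1 J₀) (xp k ι 1) (x0 s v) (qq J₀ v)

theorem ei_val {n : Type} [Fintype n] [DecidableEq n] {K : Matrix n n k} {ε : k}
    {σ : k →+* k} (hF : Fm σ ε K) {u v : n → k} {c : k} (h : EP σ ε K u v c) :
    (ei σ ε K u v c).1 = eim σ ε K u v c := by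
  unfold ei
  rw [dif_pos ⟨h.uu, hF.symm0 h.vu, h.vu⟩, toSL_val]

theorem eim_cont {n : Type} [Fintype n] [DecidableEq n] {K : Matrix n n k} {ε : k}
    {Y : Type} [TopologicalSpace Y] {u : n → k} {v : Y → n → k} {c : Y → k} (hv : Continuous v)
    (hc : Continuous c) : Continuous fun y => eim (RingHom.id k) ε K u (v y) (c y) := by
  unfold eim
  refine continuous_const.add (Continuous.add ?_ ?_)
  · exact continuous_const.matrix_vecMulVec (hv.add ((continuous_const.mul hc).smul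
      continuous_const))
  · exact (continuous_const.matrix_mulVec hv).matrix_vecMulVec continuous_const

theorem x0_cont : Continuous fun v : ι → k => x0 s v := by
  refine continuous_pi fun x => ?_
  rcases x with x | x
  · exact continuous_const
  · exact continuous_apply x

theorem qq_cont : Continuous fun v : ι → k => qq J₀ v :=
  (continuous_const.mul (continuous_id.dotProduct
    (continuous_const.matrix_mulVec continuous_id))).neg

variable (hF : Fm (RingHom.id k) 1 (hyp (s + 2) 1 J₀))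

include hF

theorem u1_cont {n : k → T} (hn : IsU1 n) : Continuous n := by
  rw [jO_ind.continuous_iff]
  have e : (jO T ∘ n) = fun t => eim (RingHom.id k) 1 (hyp (s + 2) 1 J₀) (xp k ι 0)
      (t • xp k ι 1) 0 := by
    funext t
    change (n t).1.1.1 = _
    rw [hn t, ei_val hF (ep1 t)]
  rw [e]
  exact eim_cont (continuous_id.smul continuous_const) continuous_const

theorem u2_cont (h2 : (2 : k) ≠ 0) {n : (ι → k) → T} (hn : IsU2 n) : Continuous n := by
  rw [jO_ind.continuous_iff]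
  have e : (jO T ∘ n) = fun v => eim (RingHom.id k) 1 (hyp (s + 2) 1 J₀) (xp k ι 1)
      (x0 s v) (qq J₀ v) := by
    funext t
    change (n t).1.1.1 = _
    rw [hn t, ei_val hF (ep2 h2 t)]
  rw [e]
  exact eim_cont x0_cont qq_cont

theorem u1_add' {n : k → T} (hn : IsU1 n) (t t' : k) : n t * n t' = n (t + t') := by
  refine Subtype.ext (Subtype.ext ?_)
  change (n t).1.1 * (n t').1.1 = _
  rw [hn, hn, hn, u1_add hF]

theorem u2_add' (h2 : (2 : k) ≠ 0) {n : (ι → k) → T} (hn : IsU2 n) (v v' : ι → k) :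
    n v * n v' = n (v + v') := by
  refine Subtype.ext (Subtype.ext ?_)
  change (n v).1.1 * (n v').1.1 = _
  rw [hn, hn, hn, u2_add hF h2]

theorem u1_diff {n : k → T} (hn : IsU1 n) (t t' : k) : n t * (n t')⁻¹ = n (t - t') := by
  rw [mul_inv_eq_iff_eq_mul, u1_add' hF hn, sub_add_cancel]

theorem u2_diff (h2 : (2 : k) ≠ 0) {n : (ι → k) → T} (hn : IsU2 n) (v v' : ι → k) :
    n v * (n v')⁻¹ = n (v - v') := by
  rw [mul_inv_eq_iff_eq_mul, u2_add' hF h2 hn, sub_add_cancel]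

theorem u1_zero {n : k → T} (hn : IsU1 n) : n 0 = 1 := by
  have h := u1_add' hF hn 0 0
  rwa [add_zero, mul_eq_left] at h

theorem u2_zero (h2 : (2 : k) ≠ 0) {n : (ι → k) → T} (hn : IsU2 n) : n 0 = 1 := by
  have h := u2_add' hF h2 hn 0 0
  rwa [add_zero, mul_eq_left] at h

omit hF in
theorem tor_p {w : k} (hw : w ≠ 0) (l : Fin (s + 2) → ℤ) (i : Fin (s + 2)) :
    xp k ι i ᵥ* (torF (s + 2) ι hw l).1 = w ^ l i • xp k ι i := by
  change xp k ι i ᵥ* diagonal (dgF (s + 2) ι w l) = _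
  funext x
  rw [vecMul_diagonal, Pi.smul_apply, smul_eq_mul]
  by_cases hx : x = .inl (.inl i)
  · subst hx
    have e : xp k ι i (.inl (.inl i)) = 1 := Pi.single_eq_same _ _
    rw [e, one_mul, mul_one]
    rfl
  · have e : xp k ι i x = 0 := Pi.single_eq_of_ne hx _
    rw [e, zero_mul, mul_zero]

omit hF in
theorem tor_0 {w : k} (hw : w ≠ 0) (l : Fin (s + 2) → ℤ) (v : ι → k) :
    x0 s v ᵥ* (torF (s + 2) ι hw l).1 = x0 s v := by
  change x0 s v ᵥ* diagonal (dgF (s + 2) ι w l) = _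
  funext x
  rw [vecMul_diagonal]
  rcases x with x | x
  · simp
  · change v x * 1 = v x
    rw [mul_one]

omit hF in
theorem tor_mem' {w : k} (hw : w ≠ 0) (l : Fin (s + 2) → ℤ) :
    torF (s + 2) ι hw l ∈ FormGroup (RingHom.id k) (hyp (s + 2) 1 J₀) :=
  torF_mem _ _ _ hw rfl _

/-- **conjugation of `u1` by the torus** -/
theorem u1_conj {w : k} (hw : w ≠ 0) {l : Fin (s + 2) → ℤ} {b : T}
    (hb : b.1.1 = torF (s + 2) ι hw l) {n : k → T} (hn : IsU1 n) (t : k) :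
    b * n t = n (((wz hw (l 0 + l 1) : kˣ) : k) • t) * b := by
  refine Subtype.ext (Subtype.ext ?_)
  change b.1.1 * (n t).1.1 = (n _).1.1 * b.1.1
  rw [hn, hn, hb, conj_ei hF (ep1 t) (tor_mem' hw l) (zpow_ne_zero _ hw) (zpow_ne_zero _ hw)
    (tor_p hw l 0) (b := w ^ l 1) (by
      rw [smul_vecMul, tor_p, smul_comm])]
  congr 1
  rw [mul_zero, smul_smul, wz_val, ← zpow_add₀ hw, _root_.zpow_neg, smul_eq_mul]

/-- **conjugation of `u2` by the torus** -/
theorem u2_conj (h2 : (2 : k) ≠ 0) {w : k} (hw : w ≠ 0) {l : Fin (s + 2) → ℤ} {b : T}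
    (hb : b.1.1 = torF (s + 2) ι hw l) {n : (ι → k) → T} (hn : IsU2 n) (v : ι → k) :
    b * n v = n (((wz hw (l 1) : kˣ) : k) • v) * b := by
  refine Subtype.ext (Subtype.ext ?_)
  change b.1.1 * (n v).1.1 = (n _).1.1 * b.1.1
  rw [hn, hn, hb, conj_ei hF (ep2 h2 v) (tor_mem' hw l) (zpow_ne_zero _ hw) one_ne_zero
    (tor_p hw l 1) (by rw [tor_0, one_smul]), x0_smul, qq_smul, wz_val, mul_one,
    _root_.zpow_neg, mul_inv]

/-- properness of `u1` -/
theorem u1_prop {n : k → T} (hn : IsU1 n) (C : Set T) (hC : IsCompact C) :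
    ∃ r : ℝ, ∀ t, n t ∈ C → ‖t‖ ≤ r := by
  have hc : Continuous fun g : T => jO T g (.inl (.inr 0)) (.inl (.inl 1)) :=
    (continuous_apply_apply (Sum.inl (Sum.inr 0)) (Sum.inl (Sum.inl 1))).comp
      jO_ind.continuous
  obtain ⟨r, hr⟩ := hC.exists_bound_of_continuousOn hc.continuousOn
  refine ⟨r, fun t ht => ?_⟩
  have h := hr _ ht
  rwa [jO_apply, hn t, u1_row hF] at h

/-- properness of `u2` -/
theorem u2_prop (h2 : (2 : k) ≠ 0) {n : (ι → k) → T} (hn : IsU2 n) (C : Set T)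
    (hC : IsCompact C) : ∃ r : ℝ, ∀ v, n v ∈ C → ‖v‖ ≤ r := by
  have hc : Continuous fun g : T => (fun a => jO T g (.inl (.inr 1)) (.inr a) : ι → k) :=
    continuous_pi fun a =>
      (continuous_apply_apply (Sum.inl (Sum.inr 1)) (Sum.inr a)).comp jO_ind.continuous
  obtain ⟨r, hr⟩ := hC.exists_bound_of_continuousOn hc.continuousOn
  refine ⟨r, fun t ht => ?_⟩
  have h := hr _ ht
  have e : (fun a => jO T (n t) (.inl (.inr 1)) (.inr a) : ι → k) = t := by
    funext a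
    rw [jO_apply, hn t, u2_row hF h2]
  rwa [e] at h

end top

/-! ### The orbit property -/

section spr

variable {k : Type} [NontriviallyNormedField k] [ProperSpace k] [MeasurableSpace k] [BorelSpace k]
  {s : ℕ} {ι : Type} [Fintype ι] [DecidableEq ι]
  {J₀ : Matrix ι ι k} {T : Subgroup (FormGroup (RingHom.id k) (hyp (s + 2) 1 J₀))}
  (hF : Fm (RingHom.id k) 1 (hyp (s + 2) 1 J₀)) {w : k} (hw : w ≠ 0) {l : Fin (s + 2) → ℤ} {b : T}
  (hb : b.1.1 = torF (s + 2) ι hw l)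

include hF hb

theorem spr1 {n : k → T} (hn : IsU1 n) {μ : Measure k} [μ.IsAddHaarMeasure] :
    Spr μ b n (rt (dilV (k := k) (P := k) (wz hw (l 0 + l 1)))) :=
  spr_ab (dilV (k := k) (P := k) (wz hw (l 0 + l 1))).continuous (rt_meas _) (u1_diff hF hn)
    (fun t => u1_conj hF hw hb hn t) (u1_prop hF hn)

theorem spr2 (h2 : (2 : k) ≠ 0) {n : (ι → k) → T} (hn : IsU2 n) {μ : Measure (ι → k)}
    [μ.IsAddHaarMeasure] :
    Spr μ b n (rt (dilV (k := k) (P := ι → k) (wz hw (l 1)))) :=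
  spr_ab (dilV (k := k) (P := ι → k) (wz hw (l 1))).continuous (rt_meas _) (u2_diff hF h2 hn)
    (fun t => u2_conj hF h2 hw hb hn t) (u2_prop hF h2 hn)

end spr

end Vale.Agent.P092.H289.O2
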