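import Vale.Agent.P092.H103.QH4
import Vale.Agent.P092.H183.DV1

/-!
P092, block CLASS-H (helper289): standard description of the class, part 1.  The torus of a hyperbolic
pair, and the quasi-reflections, over a noncommutative division ring (after helper714 Cl8).
-/

set_option linter.all false

open Matrix

namespace Vale.Agent.P092.H289.QF

open Vale.Agent.P092.H103.QH
open Vale.Agent.P092.H183.DV

variable {n : Type*} [Fintype n] [DecidableEq n] {D : Type*} [DivisionRing D] [StarRing D]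
  {ε : D} {J : Matrix n n D}

/-- A hyperbolic pair. -/
structure Hp (J : Matrix n n D) (u w : n → D) : Prop where
  uu : hf J u u = 0
  ww : hf J w w = 0
  uw : hf J u w = 1

/-- Decomposition with respect to a hyperbolic pair. -/
theorem Hp.dec (hF : Frm ε J) {u w : n → D} (hP : Hp J u w) (x : n → D) :
    ∃ y, hf J y u = 0 ∧ hf J y w = 0 ∧ x = y + hf J x w • u + (hf J x u * ε) • w := by
  have hwu := hF.swap hP.uw
  refine ⟨x - hf J x w • u - (hf J x u * ε) • w, ?_, ?_, ?_⟩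
  · rw [hf_sub_left, hf_sub_left, hf_smul_left, hf_smul_left, hP.uu, hwu, mul_zero, sub_zero,
      mul_assoc, eps_sq hF.eps, mul_one, sub_self]
  · rw [hf_sub_left, hf_sub_left, hf_smul_left, hf_smul_left, hP.uw, hP.ww, mul_one, mul_zero,
      sub_self, sub_zero]
  · abel

/-- Extensionality on a hyperbolic pair and its orthogonal. -/
theorem ext_pair (hF : Frm ε J) {u w : n → D} (hP : Hp J u w) {g g' : (Matrix n n D)ˣ}
    (h1 : u ᵥ* g.1 = u ᵥ* g'.1) (h2 : w ᵥ* g.1 = w ᵥ* g'.1)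
    (h3 : ∀ y, hf J y u = 0 → hf J y w = 0 → y ᵥ* g.1 = y ᵥ* g'.1) : g = g' := by
  refine ext_vecMul fun x => ?_
  obtain ⟨y, hyu, hyw, e⟩ := hP.dec hF x
  obtain ⟨p, hp⟩ : ∃ p, p = hf J x w := ⟨_, rfl⟩
  obtain ⟨q, hq⟩ : ∃ q, q = hf J x u * ε := ⟨_, rfl⟩
  rw [← hp, ← hq] at e
  rw [e, add_vecMul, add_vecMul, add_vecMul, add_vecMul, smul_vecMul, smul_vecMul, smul_vecMul,
    smul_vecMul, h1, h2, h3 y hyu hyw]

/-- The torus element of a hyperbolic pair, as a matrix. -/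
def tbm (ε : D) (J : Matrix n n D) (u w : n → D) (b : D) : Matrix n n D :=
  1 + vecMulVec (J *ᵥ star w) ((b - 1) • u) +
    vecMulVec (J *ᵥ star u) ((ε * ((star b)⁻¹ - 1)) • w)

theorem vecMul_tbm (u w x : n → D) (b : D) : x ᵥ* tbm ε J u w b =
    x + (hf J x w * (b - 1)) • u + (hf J x u * (ε * ((star b)⁻¹ - 1))) • w := by
  unfold tbm hf
  rw [vecMul_add, vecMul_add, vecMul_one, vecMul_vecMulVec, vecMul_vecMulVec, smul_smul, smul_smul]

theorem u_tbm {u w : n → D} (hP : Hp J u w) (b : D) :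
    u ᵥ* tbm ε J u w b = b • u := by
  rw [vecMul_tbm, hP.uu, hP.uw, one_mul, zero_mul, zero_smul, add_zero, sub_smul, one_smul]
  abel

theorem w_tbm (hF : Frm ε J) {u w : n → D} (hP : Hp J u w) (b : D) :
    w ᵥ* tbm ε J u w b = (star b)⁻¹ • w := by
  rw [vecMul_tbm, hP.ww, hF.swap hP.uw, zero_mul, zero_smul, add_zero, ← mul_assoc,
    eps_sq hF.eps, one_mul, sub_smul, one_smul]
  abel

theorem y_tbm {u w : n → D} (b : D) {y : n → D} (h1 : hf J y u = 0) (h2 : hf J y w = 0) :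
    y ᵥ* tbm ε J u w b = y := by
  rw [vecMul_tbm, h1, h2, zero_mul, zero_mul, zero_smul, zero_smul, add_zero, add_zero]

theorem tbm_mul (hF : Frm ε J) {u w : n → D} (hP : Hp J u w) (b c : D) :
    tbm ε J u w b * tbm ε J u w c = tbm ε J u w (b * c) := by
  refine ext_vm fun x => ?_
  obtain ⟨y, hyu, hyw, e⟩ := hP.dec hF x
  obtain ⟨p, hp⟩ : ∃ p, p = hf J x w := ⟨_, rfl⟩
  obtain ⟨q, hq⟩ : ∃ q, q = hf J x u * ε := ⟨_, rfl⟩
  rw [← hp, ← hq] at e
  rw [e, ← vecMul_vecMul]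
  simp only [add_vecMul, smul_vecMul, u_tbm hP, w_tbm hF hP, y_tbm _ hyu hyw, smul_smul, star_mul,
    mul_inv_rev, mul_assoc]

theorem tbm_one (u w : n → D) : tbm ε J u w 1 = 1 := by
  refine ext_vm fun x => ?_
  rw [vecMul_tbm, star_one, inv_one, sub_self, mul_zero, mul_zero, mul_zero, zero_smul, zero_smul,
    add_zero, add_zero, vecMul_one]

/-- The torus element of a hyperbolic pair. -/
noncomputable def tb (hF : Frm ε J) {u w : n → D} (hP : Hp J u w) (b : Dˣ) :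
    (Matrix n n D)ˣ where
  val := tbm ε J u w b
  inv := tbm ε J u w (b⁻¹).1
  val_inv := by rw [tbm_mul hF hP, Units.mul_inv, tbm_one]
  inv_val := by rw [tbm_mul hF hP, Units.inv_mul, tbm_one]

section tb

variable (hF : Frm ε J) {u w : n → D} (hP : Hp J u w)

theorem u_tb (b : Dˣ) : u ᵥ* (tb hF hP b).1 = b.1 • u := u_tbm hP _

theorem w_tb (b : Dˣ) : w ᵥ* (tb hF hP b).1 = (star b.1)⁻¹ • w := w_tbm hF hP _

theorem y_tb (b : Dˣ) {y : n → D} (h1 : hf J y u = 0) (h2 : hf J y w = 0) :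
    y ᵥ* (tb hF hP b).1 = y := y_tbm _ h1 h2

theorem tb_mul (b c : Dˣ) : tb hF hP b * tb hF hP c = tb hF hP (b * c) :=
  Units.ext (tbm_mul hF hP _ _)

theorem tb_one : tb hF hP 1 = 1 := Units.ext (tbm_one u w)

/-- The torus as a homomorphism. -/
noncomputable def tbh : Dˣ →* (Matrix n n D)ˣ where
  toFun := tb hF hP
  map_one' := tb_one hF hP
  map_mul' b c := (tb_mul hF hP b c).symm

theorem tb_mem (b : Dˣ) : tb hF hP b ∈ FG J := by
  rw [mem_FG]
  intro x y
  obtain ⟨x', hxu, hxw, ex⟩ := hP.dec hF x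
  obtain ⟨y', hyu, hyw, ey⟩ := hP.dec hF y
  obtain ⟨p, hp⟩ : ∃ p, p = hf J x w := ⟨_, rfl⟩
  obtain ⟨q, hq⟩ : ∃ q, q = hf J x u * ε := ⟨_, rfl⟩
  obtain ⟨p', hp'⟩ : ∃ p, p = hf J y w := ⟨_, rfl⟩
  obtain ⟨q', hq'⟩ : ∃ q, q = hf J y u * ε := ⟨_, rfl⟩
  rw [← hp, ← hq] at ex
  rw [← hp', ← hq'] at ey
  have hwu := hF.swap hP.uw
  have hb : b.1 ≠ 0 := b.ne_zero
  have hsb : star b.1 ≠ 0 := by rwa [Ne, star_eq_zero]
  rw [ex, ey]
  simp only [add_vecMul, smul_vecMul, u_tb, w_tb, y_tb hF hP b hxu hxw, y_tb hF hP b hyu hyw,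
    hf_add_left, hf_add_right, hf_smul_left, hf_smul_right, hP.uu, hP.ww, hP.uw, hwu, hxu, hxw,
    hF.symm_zero hyu, hF.symm_zero hyw, mul_zero, zero_mul, add_zero, zero_add, mul_one, one_mul,
    star_inv₀, star_star]
  have e1 : b.1 * b.1⁻¹ = 1 := mul_inv_cancel₀ hb
  have e2 : (star b.1)⁻¹ * (ε * star b.1) = ε := by
    rw [eps_comm hF.eps, inv_mul_cancel_left₀ hsb]
  have e3 : p * (b.1 * (b.1⁻¹ * star q')) = p * star q' := by
    rw [mul_inv_cancel_left₀ hb]
  have e4 : q * ((star b.1)⁻¹ * (ε * star b.1)) = q * ε := by rw [e2]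
  simp only [mul_assoc] at e3 e4 ⊢
  rw [e3]
  have e5 : q * ((star b.1)⁻¹ * (ε * (star b.1 * star p'))) = q * (ε * star p') := by
    rw [← mul_assoc ε, ← mul_assoc (star b.1)⁻¹, e2]
  rw [e5]

/-- The torus elements in the group generated by the transvections. -/
theorem tb_mem_GT {s z : D} (hs0 : s ≠ 0) (hs : CC ε s) (hz : CC ε z) {b : Dˣ}
    (hb : b.1 = 1 + ε * s * z) : tb hF hP b ∈ GT ε J := by
  have hwu := hF.swap hP.uw
  have he := eps_sq hF.eps
  have hec := eps_comm hF.eps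
  have hb0 : b.1 ≠ 0 := b.ne_zero
  -- the last coefficient
  have ht : CC ε (-(b.1⁻¹ * s)) := by
    have e : b.1⁻¹ * s = (s⁻¹ + ε * z)⁻¹ := by
      have h1 : b.1 = s * (s⁻¹ + ε * z) := by
        rw [hb, mul_add, mul_inv_cancel₀ hs0, ← mul_assoc, ← hec s]
      rw [h1, mul_inv_rev, mul_assoc, inv_mul_cancel₀ hs0, mul_one]
    rw [e]
    exact ((((hs.inv hF.eps).add (hz.smul hF.eps (eps_cs hF.eps))).inv hF.eps)).neg
  -- the first one
  have hx : CC ε (-(z * b.1⁻¹)) := by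
    by_cases hz0 : z = 0
    · rw [hz0, zero_mul, neg_zero]; exact CC.zero
    · have e : z * b.1⁻¹ = (z⁻¹ + ε * s)⁻¹ := by
        have h1 : b.1 = (z⁻¹ + ε * s) * z := by
          rw [hb, add_mul, inv_mul_cancel₀ hz0]
        rw [h1, mul_inv_rev, mul_inv_cancel_left₀ hz0]
      rw [e]
      exact ((((hz.inv hF.eps).add (hs.smul hF.eps (eps_cs hF.eps))).inv hF.eps)).neg
  have hsb : star b.1 = 1 + ε * z * s := by
    rw [hb, star_add, star_one, star_mul, star_mul, hs.star_eq hF.eps, hz.star_eq hF.eps,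
      eps_star hF.eps]
    congr 1
    have e1 : -ε * z * (-ε * s * ε) = (ε * ε) * (ε * z * s) := by
      rw [← hec (-ε * s)]
      simp only [neg_mul, mul_neg, neg_neg, ← mul_assoc]
      rw [mul_assoc (ε * z) ε ε, he, mul_one, one_mul]
    rw [e1, he, one_mul]
  have hsb0 : star b.1 ≠ 0 := by rwa [Ne, star_eq_zero]
  -- the main identity
  have key : 1 + ε * -(z * b.1⁻¹) * s = (star b.1)⁻¹ := by
    refine eq_inv_of_mul_eq_one_left ?_
    have h2 : b.1⁻¹ * s * star b.1 = s := by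
      have h3 : s * star b.1 = b.1 * s := by
        rw [hsb, hb]
        simp only [mul_add, add_mul, mul_one, one_mul, ← mul_assoc]
        rw [← hec s]
      rw [mul_assoc, h3, inv_mul_cancel_left₀ hb0]
    have h4 : ε * -(z * b.1⁻¹) * s * star b.1 = -(ε * z * s) := by
      have h5 : ε * -(z * b.1⁻¹) * s * star b.1 = -(ε * (z * (b.1⁻¹ * s * star b.1))) := by
        simp only [mul_neg, neg_mul, mul_assoc]
      rw [h5, h2, mul_assoc]
    rw [add_mul, one_mul, h4, hsb]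
    abel
  have e : tb hF hP b = tv J u (-(z * b.1⁻¹)) * tv J w s * tv J u z * tv J w (-(b.1⁻¹ * s)) := by
    refine ext_pair hF hP ?_ ?_ fun y h1 h2 => ?_
    · rw [u_tb, vecMul_mul', vecMul_mul', vecMul_mul']
      have a1 : u ᵥ* (tv J u (-(z * b.1⁻¹))).1 = u := by
        rw [vecMul_tv hP.uu, hP.uu, zero_mul, zero_smul, add_zero]
      have a2 : u ᵥ* (tv J w s).1 = u + s • w := by
        rw [vecMul_tv hP.ww, hP.uw, one_mul]
      have a3 : (u + s • w) ᵥ* (tv J u z).1 = b.1 • u + s • w := by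
        rw [vecMul_tv hP.uu, hf_add_left, hf_smul_left, hP.uu, hwu, zero_add, hb, add_smul,
          one_smul, ← hec s]
        abel
      have a4 : (b.1 • u + s • w) ᵥ* (tv J w (-(b.1⁻¹ * s))).1 = b.1 • u := by
        rw [vecMul_tv hP.ww, hf_add_left, hf_smul_left, hf_smul_left, hP.uw, hP.ww, mul_zero,
          add_zero, mul_one, mul_neg, mul_inv_cancel_left₀ hb0, neg_smul]
        abel
      rw [a1, a2, a3, a4]
    · rw [w_tb, vecMul_mul', vecMul_mul', vecMul_mul']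
      have a1 : w ᵥ* (tv J u (-(z * b.1⁻¹))).1 = w + (ε * -(z * b.1⁻¹)) • u := by
        rw [vecMul_tv hP.uu, hwu]
      have a2 : (w + (ε * -(z * b.1⁻¹)) • u) ᵥ* (tv J w s).1 =
          (star b.1)⁻¹ • w + (ε * -(z * b.1⁻¹)) • u := by
        rw [vecMul_tv hP.ww, hf_add_left, hf_smul_left, hP.ww, hP.uw, zero_add, mul_one, ← key,
          add_smul, one_smul]
        abel
      have a3 : ((star b.1)⁻¹ • w + (ε * -(z * b.1⁻¹)) • u) ᵥ* (tv J u z).1 =
          (star b.1)⁻¹ • w := by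
        rw [vecMul_tv hP.uu, hf_add_left, hf_smul_left, hf_smul_left, hP.uu, hwu, mul_zero,
          add_zero]
        have h1 : (star b.1)⁻¹ * ε * z = ε * (z * b.1⁻¹) := by
          have h3 : star b.1 * z = z * b.1 := by
            rw [hsb, hb, add_mul, one_mul, mul_add, mul_one, ← mul_assoc, ← mul_assoc, ← hec z]
          have h4 : z = star b.1 * (z * b.1⁻¹) := by
            rw [← mul_assoc, h3, mul_assoc, mul_inv_cancel₀ hb0, mul_one]
          have h5 : (star b.1)⁻¹ * ε * z = (star b.1)⁻¹ * ε * (star b.1 * (z * b.1⁻¹)) := by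
            rw [← h4]
          rw [h5, ← hec (star b.1)⁻¹, mul_assoc, inv_mul_cancel_left₀ hsb0]
        rw [h1, mul_neg, neg_smul]
        abel
      have a4 : ((star b.1)⁻¹ • w) ᵥ* (tv J w (-(b.1⁻¹ * s))).1 = (star b.1)⁻¹ • w := by
        rw [vecMul_tv hP.ww, hf_smul_left, hP.ww, mul_zero, zero_mul, zero_smul, add_zero]
      rw [a1, a2, a3, a4]
    · rw [y_tb hF hP b h1 h2]
      simp only [vecMul_mul', vecMul_tv hP.uu, vecMul_tv hP.ww, h1, h2, zero_mul, zero_smul,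
        add_zero]
  rw [e]
  exact mul_mem (mul_mem (mul_mem (tv_mem_GT hP.uu hx) (tv_mem_GT hP.ww hs))
    (tv_mem_GT hP.uu hz)) (tv_mem_GT hP.ww ht)

end tb

end Vale.Agent.P092.H289.QF
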