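import Vale.Agent.P092.H289.QFG1

/-!
P092, block CLASS-H (helper289): standard description of the class, part 2.  The quasi-reflections
(after helper714 Cl8); for hermitian forms over a quaternion division algebra the full isometry group
is generated by the transvections.
-/

set_option linter.all false

open Matrix

namespace Vale.Agent.P092.H289.QF

open Vale.Agent.P092.H103.QH
open Vale.Agent.P092.H183.DV

variable {n : Type*} [Fintype n] [DecidableEq n] {D : Type*} [DivisionRing D] [StarRing D]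
  {ε : D} {J : Matrix n n D}

/-- Transport of an isotropic line, inside the plane. -/
theorem trans_step (hF : Frm ε J) {u w : n → D} (hu : hf J u u = 0) (hw : hf J w w = 0)
    (huw : hf J u w ≠ 0) {d : D} (hd0 : d ≠ 0) (hd : CC ε d) :
    ∃ g ∈ GT ε J, u ᵥ* g.1 = (hf J u w * d) • w ∧
      ∀ y, hf J y u = 0 → hf J y w = 0 → y ᵥ* g.1 = y := by
  obtain ⟨η, hη⟩ : ∃ η, η = (hf J u w)⁻¹ := ⟨_, rfl⟩
  have he : CC ε (-ε * (star η * d⁻¹ * η)) :=
    ((hd.inv hF.eps).congr hF.eps η).smul hF.eps (eps_cs hF.eps).neg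
  refine ⟨tv J w d * tv J u (-ε * (star η * d⁻¹ * η)),
    mul_mem (tv_mem_GT hw hd) (tv_mem_GT hu he), ?_, ?_⟩
  · rw [vecMul_mul', vecMul_tv hw, vecMul_tv hu, hf_add_left, hf_smul_left, hu, zero_add]
    have e1 : hf J u w * d * hf J w u * (-ε * (star η * d⁻¹ * η)) = -1 := by
      rw [hF.herm u w]
      have e2 : star (hf J u w) * star η = 1 := by
        rw [← star_mul, hη, inv_mul_cancel₀ huw, star_one]
      calc hf J u w * d * (ε * star (hf J u w)) * (-ε * (star η * d⁻¹ * η))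
          = -(hf J u w * d * (ε * (star (hf J u w) * ε) * (star η * d⁻¹ * η))) := by
            noncomm_ring
        _ = -(hf J u w * d * ((ε * ε) * (star (hf J u w) * star η) * d⁻¹ * η)) := by
            rw [← eps_comm hF.eps (star (hf J u w))]
            noncomm_ring
        _ = -1 := by
            rw [eps_sq hF.eps, e2, one_mul, one_mul, mul_assoc, mul_inv_cancel_left₀ hd0, hη,
              mul_inv_cancel₀ huw]
    rw [e1, neg_one_smul]
    abel
  · intro y h1 h2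
    rw [vecMul_mul', vecMul_tv hw, h2, zero_mul, zero_smul, add_zero, vecMul_tv hu, h1, zero_mul,
      zero_smul, add_zero]

/-- A vector orthogonal to the orthogonal of a hyperbolic pair is in its span. -/
theorem mem_span (hF : Frm ε J) {u w : n → D} (hP : Hp J u w) {x : n → D}
    (h : ∀ y, hf J y u = 0 → hf J y w = 0 → hf J y x = 0) :
    x = hf J x w • u + (hf J x u * ε) • w := by
  obtain ⟨y, hyu, hyw, e⟩ := hP.dec hF x
  obtain ⟨p, hp⟩ : ∃ p, p = hf J x w := ⟨_, rfl⟩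
  obtain ⟨q, hq⟩ : ∃ q, q = hf J x u * ε := ⟨_, rfl⟩
  rw [← hp, ← hq] at e ⊢
  have hy : y = 0 := by
    by_contra hy0
    obtain ⟨z, hz⟩ := hF.nondeg y hy0
    apply hz
    obtain ⟨z', hzu, hzw, e'⟩ := hP.dec hF z
    obtain ⟨p', hp'⟩ : ∃ p, p = hf J z w := ⟨_, rfl⟩
    obtain ⟨q', hq'⟩ : ∃ q, q = hf J z u * ε := ⟨_, rfl⟩
    rw [← hp', ← hq'] at e'
    rw [e', hf_add_right, hf_add_right, hf_smul_right, hf_smul_right, hyu, hyw, zero_mul, zero_mul,
      add_zero, add_zero]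
    refine hF.symm_zero ?_
    have h1 := h z' hzu hzw
    rw [e, hf_add_right, hf_add_right, hf_smul_right, hf_smul_right, hzu, hzw, zero_mul, zero_mul,
      add_zero, add_zero] at h1
    exact h1
  rw [e, hy, zero_add]

/-- An isometry which fixes a line of a hyperbolic pair and its orthogonal. -/
theorem borel (hF : Frm ε J) {u w : n → D} (hP : Hp J u w) {m : (Matrix n n D)ˣ} (hm : m ∈ FG J)
    {b : Dˣ} (hmu : u ᵥ* m.1 = b.1 • u)
    (hmy : ∀ y, hf J y u = 0 → hf J y w = 0 → y ᵥ* m.1 = y) :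
    ∃ c, CC ε c ∧ m = tb hF hP b * tv J u c := by
  have hb0 : b.1 ≠ 0 := b.ne_zero
  have hwu := hF.swap hP.uw
  obtain ⟨w', hw''⟩ : ∃ w', w' = w ᵥ* m.1 := ⟨_, rfl⟩
  have hw'i : hf J w' w' = 0 := by rw [hw'', mem_FG.1 hm, hP.ww]
  have huw' : b.1 * hf J u w' = 1 := by
    have h1 := mem_FG.1 hm u w
    rw [hmu, hf_smul_left, hP.uw, ← hw''] at h1
    exact h1
  have hyw' : ∀ y, hf J y u = 0 → hf J y w = 0 → hf J y w' = 0 := by
    intro y h1 h2
    have h3 := mem_FG.1 hm y w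
    rwa [hmy y h1 h2, h2, ← hw''] at h3
  have hsp := mem_span hF hP hyw'
  obtain ⟨β, hβ⟩ : ∃ β, β = hf J w' w := ⟨_, rfl⟩
  obtain ⟨γ, hγ⟩ : ∃ γ, γ = hf J w' u * ε := ⟨_, rfl⟩
  rw [← hβ, ← hγ] at hsp
  have hγb : γ = (star b.1)⁻¹ := by
    have h1 : hf J u w' = star γ := by
      rw [hsp, hf_add_right, hf_smul_right, hf_smul_right, hP.uu, hP.uw, zero_mul, zero_add,
        one_mul]
    rw [h1] at huw'
    have h2 := congrArg star huw'
    rw [star_mul, star_star, star_one] at h2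
    exact eq_inv_of_mul_eq_one_left h2
  have hγ0 : γ ≠ 0 := by
    rw [hγb]
    exact inv_ne_zero (by rwa [Ne, star_eq_zero])
  have hsγ : star γ ≠ 0 := by rwa [Ne, star_eq_zero]
  have hrel : β * star γ + ε * (γ * star β) = 0 := by
    rw [hsp] at hw'i
    simp only [hf_add_left, hf_add_right, hf_smul_left, hf_smul_right, hP.uu, hP.ww, hP.uw, hwu,
      mul_zero, zero_mul, add_zero, zero_add, one_mul] at hw'i
    rw [mul_one, ← eps_comm hF.eps γ, mul_assoc, add_comm] at hw'i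
    exact hw'i
  have hc : CC ε (ε * (γ⁻¹ * β)) := by
    unfold CC
    rw [star_mul, star_mul, star_inv₀, eps_star hF.eps]
    have h1 : ε * (γ⁻¹ * β) + ε * (star β * (star γ)⁻¹ * ε) =
        ε * (γ⁻¹ * (β * star γ + ε * (γ * star β)) * (star γ)⁻¹) := by
      have h2 : γ⁻¹ * (β * star γ + ε * (γ * star β)) * (star γ)⁻¹ =
          γ⁻¹ * β + star β * (star γ)⁻¹ * ε := by
        rw [mul_add, add_mul]
        congr 1
        · rw [mul_assoc, mul_assoc, mul_inv_cancel₀ hsγ, mul_one]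
        · rw [← mul_assoc ε, eps_comm hF.eps γ, mul_assoc γ, inv_mul_cancel_left₀ hγ0,
            mul_assoc, eps_comm hF.eps]
      rw [h2, mul_add]
    rw [h1, hrel, mul_zero, zero_mul, mul_zero]
  refine ⟨_, hc, ext_pair hF hP ?_ ?_ fun y h1 h2 => ?_⟩
  · rw [hmu, vecMul_mul', u_tb, smul_vecMul, vecMul_tv hP.uu, hP.uu, zero_mul, zero_smul, add_zero]
  · rw [← hw'', vecMul_mul', w_tb, smul_vecMul, vecMul_tv hP.uu, hwu, ← hγb, smul_add, smul_smul]
    conv_lhs => rw [hsp]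
    have e3 : γ * (ε * (ε * (γ⁻¹ * β))) = β := by
      rw [← mul_assoc ε, eps_sq hF.eps, one_mul, mul_inv_cancel_left₀ hγ0]
    rw [e3, add_comm]
  · rw [hmy y h1 h2, vecMul_mul', y_tb hF hP b h1 h2, vecMul_tv hP.uu, h1, zero_mul, zero_smul,
      add_zero]

/-- **The quasi-reflections.** -/
theorem rq_dec (hF : Frm ε J) {v : n → D} {a : D} (hv : hf J v v ≠ 0) (ha : a ≠ 0)
    (h : QR ε J v a) : ∃ (u w : n → D) (hP : Hp J u w) (b : Dˣ), ∃ t ∈ GT ε J,
      rq hF.eps h = tb hF hP b * t := by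
  have hRI := rq_mem hF h
  obtain ⟨R, hR⟩ : ∃ R, R = rq hF.eps h := ⟨_, rfl⟩
  have hRv : ∀ x, x ᵥ* R.1 = x + (hf J x v * a) • v := fun x => by
    rw [hR, rq_val, vecMul_tvm]
  rw [← hR] at hRI ⊢
  -- an isotropic vector which is not orthogonal to `v`
  obtain ⟨u, hu, huv⟩ : ∃ u, hf J u u = 0 ∧ hf J u v ≠ 0 := by
    by_contra hcon
    push Not at hcon
    obtain ⟨y, hy⟩ := hF.nondeg v (fun h0 => hv (by rw [h0, hf_zero_left]))
    obtain ⟨x1, x2, x3, h1, h2, h3, rfl⟩ := hF.iso_decomp y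
    refine hF.symm_ne hy ?_
    rw [hf_add_left, hf_add_left, hcon x1 h1, hcon x2 h2, hcon x3 h3, add_zero, add_zero]
  obtain ⟨α, hα⟩ := hF.exists_corr hu huv
  obtain ⟨c₁, hc₁⟩ : ∃ c₁, c₁ = star (hf J u v)⁻¹ := ⟨_, rfl⟩
  have hc₁0 : c₁ ≠ 0 := by
    rw [hc₁, Ne, star_eq_zero]
    exact inv_ne_zero huv
  obtain ⟨w, hw'⟩ : ∃ w, w = c₁ • (v + α • u) := ⟨_, rfl⟩
  have hw : hf J w w = 0 := by rw [hw']; exact iso_smul hα c₁
  have huw : hf J u w = 1 := by
    rw [hw', hf_smul_right, hf_add_right, hf_smul_right, hu, zero_mul, add_zero, hc₁, star_star,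
      mul_inv_cancel₀ huv]
  have hP : Hp J u w := ⟨hu, hw, huw⟩
  have hvP : v = c₁⁻¹ • w + (-α) • u := by
    rw [hw', smul_smul, inv_mul_cancel₀ hc₁0, one_smul, neg_smul]
    abel
  -- the orthogonal vectors are fixed
  have hyv : ∀ y, hf J y u = 0 → hf J y w = 0 → hf J y v = 0 := by
    intro y h1 h2
    rw [hvP, hf_add_right, hf_smul_right, hf_smul_right, h1, h2, zero_mul, zero_mul, add_zero]
  have hRy : ∀ y, hf J y u = 0 → hf J y w = 0 → y ᵥ* R.1 = y := by
    intro y h1 h2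
    rw [hRv, hyv y h1 h2, zero_mul, zero_smul, add_zero]
  -- the image of `u`
  obtain ⟨u', hu'⟩ : ∃ u', u' = u ᵥ* R.1 := ⟨_, rfl⟩
  have hu'i : hf J u' u' = 0 := by rw [hu', mem_FG.1 hRI, hu]
  have hu'v : u' = u + (hf J u v * a) • v := by rw [hu']; exact hRv u
  have huu' : hf J u u' ≠ 0 := by
    rw [hu'v, hf_add_right, hf_smul_right, hu, zero_add]
    refine mul_ne_zero huv ?_
    rw [Ne, star_eq_zero]
    exact mul_ne_zero huv ha
  obtain ⟨d, hd0, hd⟩ := hF.cc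
  obtain ⟨τ, hτ, hτu, hτy⟩ := trans_step hF hu hu'i huu' hd0 hd
  obtain ⟨e, he⟩ : ∃ e, e = hf J u u' * d := ⟨_, rfl⟩
  have he0 : e ≠ 0 := by rw [he]; exact mul_ne_zero huu' hd0
  rw [← he] at hτu
  have hτI : τ ∈ FG J := GT_le hF hτ
  -- the remaining element
  obtain ⟨m, hm⟩ : ∃ m, m = R * τ⁻¹ := ⟨_, rfl⟩
  have hmI : m ∈ FG J := by rw [hm]; exact mul_mem hRI (inv_mem hτI)
  obtain ⟨b, hb⟩ : ∃ b : Dˣ, b.1 = e⁻¹ := ⟨Units.mk0 e⁻¹ (inv_ne_zero he0), rfl⟩
  have hmu : u ᵥ* m.1 = b.1 • u := by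
    rw [hm, vecMul_mul', ← hu']
    have h1 : u' = e⁻¹ • (u ᵥ* τ.1) := by
      rw [hτu, smul_smul, inv_mul_cancel₀ he0, one_smul]
    rw [h1, smul_vecMul, vecMul_cancel_inv, hb]
  have hmy : ∀ y, hf J y u = 0 → hf J y w = 0 → y ᵥ* m.1 = y := by
    intro y h1 h2
    have h3 : hf J y u' = 0 := by
      rw [hu'v, hf_add_right, hf_smul_right, h1, hyv y h1 h2, zero_mul, add_zero]
    have h4 := hτy y h1 h3
    rw [hm, vecMul_mul', hRy y h1 h2]
    have h5 := vecMul_cancel_inv y τ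
    rw [h4] at h5
    exact h5
  obtain ⟨c, hc, hmc⟩ := borel hF hP hmI hmu hmy
  refine ⟨u, w, hP, b, tv J u c * τ, mul_mem (tv_mem_GT hu hc) hτ, ?_⟩
  rw [← mul_assoc, ← hmc, hm, inv_mul_cancel_right]

theorem rq_zero (hF : Frm ε J) {v : n → D} (h : QR ε J v 0) : rq hF.eps h = 1 :=
  Units.ext (by rw [rq_val, tvm_zero, Units.val_one])

/-- Generation by the transvections and the torus elements. -/
theorem FG_le_of (hF : Frm ε J) (hnc : ∃ a b : D, a * b ≠ b * a)
    {H : Subgroup (Matrix n n D)ˣ} (h1 : GT ε J ≤ H)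
    (h2 : ∀ (u w : n → D) (hP : Hp J u w) (b : Dˣ), tb hF hP b ∈ H) : FG J ≤ H := by
  refine FG_le hF hnc fun v a h => ?_
  by_cases hv : hf J v v = 0
  · exact h1 (rq_iso hF h hv)
  · by_cases ha : a = 0
    · subst ha
      rw [rq_zero hF h]
      exact H.one_mem
    · obtain ⟨u, w, hP, b, t, ht, e⟩ := rq_dec hF hv ha h
      rw [e]
      exact H.mul_mem (h2 u w hP b) (h1 ht)

/-- A quaternion is a product of two pure ones. -/
theorem pure_mul_pure (hQ : Qt D) {b : D} (hb : b ≠ 0) :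
    ∃ s p : D, s ≠ 0 ∧ p ≠ 0 ∧ Pu s ∧ Pu p ∧ b = s * p := by
  -- a pure element with vanishing trace of the product
  obtain ⟨c, hc0, hc, hcb⟩ : ∃ c : D, c ≠ 0 ∧ Pu c ∧ c * b + star (c * b) = 0 := by
    obtain ⟨x, y, hx, hy, hxy⟩ := hQ.exists_pu
    have hx0 : x ≠ 0 := by
      rintro rfl
      exact hxy (by rw [zero_mul, mul_zero])
    have hα := hQ.tr (x * b)
    have hβ := hQ.tr (y * b)
    obtain ⟨α, eα⟩ : ∃ α, α = x * b + star (x * b) := ⟨_, rfl⟩
    obtain ⟨β, eβ⟩ : ∃ β, β = y * b + star (y * b) := ⟨_, rfl⟩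
    rw [← eα] at hα
    rw [← eβ] at hβ
    by_cases h0 : α = 0
    · exact ⟨x, hx0, hx, by rw [← eα, h0]⟩
    · refine ⟨β * x - α * y, ?_, ?_, ?_⟩
      · intro h1
        apply hxy
        have h2 : y = α⁻¹ * β * x := by
          rw [mul_assoc, sub_eq_zero.1 h1, inv_mul_cancel_left₀ h0]
        rw [h2, ← mul_assoc, ← (hα.inv.mul hβ).cm x]
      · unfold Pu at *
        rw [star_sub, star_mul, star_mul, hx, hy, hα.st, hβ.st, neg_mul, neg_mul, ← hα.cm,
          ← hβ.cm]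
        abel
      · have h1 : (β * x - α * y) * b = β * (x * b) - α * (y * b) := by noncomm_ring
        rw [h1, star_sub, star_mul β, star_mul α, hα.st, hβ.st, ← hβ.cm (star (x * b)),
          ← hα.cm (star (y * b))]
        have h2 : β * (x * b) - α * (y * b) + (β * star (x * b) - α * star (y * b)) =
            β * (x * b + star (x * b)) - α * (y * b + star (y * b)) := by noncomm_ring
        rw [h2, ← eα, ← eβ, hα.cm, sub_self]
  have hcbn : c * b ≠ 0 := mul_ne_zero hc0 hb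
  refine ⟨c⁻¹, c * b, inv_ne_zero hc0, hcbn, ?_, ?_, ?_⟩
  · unfold Pu at *
    rw [star_inv₀, hc, inv_neg]
  · unfold Pu
    exact eq_neg_of_add_eq_zero_right hcb
  · rw [inv_mul_cancel_left₀ hc0]

/-- For hermitian forms the torus is in the group generated by the transvections. -/
theorem tb_mem_GT_one (hQ : Qt D) {J : Matrix n n D} (hF : Frm (1 : D) J) {u w : n → D}
    (hP : Hp J u w) (b : Dˣ) : tb hF hP b ∈ GT 1 J := by
  obtain ⟨s, p, hs0, hp0, hs, hp, e⟩ := pure_mul_pure hQ b.ne_zero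
  have hz : CC (1 : D) (p - s⁻¹) := hp.cc.sub (hs.cc.inv hF.eps)
  refine tb_mem_GT hF hP hs0 hs.cc hz ?_
  rw [e, one_mul, mul_sub, mul_inv_cancel₀ hs0]
  abel

/-- **For hermitian forms over a quaternion division algebra the isometry group is generated by the
transvections.** -/
theorem FG_eq_GT (hQ : Qt D) {J : Matrix n n D} (hF : Frm (1 : D) J) : GT 1 J = FG J :=
  le_antisymm (GT_le hF)
    (FG_le_of hF hQ.nc le_rfl fun u w hP b => tb_mem_GT_one hQ hF hP b)

end Vale.Agent.P092.H289.QF
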