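import Vale.Agent.P092.H289.QFG2
import Mathlib.GroupTheory.Commutator.Basic
import Mathlib.GroupTheory.QuotientGroup.Basic

/-!
P092, block CLASS-H (helper289): standard description of the class, part 3.  Transitivity on hyperbolic
pairs, and the commutator subgroup of the isometry group.
-/

set_option linter.all false

open Matrix

namespace Vale.Agent.P092.H289.QF

open Vale.Agent.P092.H103.QH
open Vale.Agent.P092.H183.DV

/-! ### The multiplicative group -/

section alg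

variable {D : Type*} [DivisionRing D] [StarRing D]

theorem pu_inv_sq (hQ : Qt D) {m : D} (hm : Pu m) (hm0 : m ≠ 0) : m⁻¹ = (m * m)⁻¹ * m := by
  rw [mul_inv_rev, mul_assoc, inv_mul_cancel₀ hm0, mul_one]

/-- The elements which commute with a pure element. -/
theorem comm_dec (hQ : Qt D) {m a : D} (hm : Pu m) (hm0 : m ≠ 0) (h : a * m = m * a) :
    ∃ r s : D, Cs r ∧ Cs s ∧ a = r + s * m := by
  obtain ⟨r, p, hr, hp, rfl⟩ := hQ.dec a
  have e1 : p * m = m * p := by
    rw [add_mul, mul_add, hr.cm m] at h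
    exact add_left_cancel h
  have c1 : Cs (p * m) := by
    have h := Pu.anti hQ hp hm
    rw [← e1, ← two_mul] at h
    exact Cs.of_two_mul hQ.two h
  refine ⟨r, p * m * (m * m)⁻¹, hr, c1.mul (hm.sq hQ).inv, ?_⟩
  rw [mul_inv_rev, mul_assoc (p * m), mul_assoc m⁻¹, inv_mul_cancel₀ hm0, mul_one, mul_assoc,
    mul_inv_cancel₀ hm0, mul_one]

/-- A pure element which anticommutes with a given one. -/
theorem exists_anti (hQ : Qt D) {m : D} (hm : Pu m) (hm0 : m ≠ 0) :
    ∃ j : D, j ≠ 0 ∧ Pu j ∧ m * j = -(j * m) := by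
  obtain ⟨x, hx, hxm⟩ : ∃ x : D, Pu x ∧ x * m ≠ m * x := by
    by_contra hcon
    push Not at hcon
    obtain ⟨x, y, hx, hy, hxy⟩ := hQ.exists_pu
    have hcs := hQ.cs_of_comm hx hy hxy (hcon x hx).symm (hcon y hy).symm
    have h1 : star m = m := hcs.st
    rw [hm] at h1
    have h2 : (2 : D) * m = 0 := by rw [two_mul]; nth_rewrite 1 [← h1]; exact neg_add_cancel m
    exact (mul_ne_zero hQ.two hm0) h2
  refine ⟨x * m - m * x, sub_ne_zero.2 hxm, hx.comm hm, ?_⟩
  have h1 := (hm.sq hQ).cm x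
  have h2 : m * (x * m - m * x) + (x * m - m * x) * m = x * (m * m) - m * m * x := by
    noncomm_ring
  rw [← h1, sub_self] at h2
  exact eq_neg_of_add_eq_zero_left h2

/-- The conjugation by `j` is the involution on the elements which commute with `m`. -/
theorem j_comm (hQ : Qt D) {m j a : D} (hm : Pu m) (hm0 : m ≠ 0) (hj : m * j = -(j * m))
    (h : a * m = m * a) : j * a = star a * j := by
  obtain ⟨r, s, hr, hs, rfl⟩ := comm_dec hQ hm hm0 h
  rw [star_add, hr.st, star_mul, hs.st, hm, mul_add, add_mul, ← hr.cm j, neg_mul, neg_mul,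
    ← hs.cm m, mul_assoc s, hj, ← mul_assoc j, ← hs.cm j, mul_neg, neg_neg, mul_assoc]

/-- The decomposition. -/
theorem dec_mj (hQ : Qt D) {m j : D} (hm : Pu m) (hm0 : m ≠ 0) (hj0 : j ≠ 0)
    (hj : m * j = -(j * m)) (d : D) :
    ∃ a b : D, a * m = m * a ∧ b * m = m * b ∧ d = a + b * j := by
  have hms := hm.sq hQ
  have h2 := hQ.two
  have hc2 : ∀ x : D, (2 : D)⁻¹ * x = x * 2⁻¹ := Cs.two'.inv.cm
  obtain ⟨e, he⟩ : ∃ e, e = m * d * m⁻¹ := ⟨_, rfl⟩
  have he1 : e * m = m * d := by rw [he, mul_assoc, inv_mul_cancel₀ hm0, mul_one]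
  have he2 : m * e = d * m := by
    have h3 : m * e = m * m * d * m⁻¹ := by rw [he]; simp only [mul_assoc]
    rw [h3, hms.cm d, mul_assoc, mul_assoc, mul_inv_cancel₀ hm0, mul_one]
  refine ⟨2⁻¹ * (d + e), 2⁻¹ * (d - e) * j⁻¹, ?_, ?_, ?_⟩
  · rw [mul_assoc, add_mul, he1, ← he2, ← mul_assoc m, ← hc2 m, mul_assoc (2⁻¹ : D), ← mul_add m,
      add_comm e d]
  · have h4 : j⁻¹ * m = -(m * j⁻¹) := by
      have h5 : j⁻¹ * (m * j) * j⁻¹ = j⁻¹ * -(j * m) * j⁻¹ := by rw [hj]
      rw [mul_assoc, mul_assoc, mul_inv_cancel₀ hj0, mul_one, mul_neg, ← mul_assoc j⁻¹ j,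
        inv_mul_cancel₀ hj0, one_mul, neg_mul] at h5
      exact h5
    have h6 : (d - e) * m = -(m * (d - e)) := by
      rw [sub_mul, mul_sub, he1, he2]
      abel
    rw [mul_assoc, h4, mul_neg, ← mul_assoc, mul_assoc (2⁻¹ : D), h6, mul_neg, neg_mul, neg_neg,
      ← mul_assoc, ← mul_assoc, hc2 m, mul_assoc m]
  · rw [mul_assoc (2⁻¹ * (d - e)), inv_mul_cancel₀ hj0, mul_one, ← mul_add]
    have h7 : d + e + (d - e) = 2 * d := by rw [two_mul]; abel
    rw [h7, inv_mul_cancel_left₀ h2]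

/-- **A homomorphism of the multiplicative group which is central on the centralizer of a pure element
has commutative image.** -/
theorem comm_of {G : Type*} [Group G] (hQ : Qt D) (φ : Dˣ →* G) {m : D} (hm : Pu m) (hm0 : m ≠ 0)
    (hφ : ∀ μ z : Dˣ, μ.1 * m = m * μ.1 → φ μ * φ z = φ z * φ μ) (x y : Dˣ) :
    φ x * φ y = φ y * φ x := by
  obtain ⟨j, hj0, hj, hmj⟩ := exists_anti hQ hm hm0
  have hjj := hj.sq hQ
  obtain ⟨ju, hju⟩ : ∃ ju : Dˣ, ju.1 = j := ⟨Units.mk0 j hj0, rfl⟩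
  -- the centralizer is closed under products, inverses and the involution
  have cst : ∀ a : D, a * m = m * a → star a * m = m * star a := by
    intro a ha
    have h1 := congrArg star ha
    rw [star_mul, star_mul, hm, neg_mul, mul_neg, neg_inj] at h1
    exact h1.symm
  have cmul : ∀ a b : D, a * m = m * a → b * m = m * b → (a * b) * m = m * (a * b) := by
    intro a b ha hb
    rw [mul_assoc, hb, ← mul_assoc, ha, mul_assoc]
  have cinv : ∀ a : D, a * m = m * a → a⁻¹ * m = m * a⁻¹ := by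
    intro a ha
    by_cases ha0 : a = 0
    · rw [ha0, inv_zero, zero_mul, mul_zero]
    · have h1 : a⁻¹ * (a * m) * a⁻¹ = a⁻¹ * (m * a) * a⁻¹ := by rw [ha]
      rw [inv_mul_cancel_left₀ ha0, mul_assoc, mul_assoc, mul_inv_cancel₀ ha0, mul_one] at h1
      exact h1.symm
  have ccomm : ∀ a b : D, a * m = m * a → b * m = m * b → a * b = b * a := by
    intro a b ha hb
    obtain ⟨r, s, hr, hs, rfl⟩ := comm_dec hQ hm hm0 ha
    rw [add_mul, mul_add, hr.cm b, mul_assoc, ← hb, ← mul_assoc, hs.cm b, mul_assoc]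
  -- the special elements
  have key : ∀ z : Dˣ, ∃ μ w : Dˣ, μ.1 * m = m * μ.1 ∧ z = μ * w ∧
      (w = ju ∨ ∃ β : D, β * m = m * β ∧ w.1 = 1 + β * j) := by
    intro z
    obtain ⟨a, b, ha, hb, e⟩ := dec_mj hQ hm hm0 hj0 hmj z.1
    by_cases ha0 : a = 0
    · have hb0 : b ≠ 0 := by
        rintro rfl
        rw [ha0, zero_mul, add_zero] at e
        exact z.ne_zero e
      refine ⟨Units.mk0 b hb0, ju, hb, Units.ext ?_, Or.inl rfl⟩
      rw [e, ha0, zero_add, Units.val_mul, hju]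
      rfl
    · have hw0 : 1 + a⁻¹ * b * j ≠ 0 := by
        intro h0
        have h1 : a * (1 + a⁻¹ * b * j) = z.1 := by
          rw [mul_add, mul_one, ← mul_assoc, mul_inv_cancel_left₀ ha0, e]
        rw [h0, mul_zero] at h1
        exact z.ne_zero h1.symm
      refine ⟨Units.mk0 a ha0, Units.mk0 _ hw0, ha, Units.ext ?_,
        Or.inr ⟨a⁻¹ * b, cmul _ _ (cinv a ha) hb, rfl⟩⟩
      show z.1 = a * (1 + a⁻¹ * b * j)
      rw [mul_add, mul_one, ← mul_assoc, mul_inv_cancel_left₀ ha0, e]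
  -- conjugates by the centralizer
  have conj : ∀ μ z z' : Dˣ, μ.1 * m = m * μ.1 → z'.1 * μ.1 = μ.1 * z.1 → φ z' = φ z := by
    intro μ z z' hμ h
    have h1 : z' * μ = μ * z := Units.ext h
    have h2 : φ z' * φ μ = φ μ * φ z := by rw [← map_mul, h1, map_mul]
    rw [hφ μ z hμ] at h2
    exact mul_right_cancel h2
  have jstar : ∀ μ μ' : Dˣ, μ.1 * m = m * μ.1 → μ'.1 = star μ.1 → φ μ' = φ μ := by
    intro μ μ' hμ h
    have h1 : ju * μ = μ' * ju := Units.ext (by
      rw [Units.val_mul, Units.val_mul, hju, h]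
      exact j_comm hQ hm hm0 hmj hμ)
    have h2 : φ ju * φ μ = φ μ' * φ ju := by rw [← map_mul, h1, map_mul]
    rw [← hφ μ ju hμ] at h2
    exact (mul_right_cancel h2).symm
  -- the case of `j`
  have case_j : ∀ z : Dˣ, (∃ β : D, β * m = m * β ∧ z.1 = 1 + β * j) →
      φ ju * φ z = φ z * φ ju := by
    rintro z ⟨β, hβ, hz⟩
    by_cases hβ0 : β = 0
    · have : z = 1 := Units.ext (by rw [hz, hβ0, zero_mul, add_zero, Units.val_one])
      rw [this, map_one, mul_one, one_mul]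
    · have hsβ0 : star β ≠ 0 := by rwa [Ne, star_eq_zero]
      have h1 : φ (ju * z * ju⁻¹) = φ z := by
        refine conj (Units.mk0 (star β) hsβ0) _ _ (cst β hβ) ?_
        show (ju * z * ju⁻¹).1 * star β = star β * z.1
        have h2 : (ju * z * ju⁻¹).1 = 1 + star β * j := by
          have h3 : (ju * z * ju⁻¹).1 * ju.1 = (1 + star β * j) * ju.1 := by
            rw [← Units.val_mul, inv_mul_cancel_right, Units.val_mul, hju, hz, mul_add, add_mul,
              mul_one, one_mul, ← mul_assoc j β j, j_comm hQ hm hm0 hmj hβ]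
          exact mul_right_cancel₀ ju.ne_zero h3
        rw [h2, hz, add_mul, mul_add, one_mul, mul_one, mul_assoc (star β),
          j_comm hQ hm hm0 hmj (cst β hβ), star_star]
      rw [map_mul, map_mul, map_inv, mul_inv_eq_iff_eq_mul] at h1
      exact h1
  -- the main case
  have case_z : ∀ z z' : Dˣ, (∃ β : D, β * m = m * β ∧ z.1 = 1 + β * j) →
      (∃ β : D, β * m = m * β ∧ z'.1 = 1 + β * j) → φ z * φ z' = φ z' * φ z := by
    rintro z z' ⟨β, hβ, hz⟩ ⟨β', hβ', hz'⟩
    -- the products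
    have prod : ∀ γ γ' : D, γ * m = m * γ → γ' * m = m * γ' →
        (1 + γ * j) * (1 + γ' * j) = (1 + j * j * (γ * star γ')) + (γ + γ') * j := by
      intro γ γ' hγ hγ'
      have h1 : γ * j * (γ' * j) = j * j * (γ * star γ') := by
        rw [mul_assoc γ j, ← mul_assoc j γ' j, j_comm hQ hm hm0 hmj hγ', mul_assoc (star γ'),
          ← mul_assoc γ, ← hjj.cm]
      have h2 : (1 + γ * j) * (1 + γ' * j) = 1 + γ * j + γ' * j + γ * j * (γ' * j) := by
        noncomm_ring
      rw [h2, h1]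
      noncomm_ring
    obtain ⟨μ, hμ⟩ : ∃ μ, μ = 1 + j * j * (β * star β') := ⟨_, rfl⟩
    obtain ⟨μ', hμ'⟩ : ∃ μ, μ = 1 + j * j * (β' * star β) := ⟨_, rfl⟩
    have p1 : (z * z').1 = μ + (β + β') * j := by
      rw [Units.val_mul, hz, hz', prod β β' hβ hβ', ← hμ]
    have p2 : (z' * z).1 = μ' + (β + β') * j := by
      rw [Units.val_mul, hz, hz', prod β' β hβ' hβ, ← hμ', add_comm β' β]
    have hμs : μ' = star μ := by
      rw [hμ, hμ', star_add, star_one, star_mul, star_mul, star_star, hjj.st, ← hjj.cm]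
    have cjj : (j * j) * m = m * (j * j) := hjj.cm m
    have cμ : μ * m = m * μ := by
      rw [hμ, add_mul, mul_add, one_mul, mul_one,
        cmul _ _ cjj (cmul _ _ hβ (cst β' hβ'))]
    by_cases hμ0 : μ = 0
    · have hμ0' : μ' = 0 := by rw [hμs, hμ0, star_zero]
      have h1 : z * z' = z' * z := Units.ext (by rw [p1, p2, hμ0, hμ0'])
      rw [← map_mul, h1, map_mul]
    · have hμ0' : μ' ≠ 0 := by rw [hμs]; rwa [Ne, star_eq_zero]
      -- `z z' = μ x`, `z' z = μ' x'`
      obtain ⟨M, hM⟩ : ∃ M : Dˣ, M.1 = μ := ⟨Units.mk0 μ hμ0, rfl⟩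
      obtain ⟨M', hM'⟩ : ∃ M : Dˣ, M.1 = μ' := ⟨Units.mk0 μ' hμ0', rfl⟩
      have e1 : φ M' = φ M := jstar M M' (by rw [hM]; exact cμ) (by rw [hM, hM', hμs])
      have e2 : φ (M'⁻¹ * (z' * z)) = φ (M⁻¹ * (z * z')) := by
        refine conj M _ _ (by rw [hM]; exact cμ) ?_
        have q1 : (M⁻¹ * (z * z')).1 = 1 + μ⁻¹ * (β + β') * j := by
          rw [Units.val_mul, Units.val_inv_eq_inv_val, hM, p1, mul_add, inv_mul_cancel₀ hμ0,
            ← mul_assoc]
        have q2 : (M'⁻¹ * (z' * z)).1 = 1 + μ'⁻¹ * (β + β') * j := by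
          rw [Units.val_mul, Units.val_inv_eq_inv_val, hM', p2, mul_add, inv_mul_cancel₀ hμ0',
            ← mul_assoc]
        rw [q1, q2, hM, add_mul, mul_add μ, one_mul, mul_one, mul_assoc _ j μ,
          j_comm hQ hm hm0 hmj cμ, ← hμs]
        congr 1
        have h3 : (β + β') * m = m * (β + β') := by rw [add_mul, mul_add, hβ, hβ']
        have cμ' : μ' * m = m * μ' := by rw [hμs]; exact cst μ cμ
        rw [← mul_assoc μ, ← mul_assoc μ, mul_inv_cancel₀ hμ0, one_mul, ← mul_assoc,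
          mul_assoc μ'⁻¹, ccomm _ _ h3 cμ', inv_mul_cancel_left₀ hμ0']
      rw [map_mul φ M'⁻¹, map_mul φ z', map_mul φ M⁻¹, map_mul φ z, map_inv, map_inv, e1,
        mul_right_inj] at e2
      exact e2.symm
  -- the special elements commute
  have special : ∀ w w' : Dˣ, (w = ju ∨ ∃ β : D, β * m = m * β ∧ w.1 = 1 + β * j) →
      (w' = ju ∨ ∃ β : D, β * m = m * β ∧ w'.1 = 1 + β * j) → φ w * φ w' = φ w' * φ w := by
    intro w w' h h'
    rcases h with rfl | h
    · rcases h' with rfl | h'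
      · rfl
      · exact case_j w' h'
    · rcases h' with rfl | h'
      · exact (case_j w h).symm
      · exact case_z w w' h h'
  obtain ⟨μ, w, hμ, rfl, hw⟩ := key x
  obtain ⟨μ', w', hμ', rfl, hw'⟩ := key y
  have s1 := special w w' hw hw'
  rw [map_mul, map_mul]
  calc φ μ * φ w * (φ μ' * φ w') = φ μ * (φ w * φ μ') * φ w' := by simp only [mul_assoc]
    _ = φ μ * (φ μ' * φ w) * φ w' := by rw [hφ μ' w hμ']
    _ = (φ μ * φ μ') * (φ w * φ w') := by simp only [mul_assoc]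
    _ = (φ μ' * φ μ) * (φ w' * φ w) := by rw [hφ μ μ' hμ, s1]
    _ = φ μ' * (φ μ * φ w') * φ w := by simp only [mul_assoc]
    _ = φ μ' * (φ w' * φ μ) * φ w := by rw [hφ μ w' hμ]
    _ = φ μ' * φ w' * (φ μ * φ w) := by simp only [mul_assoc]

end alg

end Vale.Agent.P092.H289.QF
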