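import Vale.Agent.P092.H289.QFG3

/-!
P092, block CLASS-H (helper289): standard description of the class, part 4.  The group generated by the
transvections is the commutator subgroup of the isometry group.
-/

set_option linter.all false

open Matrix

namespace Vale.Agent.P092.H289.QF

open Vale.Agent.P092.H103.QH
open Vale.Agent.P092.H183.DV

variable {n : Type*} [Fintype n] [DecidableEq n] {D : Type*} [DivisionRing D] [StarRing D]
  {ε : D} {J : Matrix n n D}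

theorem cs_units {b : Dˣ} (h : Cs b.1) : Cs (b⁻¹).1 := by
  rw [Units.val_inv_eq_inv_val]
  exact h.inv

/-- The central torus elements are products of transvections. -/
theorem tb_central (hF : Frm ε J) {u w : n → D} (hP : Hp J u w) {b : Dˣ} (hb : Cs b.1) :
    tb hF hP b ∈ GT ε J := by
  obtain ⟨s, hs0, hs⟩ := hF.cc
  have hz : CC ε (ε * (b.1 - 1) * s⁻¹) :=
    (hs.inv hF.eps).smul hF.eps ((eps_cs hF.eps).mul (hb.sub Cs.one))
  refine tb_mem_GT hF hP hs0 hs hz ?_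
  have h1 : ε * s * (ε * (b.1 - 1) * s⁻¹) = b.1 - 1 := by
    have h2 : ε * s * (ε * (b.1 - 1) * s⁻¹) = (ε * s * ε) * ((b.1 - 1) * s⁻¹) := by
      simp only [mul_assoc]
    rw [h2, ← eps_comm hF.eps (ε * s), ← mul_assoc ε ε, eps_sq hF.eps, one_mul,
      (hb.sub Cs.one).cm s⁻¹, mul_inv_cancel_left₀ hs0]
  rw [h1]
  abel

/-- **Transitivity on hyperbolic pairs with a common first vector.** -/
theorem pair_trans (hF : Frm ε J) {ρ : Dˣ} (hρ : Cs ρ.1) (hρ1 : ρ.1 ≠ 1)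
    {u w w' : n → D} (hP : Hp J u w) (hP' : Hp J u w') :
    ∃ g ∈ GT ε J, u ᵥ* g.1 = u ∧ w ᵥ* g.1 = w' := by
  have hwu := hF.swap hP.uw
  have hwu' := hF.swap hP'.uw
  have he := eps_sq hF.eps
  have hρ0 : ρ.1 ≠ 0 := ρ.ne_zero
  obtain ⟨r, hr⟩ : ∃ r, r = ρ.1⁻¹ := ⟨_, rfl⟩
  have hrc : Cs r := by rw [hr]; exact hρ.inv
  have hr1 : r - 1 ≠ 0 := by
    rw [hr]
    refine sub_ne_zero.2 fun h => hρ1 ?_
    rw [← inv_inv ρ.1, h, inv_one]
  have hrρ : r * ρ.1 = 1 := by rw [hr, inv_mul_cancel₀ hρ0]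
  have hsr : (star ρ.1)⁻¹ = r := by rw [hρ.st, hr]
  obtain ⟨q, hq⟩ : ∃ q, q = (r - 1)⁻¹ := ⟨_, rfl⟩
  have hq1 : (r - 1) * q = 1 := by rw [hq, mul_inv_cancel₀ hr1]
  -- the auxiliary vector
  have h1 : hf J u (w + q • (w' - w)) = 1 := by
    rw [hf_add_right, hf_smul_right, sub_eq_add_neg, hf_add_right, hf_neg_right, hP.uw, hP'.uw,
      add_neg_cancel, zero_mul, add_zero]
  obtain ⟨γ, hγ⟩ := hF.exists_corr hP.uu (y := w + q • (w' - w)) (by rw [h1]; exact one_ne_zero)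
  obtain ⟨w₁, hw₁⟩ : ∃ w₁, w₁ = w + q • (w' - w) + γ • u := ⟨_, rfl⟩
  rw [← hw₁] at hγ
  have huw₁ : hf J u w₁ = 1 := by
    rw [hw₁, hf_add_right, hf_smul_right, hP.uu, zero_mul, add_zero, h1]
  have hP₁ : Hp J u w₁ := ⟨hP.uu, hγ, huw₁⟩
  have hrw : (r - 1) • w₁ = (r - 1) • w + (w' - w) + ((r - 1) * γ) • u := by
    rw [hw₁, smul_add, smul_add, smul_smul, smul_smul, hq1, one_smul]
  -- the first element
  obtain ⟨δ₁, hδ₁⟩ : ∃ δ : D, w ᵥ* (tb hF hP₁ ρ).1 = w' + (r - 1) • w + δ • u := by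
    refine ⟨hf J w w₁ * (ρ.1 - 1) + (r - 1) * γ, ?_⟩
    have e1 : w ᵥ* (tb hF hP₁ ρ).1 = w + (hf J w w₁ * (ρ.1 - 1)) • u + (r - 1) • w₁ := by
      show w ᵥ* tbm ε J u w₁ ρ.1 = _
      rw [vecMul_tbm, hwu, hsr, ← mul_assoc, he, one_mul]
    rw [e1, hrw, add_smul]
    abel
  -- the second one
  obtain ⟨δ₂, hδ₂⟩ : ∃ δ : D, w ᵥ* (tb hF hP₁ ρ * tb hF hP ρ⁻¹).1 = w' + δ • u := by
    refine ⟨δ₁ + hf J (w' + (r - 1) • w + δ₁ • u) w * ((ρ⁻¹).1 - 1), ?_⟩
    rw [vecMul_mul', hδ₁]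
    show (w' + (r - 1) • w + δ₁ • u) ᵥ* tbm ε J u w (ρ⁻¹).1 = _
    have e2 : hf J (w' + (r - 1) • w + δ₁ • u) u = r * ε := by
      rw [hf_add_left, hf_add_left, hf_smul_left, hf_smul_left, hwu, hwu', hP.uu, mul_zero,
        add_zero, sub_mul, one_mul]
      abel
    have e3 : (star (ρ⁻¹).1)⁻¹ = ρ.1 := by
      rw [Units.val_inv_eq_inv_val, star_inv₀, inv_inv, hρ.st]
    have e4 : r * ε * (ε * (ρ.1 - 1)) = 1 - r := by
      rw [mul_assoc r, ← mul_assoc ε, he, one_mul, mul_sub, mul_one, hrρ]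
    rw [vecMul_tbm, e2, e3, e4, add_smul, sub_smul, sub_smul, one_smul]
    abel
  obtain ⟨T, hT⟩ : ∃ T, T = tb hF hP₁ ρ * tb hF hP ρ⁻¹ := ⟨_, rfl⟩
  rw [← hT] at hδ₂
  have hTm : T ∈ GT ε J := by
    rw [hT]
    exact mul_mem (tb_central hF hP₁ hρ) (tb_central hF hP (cs_units hρ))
  have huT : u ᵥ* T.1 = u := by
    rw [hT, vecMul_mul', u_tb, smul_vecMul, u_tb, smul_smul, Units.mul_inv, one_smul]
  -- the correction
  have hc : CC ε δ₂ := by
    have h2 : hf J (w' + δ₂ • u) (w' + δ₂ • u) = 0 := by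
      rw [← hδ₂, mem_FG.1 (GT_le hF hTm), hP.ww]
    rw [hf_add_left, hf_add_right, hf_add_right, hf_smul_left, hf_smul_left, hf_smul_right,
      hf_smul_right, hP'.ww, hP.uu, hwu', hP'.uw, zero_mul, mul_zero, add_zero, zero_add,
      mul_one] at h2
    unfold CC
    rw [add_comm]
    exact h2
  have hc' : CC ε (-(ε * δ₂)) := (hc.smul hF.eps (eps_cs hF.eps)).neg
  refine ⟨T * tv J u (-(ε * δ₂)), mul_mem hTm (tv_mem_GT hP.uu hc'), ?_, ?_⟩
  · rw [vecMul_mul', huT, vecMul_tv hP.uu, hP.uu, zero_mul, zero_smul, add_zero]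
  · rw [vecMul_mul', hδ₂, vecMul_tv hP.uu, hf_add_left, hf_smul_left, hwu', hP.uu, mul_zero,
      add_zero, mul_neg, ← mul_assoc, he, one_mul, neg_smul]
    abel

theorem Hp.smul {u w : n → D} (hP : Hp J u w) {a : D} (ha : a ≠ 0) :
    Hp J (a • u) ((star a)⁻¹ • w) := by
  refine ⟨iso_smul hP.uu a, iso_smul hP.ww _, ?_⟩
  rw [hf_smul_left, hf_smul_right, hP.uw, one_mul, star_inv₀, star_star, mul_inv_cancel₀ ha]

theorem Hp.img {u w : n → D} (hP : Hp J u w) {g : (Matrix n n D)ˣ} (hg : g ∈ FG J) :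
    Hp J (u ᵥ* g.1) (w ᵥ* g.1) := by
  refine ⟨?_, ?_, ?_⟩
  · rw [mem_FG.1 hg, hP.uu]
  · rw [mem_FG.1 hg, hP.ww]
  · rw [mem_FG.1 hg, hP.uw]

/-- Correction of the second vector. -/
theorem pair_corr (hF : Frm ε J) {ρ : Dˣ} (hρ : Cs ρ.1) (hρ1 : ρ.1 ≠ 1) {u w u' w' : n → D}
    (hP : Hp J u w) (hP' : Hp J u' w') {g : (Matrix n n D)ˣ} (hg : g ∈ GT ε J) {a : Dˣ}
    (ha : u ᵥ* g.1 = a.1 • u') :
    ∃ g ∈ GT ε J, u ᵥ* g.1 = a.1 • u' ∧ w ᵥ* g.1 = (star a.1)⁻¹ • w' := by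
  have h1 := hP.img (GT_le hF hg)
  rw [ha] at h1
  obtain ⟨g', hg', h3, h4⟩ := pair_trans hF hρ hρ1 h1 (hP'.smul a.ne_zero)
  exact ⟨g * g', mul_mem hg hg', by rw [vecMul_mul', ha, h3], by rw [vecMul_mul', h4]⟩

/-- Transitivity on isotropic lines. -/
theorem trans_line (hF : Frm ε J) {u w : n → D} (hu0 : u ≠ 0) (hu : hf J u u = 0)
    (hw0 : w ≠ 0) (hw : hf J w w = 0) :
    ∃ g ∈ GT ε J, ∃ a : Dˣ, u ᵥ* g.1 = a.1 • w := by
  obtain ⟨z, hz, h1, h2⟩ := hF.exists_conn hu0 hu hw0 hw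
  obtain ⟨d, hd0, hd⟩ := hF.cc
  obtain ⟨g, hg, hga, -⟩ := trans_step hF hu hz h1 hd0 hd
  obtain ⟨g', hg', hga', -⟩ := trans_step hF hz hw h2 hd0 hd
  refine ⟨g * g', mul_mem hg hg', Units.mk0 (hf J u z * d * (hf J z w * d))
    (mul_ne_zero (mul_ne_zero h1 hd0) (mul_ne_zero h2 hd0)), ?_⟩
  rw [vecMul_mul', hga, smul_vecMul, hga', smul_smul]
  rfl

/-- Conjugation of the torus by an isometry which preserves the pair up to scalars. -/
theorem conj_tb (hF : Frm ε J) {u w u' w' : n → D} (hP : Hp J u w) (hP' : Hp J u' w')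
    {g : (Matrix n n D)ˣ} (hg : g ∈ FG J) {a : Dˣ} (h1 : u ᵥ* g.1 = a.1 • u')
    (h2 : w ᵥ* g.1 = (star a.1)⁻¹ • w') (b : Dˣ) :
    tb hF hP b * g = g * tb hF hP' (a⁻¹ * b * a) := by
  have ha0 : a.1 ≠ 0 := a.ne_zero
  have hsa0 : star a.1 ≠ 0 := by rwa [Ne, star_eq_zero]
  have hb0 : b.1 ≠ 0 := b.ne_zero
  refine ext_pair hF hP ?_ ?_ fun y h3 h4 => ?_
  · rw [vecMul_mul', vecMul_mul', u_tb, smul_vecMul, h1, smul_vecMul, u_tb, smul_smul, smul_smul,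
      ← Units.val_mul, ← Units.val_mul]
    congr 2
    group
  · rw [vecMul_mul', vecMul_mul', w_tb, smul_vecMul, h2, smul_vecMul, w_tb, smul_smul, smul_smul]
    congr 1
    rw [Units.val_mul, Units.val_mul, Units.val_inv_eq_inv_val, star_mul, star_mul, star_inv₀,
      mul_inv_rev, mul_inv_rev, inv_inv]
    simp only [mul_assoc]
    rw [inv_mul_cancel_left₀ hsa0]
  · have h5 : hf J (y ᵥ* g.1) u' = 0 := by
      have h6 := mem_FG.1 hg y u
      rw [h1, hf_smul_right, h3] at h6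
      exact (mul_eq_zero.1 h6).resolve_right hsa0
    have h5' : hf J (y ᵥ* g.1) w' = 0 := by
      have h6 := mem_FG.1 hg y w
      rw [h2, hf_smul_right, h4, star_inv₀, star_star] at h6
      exact (mul_eq_zero.1 h6).resolve_right (inv_ne_zero ha0)
    rw [vecMul_mul', vecMul_mul', y_tb hF hP b h3 h4, y_tb hF hP' _ h5 h5']

/-! ### The quotient -/

section quot

variable (hF : Frm ε J)

/-- The subgroup generated by the transvections, in the isometry group. -/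
def NG (ε : D) (J : Matrix n n D) : Subgroup (FG J) := (GT ε J).subgroupOf (FG J)

theorem mem_NG {g : FG J} : g ∈ NG ε J ↔ g.1 ∈ GT ε J := Subgroup.mem_subgroupOf

include hF in
theorem conj_GT {g t : (Matrix n n D)ˣ} (hg : g ∈ FG J) (ht : t ∈ GT ε J) :
    g * t * g⁻¹ ∈ GT ε J := by
  have h2 : GT ε J ≤ (GT ε J).comap (MulAut.conj g).toMonoidHom := by
    conv_lhs => rw [GT]
    rw [Subgroup.closure_le]
    rintro _ ⟨u, c, hu, hc, rfl⟩
    show g * tv J u c * g⁻¹ ∈ GT ε J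
    rw [conj_tv' hg hu]
    exact tv_mem_GT (iso_vecMul (inv_mem hg) hu) hc
  exact h2 ht

include hF in
theorem NG_normal : (NG ε J).Normal :=
  ⟨fun t ht g => mem_NG.2 (conj_GT hF g.2 (mem_NG.1 ht))⟩

end quot

/-- A pure multiple of the identity on an isotropic vector, from the orthogonal. -/
theorem exists_scal (hQ : Qt D) (hF : Frm (-1 : D) J) {u w v : n → D} (hP : Hp J u w)
    (hvu : hf J v u = 0) (hvw : hf J v w = 0) (hv : hf J v v ≠ 0) {a : Dˣ}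
    (ha : a.1 * hf J v v = hf J v v * a.1) :
    ∃ g ∈ GT (-1) J, u ᵥ* g.1 = a.1 • u := by
  have hc1 : CC (-1 : D) 1 := by unfold CC; rw [star_one, mul_one, add_neg_cancel]
  obtain ⟨m, hm⟩ : ∃ m, m = hf J v v := ⟨_, rfl⟩
  rw [← hm] at hv ha
  have hms : star m = -m := by
    have := hF.herm v v
    rw [← hm, neg_one_mul] at this
    rw [eq_neg_iff_add_eq_zero, add_comm, ← eq_neg_iff_add_eq_zero]
    exact this
  have hmP : Pu m := hms
  have hwu := hF.swap hP.uw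
  have huv : hf J u v = 0 := hF.symm_zero hvu
  have hwv : hf J w v = 0 := hF.symm_zero hvw
  -- the special scalars
  have sp : ∀ r : D, Cs r → r + 2⁻¹ * m ≠ 0 → ∃ g ∈ GT (-1) J, u ᵥ* g.1 = (r + 2⁻¹ * m) • u := by
    intro r hr hr0
    obtain ⟨β, hβ⟩ : ∃ β, β = r + 2⁻¹ * m := ⟨_, rfl⟩
    rw [← hβ] at hr0 ⊢
    have hsβ : star β = r - 2⁻¹ * m := by
      rw [hβ, star_add, hr.st, star_mul, hms, Cs.two'.inv.st, neg_mul, ← Cs.two'.inv.cm,
        sub_eq_add_neg]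
    have h2m : 2⁻¹ * m + 2⁻¹ * m = m := by rw [← two_mul, mul_inv_cancel_left₀ hQ.two]
    obtain ⟨z, hz⟩ : ∃ z, z = u + v + β • w := ⟨_, rfl⟩
    have hzu : hf J z u = -β := by
      rw [hz, hf_add_left, hf_add_left, hf_smul_left, hP.uu, hvu, hwu, add_zero, zero_add,
        mul_neg_one]
    have hzw : hf J z w = 1 := by
      rw [hz, hf_add_left, hf_add_left, hf_smul_left, hP.uw, hvw, hP.ww, mul_zero, add_zero,
        add_zero]
    have hzv : hf J z v = m := by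
      rw [hz, hf_add_left, hf_add_left, hf_smul_left, huv, hwv, ← hm, mul_zero, add_zero,
        zero_add]
    have hwz : hf J w z = -1 := by
      rw [hF.herm z w, hzw, star_one, mul_one]
    have hzz : hf J z z = 0 := by
      have e1 : hf J z z = hf J z u + hf J z v + hf J z w * star β := by
        conv_lhs => rw [show hf J z z = hf J z (u + v + β • w) from by rw [← hz]]
        rw [hf_add_right, hf_add_right, hf_smul_right]
      rw [e1, hzu, hzw, hzv, one_mul, hsβ, hβ, ← h2m]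
      have h3 : 2⁻¹ * (2⁻¹ * m + 2⁻¹ * m) = 2⁻¹ * m := by rw [h2m]
      rw [h3]
      abel
    obtain ⟨g₁, hg₁, e₁, -⟩ := trans_step hF hP.uu hP.ww (by rw [hP.uw]; exact one_ne_zero)
      one_ne_zero hc1
    obtain ⟨g₂, hg₂, e₂, -⟩ := trans_step hF hP.ww hzz
      (by rw [hwz]; exact neg_ne_zero.2 one_ne_zero) one_ne_zero hc1
    obtain ⟨g₃, hg₃, e₃, -⟩ := trans_step hF hzz hP.uu
      (by rw [hzu]; exact neg_ne_zero.2 hr0) one_ne_zero hc1
    refine ⟨g₁ * g₂ * g₃, mul_mem (mul_mem hg₁ hg₂) hg₃, ?_⟩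
    rw [vecMul_mul', vecMul_mul', e₁, hP.uw, one_mul, one_smul, e₂, hwz, mul_one, smul_vecMul, e₃,
      hzu, mul_one, smul_smul, neg_mul_neg, one_mul]
  -- the central ones
  have ce : ∀ r : D, Cs r → r ≠ 0 → ∃ g ∈ GT (-1) J, u ᵥ* g.1 = r • u := by
    intro r hr hr0
    exact ⟨tb hF hP (Units.mk0 r hr0), tb_central hF hP (by exact hr), u_tb hF hP _⟩
  obtain ⟨r, s, hr, hs, e⟩ := comm_dec hQ hmP hv ha
  by_cases hs0 : s = 0
  · rw [hs0, zero_mul, add_zero] at e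
    rw [e]
    exact ce r hr (by rw [← e]; exact a.ne_zero)
  · have h20 : (2 : D) * s ≠ 0 := mul_ne_zero hQ.two hs0
    have c2s : Cs (2 * s) := Cs.two'.mul hs
    have e' : a.1 = (2 * s) * ((2 * s)⁻¹ * r + 2⁻¹ * m) := by
      rw [e, mul_add, mul_inv_cancel_left₀ h20]
      congr 1
      rw [Cs.two'.cm s, mul_assoc s, mul_inv_cancel_left₀ hQ.two]
    obtain ⟨g, hg, h1⟩ := ce (2 * s) c2s h20
    obtain ⟨g', hg', h1'⟩ := sp ((2 * s)⁻¹ * r) (c2s.inv.mul hr) (by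
      intro h0
      rw [h0, mul_zero] at e'
      exact a.ne_zero e')
    refine ⟨g * g', mul_mem hg hg', ?_⟩
    rw [vecMul_mul', h1, smul_vecMul, h1', smul_smul, ← e']

end Vale.Agent.P092.H289.QF
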